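import Vale.Agent.P167.H199.CutPlane
import Vale.Agent.P167.BR.Defs
import Vale.Agent.P167.E6.Defs
import Vale.Agent.P167.H638.Cell

/-!
# P167, block 2A: exact statements of the inputs and of the output

Walls (straight families of cut medial edges) with phases in the gauge of helper592 (note 7713 (L)),
flows (linear functionals of the arrows), admissible configurations, and the statements

* `HOS` (block NORM): upper bound of `∫ |X|` for all admissible configurations;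
* `START` (block START): comparison of the cut polygon with holes with `V_D`;
* `S2aQ`: the output of the six legs, `V_n(f + s Δψ) - α V_n(f) → 0`.
-/

namespace Vale.Agent.P167.H825

open Finset Filter Topology MeasureTheory
open Vale.Agent.P167.BR (VD)
open Vale.Agent.P167.E6 (IsPolygon Encloses dir region)

/-- A wall: `L` consecutive cut medial edges crossing a lattice line. `o = false`: the line is
vertical, the cut edges are `inl (q.1, q.2 + k)`, the sites on the line are `(q.1 + 1, q.2 + k)`.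
`o = true`: the line is horizontal, the cut edges are `inr (q.1 + k, q.2)`, the sites on the line are
`(q.1 + k, q.2 + 1)`. The face `false` is the left / lower one, the face `true` the right / upper
one. The phase of a face is the phase of an arrow which points away from the wall on that side: the
face `false` has the phase `c` for `k < k0` and `c + j π/3` for `k0 ≤ k`, the face `true` has the
same phase plus `π/6` (if `t`) or minus `π/6` (if not `t`). -/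
structure Wall where
  o : Bool
  q : ℤ × ℤ
  L : ℕ
  c : ℝ
  t : Bool
  j : ℤ
  k0 : ℕ

/-- The `k`-th cut edge. -/
def Wall.e (w : Wall) (k : ℕ) : Ed :=
  if w.o then Sum.inr (w.q.1 + k, w.q.2) else Sum.inl (w.q.1, w.q.2 + k)

/-- Position of the `k`-th cut edge. -/
def Wall.pos (w : Wall) (k : ℕ) : ℤ × ℤ :=
  if w.o then (w.q.1 + k, w.q.2) else (w.q.1, w.q.2 + k)

/-- The cut edges. -/
def Wall.S (w : Wall) : Finset Ed := (range w.L).image w.e

/-- Phase of the face `false` at the `k`-th edge. -/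
noncomputable def Wall.u (w : Wall) (k : ℕ) : ℝ :=
  w.c + if w.k0 ≤ k then w.j * (Real.pi / 3) else 0

/-- Phase of the face `true` minus the phase of the face `false`. -/
noncomputable def Wall.J (w : Wall) : ℝ := if w.t then Real.pi / 6 else -(Real.pi / 6)

/-- Phases of the half arrows (convention of `H199.Xc`: the factor is
`exp (i ∑ a e b (1 if the arrow is right/up, -1 if not))`). -/
noncomputable def Wall.ph (w : Wall) (e : Ed) (b : Bool) : ℝ :=
  ∑ k ∈ range w.L, if e = w.e k then (if b then w.u k + w.J else - w.u k) else 0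

/-- A configuration: walls and a flow (a linear functional of the arrows). -/
structure WC (ι : Type) where
  w : ι → Wall
  c : Ed → ℝ

/-- Charge of the site `z`: the coefficient of `h z` in `∑ e, c e * arrow e`. -/
def dv (c : Ed → ℝ) (z : ℤ × ℤ) : ℝ :=
  c (Sum.inl (z.1 - 1, z.2 - 1)) - c (Sum.inl (z.1 - 1, z.2)) +
    c (Sum.inr (z.1, z.2 - 1)) - c (Sum.inr (z.1 - 1, z.2 - 1))

/-- Position of a medial edge. -/
def epos : Ed → ℤ × ℤ
  | Sum.inl v => v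
  | Sum.inr v => v

section WC

variable {ι : Type} [Fintype ι]

/-- All cut edges. -/
def WC.S (W : WC ι) : Finset Ed := univ.biUnion fun i => (W.w i).S

/-- All phases. -/
noncomputable def WC.ph (W : WC ι) (e : Ed) (b : Bool) : ℝ :=
  ∑ i, (W.w i).ph e b + W.c e / 2

/-- The functional, normalised by `√3` for every strand. -/
noncomputable def WC.X (W : WC ι) (ω : Cfg) : ℝ := (√3)⁻¹ ^ W.S.card * H199.Xc W.S W.ph ω

/-- Number of the walls with a jump. -/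
noncomputable def WC.jumps (W : WC ι) : ℕ := by
  classical exact #{i | (W.w i).j ≠ 0}

/-- Admissible configurations at scale `n`. -/
structure WC.Adm (W : WC ι) (κ R B : ℝ) (n : ℕ) : Prop where
  len : ∀ i, κ * n ≤ (W.w i).L
  box : ∀ i, ∀ k < (W.w i).L, (nm ((W.w i).pos k) : ℝ) ≤ R * n
  sep : ∀ i i', i ≠ i' → ∀ k < (W.w i).L, ∀ k' < (W.w i').L,
    κ * n ≤ (nm ((W.w i).pos k - (W.w i').pos k') : ℝ)
  jump : ∀ i, (W.w i).j = 0 ∨ (((W.w i).j = 1 ∨ (W.w i).j = -1) ∧ κ * n ≤ (W.w i).k0 ∧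
    (W.w i).k0 + κ * n ≤ (W.w i).L)
  csup : ∀ e, W.c e ≠ 0 → (nm (epos e) : ℝ) ≤ R * n ∧
    ∀ i, ∀ k < (W.w i).L, κ * n ≤ (nm (epos e - (W.w i).pos k) : ℝ)
  cle : ∀ e, |W.c e| ≤ B / n
  dle : ∀ z, |dv W.c z| ≤ B / n ^ 2

end WC

/-- **Block NORM** (upper bound, NO3): for all admissible configurations with at most `M` walls the
mean of `|X|` is at most a constant times one tip factor per wall and one flat factor per jump. -/
def HOS (zt zf : ℕ → ℝ) : Prop :=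
  ∀ (κ R B : ℝ) (M : ℕ), 0 < κ → ∃ C : ℝ, 0 < C ∧ ∀ᶠ n : ℕ in atTop,
    ∀ (ι : Type) [Fintype ι] (W : WC ι), Fintype.card ι ≤ M → W.Adm κ R B n →
      ∫ ω, |W.X ω| ∂μ ≤ C * zt n ^ Fintype.card ι * zf n ^ W.jumps

/-! ### polygons -/

/-- The direction of a unit step. -/
def dirOf (v : ℤ × ℤ) : Fin 4 :=
  if v = (1, 0) then 0 else if v = (0, 1) then 1 else if v = (-1, 0) then 2 else 3

/-- `1` for a left turn, `-1` for a right turn. -/
def tn (a b : Fin 4) : ℤ := if b = a + 1 then 1 else if a = b + 1 then -1 else 0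

/-- The squares of the `n`-fold enlargement. -/
def enl (S₀ : Finset (ℤ × ℤ)) (n : ℕ) : Finset (ℤ × ℤ) :=
  S₀.biUnion fun v => (range n ×ˢ range n).image fun a => (n * v.1 + a.1, n * v.2 + a.2)

/-- The wall along the side which starts at the site `z` in the direction `r`, between the steps `s`
and `e` (the domain is on the left of the side). The face inside the domain has the phase `a`, from
the step `t0` on the phase `a - π/3` (if `t0 = some _`), the face outside has this phase minus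
`π/6`. -/
noncomputable def sideWall (z : ℤ × ℤ) (r : Fin 4) (s e : ℕ) (a : ℝ) (t0 : Option ℕ) : Wall :=
  match r with
  | 0 => ⟨true, (z.1 + s, z.2 - 1), e - s, a - Real.pi / 6, true,
      t0.elim 0 fun _ => -1, t0.elim 0 fun t => t - s⟩
  | 1 => ⟨false, (z.1 - 1, z.2 + s), e - s, a, false,
      t0.elim 0 fun _ => -1, t0.elim 0 fun t => t - s⟩
  | 2 => ⟨true, (z.1 - e, z.2 - 1), e - s, a - t0.elim 0 fun _ => Real.pi / 3, false,
      t0.elim 0 fun _ => 1, t0.elim 0 fun t => e - t⟩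
  | 3 => ⟨false, (z.1 - 1, z.2 - e), e - s, a - Real.pi / 6 - t0.elim 0 fun _ => Real.pi / 3, true,
      t0.elim 0 fun _ => 1, t0.elim 0 fun t => e - t⟩

section poly

variable {l : ℕ} (p : ZMod l → ℤ × ℤ)

/-- Direction of the `i`-th side. -/
def pdir (i : ℕ) : Fin 4 := dirOf (p (i + 1) - p i)

/-- Total turning of the polygon up to the `i`-th side, in quarters. -/
def ptau : ℕ → ℤ
  | 0 => 0
  | i + 1 => ptau i + tn (pdir p i) (pdir p (i + 1))

/-- Marks (centres of the holes) on the sides: the holes of the side `i` are at the positions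
`θ i 0 = 0 < θ i 1 < … < θ i (m + 1) = 1`. The base point is at the position `tp` of the side `0`. -/
structure Marks where
  m : ℕ
  θ : ℕ → ℕ → ℝ
  tp : ℝ

structure Marks.Ok (Q : Marks) : Prop where
  zero : ∀ i, Q.θ i 0 = 0
  one : ∀ i, Q.θ i (Q.m + 1) = 1
  lt : ∀ i, ∀ j ≤ Q.m, Q.θ i j < Q.θ i (j + 1)
  tp0 : 0 < Q.tp
  tp1 : Q.tp < 1
  tpne : ∀ j, Q.θ 0 j ≠ Q.tp

/-- The base site. -/
noncomputable def bsite (Q : Marks) (n : ℕ) : ℤ × ℤ :=
  (n : ℤ) • p 0 + (⌊Q.tp * n⌋₊ : ℤ) • dir (pdir p 0)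

/-- Rounding of the position `t` on a side which starts at `z`: to `t` or `t + 1`, such that the site
has the parity of `b`. -/
def rnd (z b : ℤ × ℤ) (t : ℕ) : ℕ := t + ((z.1 + z.2 + t + b.1 + b.2) % 2).toNat

/-- The `j`-th wall of the `i`-th side, for the enlargement `n` and holes of size `2 d`. Both ends
have the parity of the base site. -/
noncomputable def pwall (Q : Marks) (n d : ℕ) (i j : ℕ) : Wall :=
  sideWall ((n : ℤ) • p i) (pdir p i)
    (rnd ((n : ℤ) • p i) (bsite p Q n) (⌊Q.θ i j * n⌋₊ + d))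
    (rnd ((n : ℤ) • p i) (bsite p Q n) (⌊Q.θ i (j + 1) * n⌋₊ - d))
    (Real.pi / 12 * ptau p i + if i = 0 ∧ Q.θ 0 j < Q.tp then Real.pi / 3 else 0)
    (if i = 0 ∧ Q.θ 0 j < Q.tp ∧ Q.tp < Q.θ 0 (j + 1) then some ⌊Q.tp * n⌋₊ else none)

/-- The cut polygon with holes, and a flow. -/
noncomputable def PW (Q : Marks) (n d : ℕ) (c : Ed → ℝ) : WC (Fin l × Fin (Q.m + 1)) :=
  ⟨fun x => pwall p Q n d x.1 x.2, c⟩

end poly

/-- Flows in the interior of `D`. -/
structure FlowIn (D : Finset (ℤ × ℤ)) (κ B : ℝ) (n : ℕ) (c : Ed → ℝ) : Prop where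
  sup : ∀ e, c e ≠ 0 → ∀ v, (nm (v - epos e) : ℝ) ≤ κ * n → v ∈ D
  cle : ∀ e, |c e| ≤ B / n
  dle : ∀ z, |dv c z| ≤ B / n ^ 2

/-- **Block START** (NO5): the polygon with small holes. -/
def START (zt zf : ℕ → ℝ) : Prop :=
  ∀ (l : ℕ) [NeZero l] (p : ZMod l → ℤ × ℤ) (S₀ : Finset (ℤ × ℤ)), IsPolygon p → Encloses p S₀ →
  ∀ Q : Marks, Q.Ok → ∀ (κ B : ℝ), 0 < κ → ∀ ε > 0, ∃ δ₀ > 0, ∀ δ > 0, δ < δ₀ → ∃ c₀ > 0,
  ∀ᶠ n : ℕ in atTop,
    c₀ * (zt n ^ (l * (Q.m + 1)) * zf n) ≤ ∫ ω, (PW p Q n ⌊δ * n⌋₊ 0).X ω ∂μ ∧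
    ∀ c : Ed → ℝ, FlowIn (enl S₀ n) κ B n c →
      |∫ ω, (PW p Q n ⌊δ * n⌋₊ c).X ω ∂μ -
        (∫ ω, (PW p Q n ⌊δ * n⌋₊ 0).X ω ∂μ) * VD (enl S₀ n) (bsite p Q n) (dv c)| ≤
        ε * ∫ ω, (PW p Q n ⌊δ * n⌋₊ 0).X ω ∂μ

/-! ### the output -/

/-- Divergence. -/
noncomputable def dvg (φ₁ φ₂ : ℝ × ℝ → ℝ) (x : ℝ × ℝ) : ℝ :=
  fderiv ℝ φ₁ x (1, 0) + fderiv ℝ φ₂ x (0, 1)

/-- Laplacian. -/
noncomputable def lapl (ψ : ℝ × ℝ → ℝ) : ℝ × ℝ → ℝ :=
  dvg (fun x => fderiv ℝ ψ x (1, 0)) (fun x => fderiv ℝ ψ x (0, 1))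

/-- The interior of the polygon. -/
def domP (S₀ : Finset (ℤ × ℤ)) : Set (ℝ × ℝ) :=
  {x | (⟨x.1, x.2⟩ : ℂ) ∈ interior (region 1 S₀)}

/-- A box. -/
structure Box where
  xl : ℝ
  xr : ℝ
  yb : ℝ
  yt : ℝ

/-- The four lines of the pinwheel. -/
def Box.lines (b : Box) : Set (ℝ × ℝ) :=
  {x | x.1 = b.xl ∨ (x.2 = b.yt ∧ b.xl ≤ x.1) ∨ (x.1 = b.xr ∧ x.2 ≤ b.yt) ∨
    (x.2 = b.yb ∧ b.xl ≤ x.1 ∧ x.1 ≤ b.xr)}

/-- The box is in the domain, in general position with respect to the lattice and to the base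
point. -/
structure Box.Ok (b : Box) (S₀ : Finset (ℤ × ℤ)) : Prop where
  lr : b.xl < b.xr
  bt : b.yb < b.yt
  sub : ∀ x : ℝ × ℝ, b.xl ≤ x.1 → x.1 ≤ b.xr → b.yb ≤ x.2 → x.2 ≤ b.yt → x ∈ domP S₀
  gx : Int.fract b.xl ≠ 0 ∧ Int.fract b.xr ≠ 0 ∧ Int.fract b.xl ≠ Int.fract b.xr
  gy : Int.fract b.yb ≠ 0 ∧ Int.fract b.yt ≠ 0 ∧ Int.fract b.yb ≠ Int.fract b.yt

/-- The constant `α`. -/
noncomputable def alp (f ψ : ℝ × ℝ → ℝ) (s : ℝ) : ℝ :=
  Real.exp (3 / Real.pi * s * (∫ x, f x * ψ x) -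
    3 / (2 * Real.pi) * s ^ 2 * ∫ x, (fderiv ℝ ψ x (1, 0) ^ 2 + fderiv ℝ ψ x (0, 1) ^ 2))

/-- **Output of block 2A**: for flows `φ` which vanish near the lines of the pinwheel of a box and
all `ψ` supported in the box. -/
def S2aQ : Prop :=
  ∀ (l : ℕ) [NeZero l] (p : ZMod l → ℤ × ℤ) (S₀ : Finset (ℤ × ℤ)), IsPolygon p → Encloses p S₀ →
  ∀ (tp : ℝ), 0 < tp → tp < 1 → ∀ b : Box, b.Ok S₀ →
  (∀ i : ℤ, ∀ y ∈ ({b.xl, b.xr, b.yb, b.yt} : Set ℝ), y ≠ i + tp ∧ y ≠ i - tp) →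
  ∀ φ₁ φ₂ ψ : ℝ × ℝ → ℝ, ContDiff ℝ ((⊤ : ℕ∞) : WithTop ℕ∞) φ₁ →
    ContDiff ℝ ((⊤ : ℕ∞) : WithTop ℕ∞) φ₂ → ContDiff ℝ ((⊤ : ℕ∞) : WithTop ℕ∞) ψ →
    HasCompactSupport φ₁ → HasCompactSupport φ₂ → HasCompactSupport ψ →
    tsupport φ₁ ⊆ domP S₀ → tsupport φ₂ ⊆ domP S₀ →
    tsupport ψ ⊆ {x | b.xl < x.1 ∧ x.1 < b.xr ∧ b.yb < x.2 ∧ x.2 < b.yt} →
    Disjoint (tsupport φ₁) b.lines → Disjoint (tsupport φ₂) b.lines →
  ∀ s : ℝ, Tendsto (fun n : ℕ =>
      VD (enl S₀ n) ((n : ℤ) • p 0 + (⌊tp * n⌋₊ : ℤ) • dir (pdir p 0))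
        (H638.cm (fun x => dvg φ₁ φ₂ x + s * lapl ψ x) (1 / n)) -
      alp (dvg φ₁ φ₂) ψ s *
      VD (enl S₀ n) ((n : ℤ) • p 0 + (⌊tp * n⌋₊ : ℤ) • dir (pdir p 0))
        (H638.cm (dvg φ₁ φ₂) (1 / n))) atTop (𝓝 0)

end Vale.Agent.P167.H825
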