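import Vale.Agent.P167.H825.Sys

/-!
# P167, block LEG: six legs (pinwheel) for insertions

`six_legs`: insertions `g i`, `i = 0, 1, 2, 3` (left, above, right, below) around the central one
`g 4`, separated by corridors of width `4 N`. If the reflection norms of all products of translates
are at most a constant times the product of the normalisations `Z i` (`OSb`), and the normalised
reflection norm of the central one tends to zero, then `w (∏ i, g i n) / ∏ i, Z i n → 0`.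
-/

namespace Vale.Agent.P167.H825

open Finset Filter Topology

set_option linter.unusedSectionVars false
set_option linter.unusedVariables false

variable {M : Type} [CommMonoid M] {S : Sys M} {D : GDir} {θ : ℤ → M → M}

theorem Sys.Refl.neg (hS : S.Ok) (hD : D.Ok) (hR : S.Refl D θ) :
    S.Refl D.neg (fun m => θ (-m)) where
  mul m A B := hR.mul (-m) A B
  one m := hR.one (-m)
  θθ m A := hR.θθ (-m) A
  add m n A := by
    show θ (-(m + n)) A = S.sh (n • (- D.s)) (θ (-m) A)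
    have := hR.add (-m) (-n) A
    rw [show -m + -n = -(m + n) by ring, neg_smul, ← smul_neg] at this
    exact this
  sh m n A := by
    show θ (-m) (S.sh (n • (- D.s)) A) = S.sh (-(n • (- D.s))) (θ (-m) A)
    have := hR.sh (-m) (-n) A
    rw [neg_smul, ← smul_neg] at this
    exact this
  loc h := hR.loc h
  conj m A := hR.conj (-m) A
  pos m k A c h := by
    have hB : ∀ i, S.In {q | -m ≤ D.l q} (θ (-m) (A i)) := fun i =>
      loc_up hS hD hR (hS.mono (h i) fun q hq => by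
        have h1 : m ≤ - D.l q := hq
        show D.l q ≤ -m
        linarith)
    have key := hR.pos (-m) k (fun i => θ (-m) (A i)) (fun i => (starRingEnd ℂ) (c i)) hB
    rw [Finset.sum_comm] at key
    refine key.trans (le_of_eq ?_)
    congr 1
    refine Finset.sum_congr rfl fun i _ => Finset.sum_congr rfl fun j _ => ?_
    show (starRingEnd ℂ) ((starRingEnd ℂ) (c j)) * (starRingEnd ℂ) (c i) *
      S.w (θ (-m) (θ (-m) (A j)) * θ (-m) (A i)) =
      (starRingEnd ℂ) (c i) * c j * S.w (θ (-m) (A i) * A j)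
    rw [hR.θθ, Complex.conj_conj, mul_comm (A j), mul_comm (c j)]

theorem os_neg (m : ℤ) (F : M) : os S (fun m => θ (-m)) m F = os S θ (-m) F := rfl

/-! ### groups -/

/-- translated region -/
def tK (K : Set (ℤ × ℤ)) (a : ℤ × ℤ) : Set (ℤ × ℤ) := {q | q - a ∈ K}

/-- two regions are separated by a horizontal or vertical strip of width `N` -/
def Strip (N : ℤ) (S T : Set (ℤ × ℤ)) : Prop :=
  (∃ c, (∀ q ∈ S, q.1 ≤ c) ∧ ∀ r ∈ T, c + N ≤ r.1) ∨
  (∃ c, (∀ q ∈ T, q.1 ≤ c) ∧ ∀ r ∈ S, c + N ≤ r.1) ∨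
  (∃ c, (∀ q ∈ S, q.2 ≤ c) ∧ ∀ r ∈ T, c + N ≤ r.2) ∨
  (∃ c, (∀ q ∈ T, q.2 ≤ c) ∧ ∀ r ∈ S, c + N ≤ r.2)

theorem Strip.symm {N : ℤ} {S T : Set (ℤ × ℤ)} (h : Strip N S T) : Strip N T S := by
  rcases h with h | h | h | h
  · exact Or.inr (Or.inl h)
  · exact Or.inl h
  · exact Or.inr (Or.inr (Or.inr h))
  · exact Or.inr (Or.inr (Or.inl h))

/-- Bound of the reflection norms of all products of translates, direction `D`: all insertions of
`A` are on the same side of the line `l = m`, at distance at least `N` (in terms of `l`), and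
pairwise separated by strips of width `N`; the central insertion `4` is not moved. -/
def OSb (S : Sys M) (D : GDir) (θ : ℤ → M → M) (N : ℕ → ℕ) (K : Fin 5 → ℕ → Set (ℤ × ℤ))
    (g : Fin 5 → ℕ → M) (Z : Fin 5 → ℕ → ℝ) : Prop :=
  ∀ κ : ℕ, ∃ C : ℝ, 0 < C ∧ ∀ᶠ n : ℕ in atTop, ∀ (A : Finset (Fin 5)) (w : Fin 5 → ℤ × ℤ),
    w 4 = 0 → (∀ i, |(w i).1| ≤ κ ∧ |(w i).2| ≤ κ) →
    (∀ i ∈ A, ∀ j ∈ A, i ≠ j → Strip (N n) (tK (K i n) (N n • w i)) (tK (K j n) (N n • w j))) →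
    ∀ m : ℤ, |m| ≤ κ * N n →
    ((∀ i ∈ A, ∀ q ∈ tK (K i n) (N n • w i), m + N n ≤ D.l q) ∨
      (∀ i ∈ A, ∀ q ∈ tK (K i n) (N n • w i), D.l q ≤ m - N n)) →
    os S θ m (∏ i ∈ A, S.sh (N n • w i) (g i n)) ≤ C * ∏ i ∈ A, Z i n ^ 2

theorem OSb.neg {N : ℕ → ℕ} {K : Fin 5 → ℕ → Set (ℤ × ℤ)} {g : Fin 5 → ℕ → M}
    {Z : Fin 5 → ℕ → ℝ} (h : OSb S D θ N K g Z) : OSb S D.neg (fun m => θ (-m)) N K g Z := by
  intro κ
  obtain ⟨C, hC, h1⟩ := h κ
  refine ⟨C, hC, ?_⟩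
  filter_upwards [h1] with n hn A w hw4 hw hs m hm' hm
  refine hn A w hw4 hw hs (-m) (by rwa [abs_neg]) ?_
  rcases hm with hm | hm
  · right
    intro i hi q hq
    have := hm i hi q hq
    have h2 : m + N n ≤ - D.l q := this
    linarith
  · left
    intro i hi q hq
    have := hm i hi q hq
    have h2 : - D.l q ≤ m - N n := this
    linarith

section gen

variable {N : ℕ → ℕ} {K : Fin 5 → ℕ → Set (ℤ × ℤ)} {g : Fin 5 → ℕ → M} {Z : Fin 5 → ℕ → ℝ}

/-- the statement with the insertions translated by `N w i` -/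
def TT (S : Sys M) (N : ℕ → ℕ) (g : Fin 5 → ℕ → M) (Z : Fin 5 → ℕ → ℝ) (w : Fin 5 → ℤ × ℤ) :
    Prop :=
  Tendsto (fun n => S.w (∏ i, S.sh (N n • w i) (g i n)) / ((∏ i, Z i n : ℝ) : ℂ)) atTop (𝓝 0)

theorem tendsto_div_mul {f : ℕ → ℂ} {a : ℕ → ℝ} {c : ℝ} (hc : c ≠ 0) :
    Tendsto (fun n => f n / ((c * a n : ℝ) : ℂ)) atTop (𝓝 0) ↔
      Tendsto (fun n => f n / ((a n : ℝ) : ℂ)) atTop (𝓝 0) := by
  have e : (fun n => f n / ((c * a n : ℝ) : ℂ)) = fun n => (c : ℂ)⁻¹ * (f n / ((a n : ℝ) : ℂ)) := by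
    funext n
    push_cast
    rw [div_mul_eq_div_div_swap, div_eq_inv_mul]
  rw [e]
  have hc' : (c : ℂ) ≠ 0 := Complex.ofReal_ne_zero.2 hc
  constructor
  · intro h
    have := h.const_mul (c : ℂ)
    rw [mul_zero] at this
    refine this.congr fun n => ?_
    rw [← mul_assoc, mul_inv_cancel₀ hc', one_mul]
  · intro h
    have := h.const_mul (c : ℂ)⁻¹
    rwa [mul_zero] at this

theorem prod_in (hS : S.Ok) {L : Set (ℤ × ℤ)} {ι : Type} (A : Finset ι) (f : ι → M)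
    (h : ∀ i ∈ A, S.In L (f i)) : S.In L (∏ i ∈ A, f i) := by
  classical
  induction A using Finset.induction_on with
  | empty => rw [Finset.prod_empty]; exact hS.one L
  | insert a s ha ih =>
    rw [Finset.prod_insert ha]
    exact hS.mul (h a (Finset.mem_insert_self _ _))
      (ih fun i hi => h i (Finset.mem_insert_of_mem hi))

theorem sh_prod (hS : S.Ok) (v : ℤ × ℤ) {ι : Type} (A : Finset ι) (f : ι → M) :
    S.sh v (∏ i ∈ A, f i) = ∏ i ∈ A, S.sh v (f i) := by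
  classical
  induction A using Finset.induction_on with
  | empty => rw [Finset.prod_empty, Finset.prod_empty, hS.sh_one]
  | insert a s ha ih => rw [Finset.prod_insert ha, Finset.prod_insert ha, hS.sh_mul, ih]

theorem exists_kappa (w : Fin 5 → ℤ × ℤ) : ∃ κ : ℕ, ∀ i, |(w i).1| ≤ κ ∧ |(w i).2| ≤ κ := by
  refine ⟨(∑ i, (|(w i).1| + |(w i).2|)).toNat, fun i => ?_⟩
  have hs : |(w i).1| + |(w i).2| ≤ ∑ i, (|(w i).1| + |(w i).2|) :=
    Finset.single_le_sum (f := fun i => |(w i).1| + |(w i).2|)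
      (fun i _ => by positivity) (Finset.mem_univ i)
  have ht := Int.self_le_toNat (∑ i, (|(w i).1| + |(w i).2|))
  constructor
  · have := abs_nonneg (w i).2
    linarith
  · have := abs_nonneg (w i).1
    linarith

/-- one leg: the insertions of `A` are moved -/
theorem legGen (hS : S.Ok) (hN : ∀ n, 1 ≤ N n) (hg : ∀ i n, S.In (K i n) (g i n))
    (hZ : ∀ i n, 0 < Z i n) (hD : D.Ok) (hR : S.Refl D θ) (hOS : OSb S D θ N K g Z)
    (A : Finset (Fin 5)) (w : Fin 5 → ℤ × ℤ) (hw4 : w 4 = 0) (m : ℕ → ℤ)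
    (hm : ∃ κ : ℕ, ∀ n, |m n| ≤ κ * N n)
    (hup : ∀ i ∈ A, ∀ n, ∀ q ∈ K i n, m n + 4 * N n ≤ D.l (q + N n • w i))
    (hdn : ∀ i, i ∉ A → ∀ n, ∀ q ∈ K i n, D.l (q + N n • w i) ≤ m n)
    (hsepA : ∀ i ∈ A, ∀ j ∈ A, i ≠ j → ∀ n,
      Strip (N n) (tK (K i n) (N n • w i)) (tK (K j n) (N n • w j)))
    (hsepC : ∀ i, i ∉ A → ∀ j, j ∉ A → i ≠ j → ∀ n,
      Strip (N n) (tK (K i n) (N n • w i)) (tK (K j n) (N n • w j)))
    (hlim : ∃ k0 : ℕ, ∀ k : ℕ, k0 ≤ k → TT S N g Z (fun i => w i + if i ∈ A then k • D.s else 0)) :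
    TT S N g Z w := by
  classical
  let F : ℕ → M := fun n => ∏ i ∈ A, S.sh (N n • w i) (g i n)
  let G : ℕ → M := fun n => ∏ i ∈ Aᶜ, S.sh (N n • w i) (g i n)
  have hGF : ∀ n, G n * F n = ∏ i, S.sh (N n • w i) (g i n) := fun n => by
    rw [mul_comm]
    exact Finset.prod_mul_prod_compl A _
  have reg : ∀ (i : Fin 5) (n : ℕ) (q : ℤ × ℤ), q ∈ tK (K i n) (N n • w i) →
      ∃ r ∈ K i n, q = r + N n • w i := fun i n q hq =>
    ⟨q - N n • w i, hq, by rw [sub_add_cancel]⟩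
  have hNn : ∀ n, (0 : ℤ) ≤ N n := fun n => by positivity
  have hF : ∀ n, S.In {q | m n + N n + 2 * N n ≤ D.l q} (F n) := fun n =>
    prod_in hS A _ fun i hi => hS.mono (hS.shift _ (hg i n)) fun q hq => by
      obtain ⟨r, hr, rfl⟩ := reg i n q hq
      have := hup i hi n r hr
      have := hNn n
      show m n + N n + 2 * N n ≤ _
      linarith
  have hG : ∀ n, S.In {q | D.l q ≤ m n + N n} (G n) := fun n =>
    prod_in hS Aᶜ _ fun i hi => hS.mono (hS.shift _ (hg i n)) fun q hq => by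
      obtain ⟨r, hr, rfl⟩ := reg i n q hq
      have := hdn i (Finset.mem_compl.1 hi) n r hr
      have := hNn n
      show _ ≤ m n + N n
      linarith
  obtain ⟨κ1, hκ1⟩ := exists_kappa w
  obtain ⟨κ2, hκ2⟩ := hm
  set κ : ℕ := κ1 + κ2 + 3 with hκ
  have hκw : ∀ i, |(w i).1| ≤ κ ∧ |(w i).2| ≤ κ := fun i => by
    have := hκ1 i
    have h2 : (κ : ℤ) = κ1 + κ2 + 3 := by rw [hκ]; push_cast; ring
    rw [h2]
    constructor
    · have := this.1; linarith [Int.natCast_nonneg κ2]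
    · have := this.2; linarith [Int.natCast_nonneg κ2]
  have hκm : ∀ n (j : ℤ), 0 ≤ j → j ≤ 3 → |m n + j * N n| ≤ κ * N n := fun n j hj0 hj3 => by
    have h2 : (κ : ℤ) = κ1 + κ2 + 3 := by rw [hκ]; push_cast; ring
    have h3 := abs_add_le (m n) (j * N n)
    have h4 : |j * (N n : ℤ)| = j * N n := abs_of_nonneg (mul_nonneg hj0 (hNn n))
    have h5 : j * (N n : ℤ) ≤ 3 * N n := mul_le_mul_of_nonneg_right hj3 (hNn n)
    have h6 : (0 : ℤ) ≤ κ1 * N n := by positivity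
    rw [h4] at h3
    rw [h2]
    have h7 := hκ2 n
    nlinarith
  obtain ⟨C, hC, hev⟩ := hOS κ
  have hprod : ∀ n, 0 < ∏ i, Z i n := fun n => Finset.prod_pos fun i _ => hZ i n
  have hP2 : ∀ (B : Finset (Fin 5)) n, 0 ≤ ∏ i ∈ B, Z i n := fun B n =>
    Finset.prod_nonneg fun i _ => (hZ i n).le
  have key := legLimS hS hD hR N (fun n => m n + N n) F G (fun n => C * ∏ i, Z i n)
    (fun n => mul_pos hC (hprod n)) hF hG ?_ ?_
  · rw [tendsto_div_mul hC.ne'] at key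
    refine key.congr fun n => ?_
    rw [hGF]
  · filter_upwards [hev] with n hn
    have h1 : os S θ (m n + N n) (G n) ≤ C * ∏ i ∈ Aᶜ, Z i n ^ 2 := by
      refine hn Aᶜ w hw4 hκw (fun i hi j hj hij => hsepC i (Finset.mem_compl.1 hi) j
        (Finset.mem_compl.1 hj) hij n) _ ?_ (Or.inr fun i hi q hq => ?_)
      · have := hκm n 1 (by norm_num) (by norm_num)
        rwa [one_mul] at this
      · obtain ⟨r, hr, rfl⟩ := reg i n q hq
        have := hdn i (Finset.mem_compl.1 hi) n r hr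
        linarith
    have h2 : os S θ (m n + N n + 2 * N n) (F n) ≤ C * ∏ i ∈ A, Z i n ^ 2 := by
      refine hn A w hw4 hκw (fun i hi j hj hij => hsepA i hi j hj hij n) _ ?_
        (Or.inl fun i hi q hq => ?_)
      · have := hκm n 3 (by norm_num) (by norm_num)
        rw [show m n + N n + 2 * (N n : ℤ) = m n + 3 * N n by ring]
        exact this
      · obtain ⟨r, hr, rfl⟩ := reg i n q hq
        have := hup i hi n r hr
        linarith
    calc √(os S θ (m n + N n) (G n)) * √(os S θ (m n + N n + 2 * N n) (F n))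
        ≤ √(C * ∏ i ∈ Aᶜ, Z i n ^ 2) * √(C * ∏ i ∈ A, Z i n ^ 2) :=
          mul_le_mul (Real.sqrt_le_sqrt h1) (Real.sqrt_le_sqrt h2) (Real.sqrt_nonneg _)
            (Real.sqrt_nonneg _)
      _ = C * ∏ i, Z i n := by
          rw [Finset.prod_pow, Finset.prod_pow, Real.sqrt_mul hC.le, Real.sqrt_mul hC.le,
            Real.sqrt_sq (hP2 _ n), Real.sqrt_sq (hP2 _ n),
            ← Finset.prod_mul_prod_compl A (fun i => Z i n)]
          have := Real.mul_self_sqrt hC.le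
          calc _ = (√C * √C) * ((∏ i ∈ A, Z i n) * ∏ i ∈ Aᶜ, Z i n) := by ring
            _ = _ := by rw [this]
  · obtain ⟨k0, hk⟩ := hlim
    refine ⟨k0, fun k hk0 => ?_⟩
    have h1 := hk k hk0
    rw [tendsto_div_mul hC.ne']
    refine h1.congr fun n => ?_
    congr 2
    show _ = G n * S.sh (((k * N n : ℕ) : ℤ) • D.s) (F n)
    rw [sh_prod hS, mul_comm, ← Finset.prod_mul_prod_compl A]
    congr 1
    · refine Finset.prod_congr rfl fun i hi => ?_
      show S.sh (N n • (w i + if i ∈ A then k • D.s else 0)) (g i n) = _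
      rw [if_pos hi, hS.sh_sh]
      congr 1
      rw [smul_add, smul_smul, natCast_zsmul, mul_comm (N n) k, add_comm]
    · refine Finset.prod_congr rfl fun i hi => ?_
      show S.sh (N n • (w i + if i ∈ A then k • D.s else 0)) (g i n) = _
      rw [if_neg (Finset.mem_compl.1 hi), add_zero]

end gen

/-! ### the pinwheel -/

/-- regions: left, above, right, below, centre -/
def KK (ρ : ℕ) (N : ℕ → ℕ) (xl xr yb yt : ℕ → ℤ) (i : Fin 5) (n : ℕ) : Set (ℤ × ℤ) :=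
  {q | |q.1| ≤ ρ * N n ∧ |q.2| ≤ ρ * N n ∧
    (![q.1 ≤ xl n - 4 * N n,
      yt n + 4 * N n ≤ q.2 ∧ xl n ≤ q.1,
      xr n + 4 * N n ≤ q.1 ∧ q.2 ≤ yt n,
      q.2 ≤ yb n - 4 * N n ∧ xl n ≤ q.1 ∧ q.1 ≤ xr n,
      yb n ≤ q.2 ∧ q.2 ≤ yt n ∧ xl n ≤ q.1 ∧ q.1 ≤ xr n] i)}

section pin

variable {ρ : ℕ} {N : ℕ → ℕ} {xl xr yb yt : ℕ → ℤ}

/-- displacements of the insertions 0, 1, 2 -/
def wv (a b c : ℤ × ℤ) : Fin 5 → ℤ × ℤ := ![a, b, c, 0, 0]

/-- the translated regions `i` and `j` are separated for all `n` -/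
def SP (ρ : ℕ) (N : ℕ → ℕ) (xl xr yb yt : ℕ → ℤ) (w : Fin 5 → ℤ × ℤ) (i j : Fin 5) : Prop :=
  ∀ n, Strip (N n) (tK (KK ρ N xl xr yb yt i n) (N n • w i))
    (tK (KK ρ N xl xr yb yt j n) (N n • w j))

theorem SP.symm {w : Fin 5 → ℤ × ℤ} {i j : Fin 5} (h : SP ρ N xl xr yb yt w i j) :
    SP ρ N xl xr yb yt w j i := fun n => (h n).symm

theorem SP.v {w : Fin 5 → ℤ × ℤ} {i j : Fin 5} (c : ℕ → ℤ)
    (h1 : ∀ n, ∀ q ∈ KK ρ N xl xr yb yt i n, q.1 + N n * (w i).1 ≤ c n)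
    (h2 : ∀ n, ∀ q ∈ KK ρ N xl xr yb yt j n, c n + N n ≤ q.1 + N n * (w j).1) :
    SP ρ N xl xr yb yt w i j := fun n => by
  refine Or.inl ⟨c n, fun q hq => ?_, fun q hq => ?_⟩
  · have := h1 n _ hq
    rw [Prod.fst_sub, Prod.smul_fst, nsmul_eq_mul] at this
    linarith
  · have := h2 n _ hq
    rw [Prod.fst_sub, Prod.smul_fst, nsmul_eq_mul] at this
    linarith

theorem SP.h {w : Fin 5 → ℤ × ℤ} {i j : Fin 5} (c : ℕ → ℤ)
    (h1 : ∀ n, ∀ q ∈ KK ρ N xl xr yb yt i n, q.2 + N n * (w i).2 ≤ c n)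
    (h2 : ∀ n, ∀ q ∈ KK ρ N xl xr yb yt j n, c n + N n ≤ q.2 + N n * (w j).2) :
    SP ρ N xl xr yb yt w i j := fun n => by
  refine Or.inr (Or.inr (Or.inl ⟨c n, fun q hq => ?_, fun q hq => ?_⟩))
  · have := h1 n _ hq
    rw [Prod.snd_sub, Prod.smul_snd, nsmul_eq_mul] at this
    linarith
  · have := h2 n _ hq
    rw [Prod.snd_sub, Prod.smul_snd, nsmul_eq_mul] at this
    linarith

theorem KK0 {n : ℕ} {q : ℤ × ℤ} (h : q ∈ KK ρ N xl xr yb yt 0 n) :
    |q.1| ≤ ρ * N n ∧ |q.2| ≤ ρ * N n ∧ q.1 ≤ xl n - 4 * N n := h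

theorem KK1 {n : ℕ} {q : ℤ × ℤ} (h : q ∈ KK ρ N xl xr yb yt 1 n) :
    |q.1| ≤ ρ * N n ∧ |q.2| ≤ ρ * N n ∧ yt n + 4 * N n ≤ q.2 ∧ xl n ≤ q.1 := h

theorem KK2 {n : ℕ} {q : ℤ × ℤ} (h : q ∈ KK ρ N xl xr yb yt 2 n) :
    |q.1| ≤ ρ * N n ∧ |q.2| ≤ ρ * N n ∧ xr n + 4 * N n ≤ q.1 ∧ q.2 ≤ yt n := h

theorem KK3 {n : ℕ} {q : ℤ × ℤ} (h : q ∈ KK ρ N xl xr yb yt 3 n) :
    |q.1| ≤ ρ * N n ∧ |q.2| ≤ ρ * N n ∧ q.2 ≤ yb n - 4 * N n ∧ xl n ≤ q.1 ∧ q.1 ≤ xr n := h

theorem KK4 {n : ℕ} {q : ℤ × ℤ} (h : q ∈ KK ρ N xl xr yb yt 4 n) :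
    |q.1| ≤ ρ * N n ∧ |q.2| ≤ ρ * N n ∧ yb n ≤ q.2 ∧ q.2 ≤ yt n ∧ xl n ≤ q.1 ∧ q.1 ≤ xr n := h

theorem sp01 {a b c : ℤ × ℤ} (h : a.1 ≤ b.1) : SP ρ N xl xr yb yt (wv a b c) 0 1 := by
  refine SP.v (fun n => xl n - 4 * N n + N n * a.1) (fun n q hq => ?_) (fun n q hq => ?_)
  · have := (KK0 hq).2.2
    show q.1 + N n * a.1 ≤ _
    linarith
  · have := (KK1 hq).2.2.2
    show _ ≤ q.1 + N n * b.1
    have hN : (0 : ℤ) ≤ N n := by positivity
    have := mul_le_mul_of_nonneg_left h hN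
    linarith

theorem sp12 {a b c : ℤ × ℤ} (h : c.2 ≤ b.2) : SP ρ N xl xr yb yt (wv a b c) 2 1 := by
  refine SP.h (fun n => yt n + N n * c.2) (fun n q hq => ?_) (fun n q hq => ?_)
  · have := (KK2 hq).2.2.2
    show q.2 + N n * c.2 ≤ _
    linarith
  · have := (KK1 hq).2.2.1
    show _ ≤ q.2 + N n * b.2
    have hN : (0 : ℤ) ≤ N n := by positivity
    have := mul_le_mul_of_nonneg_left h hN
    linarith

theorem sp02v (hlr : ∀ n, xl n ≤ xr n) {a b c : ℤ × ℤ} (h : a.1 ≤ c.1) :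
    SP ρ N xl xr yb yt (wv a b c) 0 2 := by
  refine SP.v (fun n => xl n - 4 * N n + N n * a.1) (fun n q hq => ?_) (fun n q hq => ?_)
  · have := (KK0 hq).2.2
    show q.1 + N n * a.1 ≤ _
    linarith
  · have := (KK2 hq).2.2.1
    show _ ≤ q.1 + N n * c.1
    have hN : (0 : ℤ) ≤ N n := by positivity
    have := mul_le_mul_of_nonneg_left h hN
    have := hlr n
    linarith

theorem sp02h {a b c : ℤ × ℤ} (h : 2 * (ρ : ℤ) + 1 + c.2 ≤ a.2) :
    SP ρ N xl xr yb yt (wv a b c) 2 0 := by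
  refine SP.h (fun n => N n * (ρ + c.2)) (fun n q hq => ?_) (fun n q hq => ?_)
  · have := (abs_le.1 (KK2 hq).2.1).2
    show q.2 + N n * c.2 ≤ _
    nlinarith
  · have := (abs_le.1 (KK0 hq).2.1).1
    show _ ≤ q.2 + N n * a.2
    have hN : (0 : ℤ) ≤ N n := by positivity
    have := mul_le_mul_of_nonneg_left h hN
    nlinarith

theorem sp03v (h0 : ∀ n, |xr n| ≤ ρ * N n) {a b c : ℤ × ℤ} (h : 2 * (ρ : ℤ) + 1 ≤ a.1) :
    SP ρ N xl xr yb yt (wv a b c) 3 0 := by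
  refine SP.v (fun n => xr n) (fun n q hq => ?_) (fun n q hq => ?_)
  · have := (KK3 hq).2.2.2.2
    show q.1 + N n * 0 ≤ _
    linarith
  · have := (abs_le.1 (KK0 hq).1).1
    show _ ≤ q.1 + N n * a.1
    have hN : (0 : ℤ) ≤ N n := by positivity
    have := mul_le_mul_of_nonneg_left h hN
    have := (abs_le.1 (h0 n)).2
    nlinarith

theorem sp13v (h0 : ∀ n, |xr n| ≤ ρ * N n) {a b c : ℤ × ℤ} (h : 2 * (ρ : ℤ) + 1 ≤ b.1) :
    SP ρ N xl xr yb yt (wv a b c) 3 1 := by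
  refine SP.v (fun n => xr n) (fun n q hq => ?_) (fun n q hq => ?_)
  · have := (KK3 hq).2.2.2.2
    show q.1 + N n * 0 ≤ _
    linarith
  · have := (abs_le.1 (KK1 hq).1).1
    show _ ≤ q.1 + N n * b.1
    have hN : (0 : ℤ) ≤ N n := by positivity
    have := mul_le_mul_of_nonneg_left h hN
    have := (abs_le.1 (h0 n)).2
    nlinarith

theorem sp13h (hbt : ∀ n, yb n ≤ yt n) {a b c : ℤ × ℤ} (h : 0 ≤ b.2) :
    SP ρ N xl xr yb yt (wv a b c) 3 1 := by
  refine SP.h (fun n => yt n) (fun n q hq => ?_) (fun n q hq => ?_)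
  · have := (KK3 hq).2.2.1
    show q.2 + N n * 0 ≤ _
    have hN : (0 : ℤ) ≤ N n := by positivity
    have := hbt n
    linarith
  · have := (KK1 hq).2.2.1
    show _ ≤ q.2 + N n * b.2
    have hN : (0 : ℤ) ≤ N n := by positivity
    have := mul_nonneg hN h
    linarith

theorem sp14h {a b c : ℤ × ℤ} (h : 0 ≤ b.2) : SP ρ N xl xr yb yt (wv a b c) 4 1 := by
  refine SP.h (fun n => yt n) (fun n q hq => ?_) (fun n q hq => ?_)
  · have := (KK4 hq).2.2.2.1
    show q.2 + N n * 0 ≤ _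
    linarith
  · have := (KK1 hq).2.2.1
    show _ ≤ q.2 + N n * b.2
    have hN : (0 : ℤ) ≤ N n := by positivity
    have := mul_nonneg hN h
    linarith

theorem sp23 {a b c : ℤ × ℤ} (h : 0 ≤ c.1) : SP ρ N xl xr yb yt (wv a b c) 3 2 := by
  refine SP.v (fun n => xr n) (fun n q hq => ?_) (fun n q hq => ?_)
  · have := (KK3 hq).2.2.2.2
    show q.1 + N n * 0 ≤ _
    linarith
  · have := (KK2 hq).2.2.1
    show _ ≤ q.1 + N n * c.1
    have hN : (0 : ℤ) ≤ N n := by positivity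
    have := mul_nonneg hN h
    linarith

theorem sp24 {a b c : ℤ × ℤ} (h : 0 ≤ c.1) : SP ρ N xl xr yb yt (wv a b c) 4 2 := by
  refine SP.v (fun n => xr n) (fun n q hq => ?_) (fun n q hq => ?_)
  · have := (KK4 hq).2.2.2.2.2
    show q.1 + N n * 0 ≤ _
    linarith
  · have := (KK2 hq).2.2.1
    show _ ≤ q.1 + N n * c.1
    have hN : (0 : ℤ) ≤ N n := by positivity
    have := mul_nonneg hN h
    linarith

theorem sp34 {a b c : ℤ × ℤ} : SP ρ N xl xr yb yt (wv a b c) 3 4 := by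
  refine SP.h (fun n => yb n - 4 * N n) (fun n q hq => ?_) (fun n q hq => ?_)
  · have := (KK3 hq).2.2.1
    show q.2 + N n * 0 ≤ _
    linarith
  · have := (KK4 hq).2.2.1
    show _ ≤ q.2 + N n * 0
    have hN : (0 : ℤ) ≤ N n := by positivity
    linarith

theorem wv_add (a b c d : ℤ × ℤ) (A : Finset (Fin 5)) (h3 : (3 : Fin 5) ∉ A)
    (h4 : (4 : Fin 5) ∉ A) :
    (fun i => wv a b c i + if i ∈ A then d else 0) =
      wv (a + if 0 ∈ A then d else 0) (b + if 1 ∈ A then d else 0)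
        (c + if 2 ∈ A then d else 0) := by
  funext i
  fin_cases i
  · rfl
  · rfl
  · rfl
  · show (0 : ℤ × ℤ) + (if (3 : Fin 5) ∈ A then d else 0) = 0
    rw [if_neg h3, add_zero]
  · show (0 : ℤ × ℤ) + (if (4 : Fin 5) ∈ A then d else 0) = 0
    rw [if_neg h4, add_zero]

/-- separation of all pairs of a set of indices -/
theorem sepOf {w : Fin 5 → ℤ × ℤ} (A : Finset (Fin 5))
    (h : ∀ i ∈ A, ∀ j ∈ A, i < j → SP ρ N xl xr yb yt w i j) :
    ∀ i ∈ A, ∀ j ∈ A, i ≠ j → ∀ n, Strip (N n) (tK (KK ρ N xl xr yb yt i n) (N n • w i))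
      (tK (KK ρ N xl xr yb yt j n) (N n • w j)) := by
  intro i hi j hj hij
  rcases lt_or_gt_of_ne hij with h1 | h1
  · exact h i hi j hj h1
  · exact (h j hj i hi h1).symm

variable {g : Fin 5 → ℕ → M} {Z : Fin 5 → ℕ → ℝ} {θX θY θD θA : ℤ → M → M}

/-- last step: everything except the centre is below the line `q.2 = yb n - 2 N n` -/
theorem last_step (hS : S.Ok) (hN : ∀ n, 1 ≤ N n)
    (hb : ∀ n, |yb n| ≤ ρ * N n)
    (hg : ∀ i n, S.In (KK ρ N xl xr yb yt i n) (g i n)) (hZ : ∀ i n, 0 < Z i n)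
    (hRY : S.Refl gY θY) (hOY : OSb S gY θY N (KK ρ N xl xr yb yt) g Z)
    (hY : Tendsto (fun n => os S θY (yb n - 2 * N n) (g 4 n) / Z 4 n ^ 2) atTop (𝓝 0))
    (w : Fin 5 → ℤ × ℤ) (hw4 : w 4 = 0)
    (hsep : ∀ i ∈ ({4}ᶜ : Finset (Fin 5)), ∀ j ∈ ({4}ᶜ : Finset (Fin 5)), i ≠ j → ∀ n,
      Strip (N n) (tK (KK ρ N xl xr yb yt i n) (N n • w i))
        (tK (KK ρ N xl xr yb yt j n) (N n • w j)))
    (hdn : ∀ i, i ≠ 4 → ∀ n, ∀ q ∈ KK ρ N xl xr yb yt i n, q.2 + N n * (w i).2 ≤ yb n - 3 * N n) :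
    TT S N g Z w := by
  classical
  have hNn : ∀ n, (0 : ℤ) ≤ N n := fun n => by positivity
  let G : ℕ → M := fun n => ∏ i ∈ ({4}ᶜ : Finset (Fin 5)), S.sh (N n • w i) (g i n)
  have hGF : ∀ n, ∏ i, S.sh (N n • w i) (g i n) = G n * g 4 n := fun n => by
    rw [mul_comm, ← Finset.prod_mul_prod_compl {4}, Finset.prod_singleton, hw4, smul_zero,
      hS.sh_zero]
  have hF : ∀ n, S.In {q | yb n - 2 * N n ≤ gY.l q} (g 4 n) := fun n =>
    hS.mono (hg 4 n) fun q hq => by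
      have := (KK4 hq).2.2.1
      show yb n - 2 * N n ≤ q.2
      linarith [hNn n]
  have reg : ∀ (i : Fin 5), i ≠ 4 → ∀ (n : ℕ) (q : ℤ × ℤ),
      q ∈ tK (KK ρ N xl xr yb yt i n) (N n • w i) → q.2 ≤ yb n - 3 * N n := fun i hi n q hq => by
    have := hdn i hi n _ hq
    rw [Prod.snd_sub, Prod.smul_snd, nsmul_eq_mul] at this
    linarith
  have hG : ∀ n, S.In {q | gY.l q ≤ yb n - 2 * N n} (G n) := fun n =>
    prod_in hS _ _ fun i hi => hS.mono (hS.shift _ (hg i n)) fun q hq => by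
      have := reg i (by simpa using hi) n q hq
      show q.2 ≤ _
      linarith [hNn n]
  obtain ⟨κ1, hκ1⟩ := exists_kappa w
  set κ : ℕ := κ1 + ρ + 2 with hκ
  have hκ' : (κ : ℤ) = κ1 + ρ + 2 := by rw [hκ]; push_cast; ring
  obtain ⟨C, hC, hev⟩ := hOY κ
  have hP2 : ∀ (B : Finset (Fin 5)) n, 0 < ∏ i ∈ B, Z i n := fun B n =>
    Finset.prod_pos fun i _ => hZ i n
  have hlim : Tendsto (fun n => √C * √(os S θY (yb n - 2 * N n) (g 4 n) / Z 4 n ^ 2))
      atTop (𝓝 0) := by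
    have h1 := (Real.continuous_sqrt.tendsto _).comp hY
    rw [Real.sqrt_zero] at h1
    have h2 := h1.const_mul √C
    rw [mul_zero] at h2
    exact h2
  refine squeeze_zero_norm' ?_ hlim
  filter_upwards [hev] with n hn
  have h1 : os S θY (yb n - 2 * N n) (G n) ≤
      C * ∏ i ∈ ({4}ᶜ : Finset (Fin 5)), Z i n ^ 2 := by
    refine hn _ w hw4 (fun i => ?_) (fun i hi j hj hij => hsep i hi j hj hij n) _ ?_
      (Or.inr fun i hi q hq => ?_)
    · rw [hκ']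
      have := hκ1 i
      constructor
      · have := this.1; linarith [Int.natCast_nonneg ρ]
      · have := this.2; linarith [Int.natCast_nonneg ρ]
    · have h2 := abs_sub (yb n) (2 * N n)
      have h3 := hb n
      have h4 : |2 * (N n : ℤ)| = 2 * N n := abs_of_nonneg (by linarith [hNn n])
      rw [h4] at h2
      rw [hκ']
      have h5 : (0 : ℤ) ≤ κ1 * N n := by positivity
      nlinarith
    · have := reg i (by simpa using hi) n q hq
      show q.2 ≤ _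
      linarith
  rw [hGF, norm_div, Complex.norm_real, Real.norm_eq_abs, abs_of_pos (hP2 _ n)]
  have h2 := csS hS gY_ok hRY (hF n) (hG n)
  have hZ4 := hZ 4 n
  rw [div_le_iff₀ (hP2 _ n)]
  refine h2.trans ?_
  have h3 : √(os S θY (yb n - 2 * N n) (G n)) ≤
      √C * ∏ i ∈ ({4}ᶜ : Finset (Fin 5)), Z i n := by
    refine (Real.sqrt_le_sqrt h1).trans ?_
    rw [Finset.prod_pow, Real.sqrt_mul hC.le, Real.sqrt_sq (hP2 _ n).le]
  rw [Real.sqrt_div' _ (sq_nonneg _), Real.sqrt_sq hZ4.le,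
    ← Finset.prod_mul_prod_compl {4} (fun i => Z i n), Finset.prod_singleton]
  calc √(os S θY (yb n - 2 * N n) (G n)) * √(os S θY (yb n - 2 * N n) (g 4 n))
      ≤ (√C * ∏ i ∈ ({4}ᶜ : Finset (Fin 5)), Z i n) * √(os S θY (yb n - 2 * N n) (g 4 n)) :=
        mul_le_mul_of_nonneg_right h3 (Real.sqrt_nonneg _)
    _ = √C * (√(os S θY (yb n - 2 * N n) (g 4 n)) / Z 4 n) *
          (Z 4 n * ∏ i ∈ ({4}ᶜ : Finset (Fin 5)), Z i n) := by
        field_simp

/-- **six legs** -/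
theorem six_legs (hS : S.Ok) (hN : ∀ n, 1 ≤ N n)
    (hbox : ∀ n, |xl n| ≤ ρ * N n ∧ |xr n| ≤ ρ * N n ∧ |yb n| ≤ ρ * N n ∧ |yt n| ≤ ρ * N n)
    (hlr : ∀ n, xl n ≤ xr n) (hbt : ∀ n, yb n ≤ yt n)
    (hg : ∀ i n, S.In (KK ρ N xl xr yb yt i n) (g i n)) (hZ : ∀ i n, 0 < Z i n)
    (hRX : S.Refl gX θX) (hRY : S.Refl gY θY) (hRD : S.Refl gD θD) (hRA : S.Refl gA θA)
    (hOX : OSb S gX θX N (KK ρ N xl xr yb yt) g Z) (hOY : OSb S gY θY N (KK ρ N xl xr yb yt) g Z)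
    (hOD : OSb S gD θD N (KK ρ N xl xr yb yt) g Z) (hOA : OSb S gA θA N (KK ρ N xl xr yb yt) g Z)
    (hY : Tendsto (fun n => os S θY (yb n - 2 * N n) (g 4 n) / Z 4 n ^ 2) atTop (𝓝 0)) :
    Tendsto (fun n => S.w (∏ i, g i n) / ((∏ i, Z i n : ℝ) : ℂ)) atTop (𝓝 0) := by
  classical
  have hNn : ∀ n, (0 : ℤ) ≤ N n := fun n => by positivity
  have c0 : ∀ i : Fin 5, i ∉ ({0} : Finset (Fin 5)) → i = 1 ∨ i = 2 ∨ i = 3 ∨ i = 4 := by decide
  have c01 : ∀ i : Fin 5, i ∉ ({0, 1} : Finset (Fin 5)) → i = 2 ∨ i = 3 ∨ i = 4 := by decide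
  have c012 : ∀ i : Fin 5, i ∉ ({0, 1, 2} : Finset (Fin 5)) → i = 3 ∨ i = 4 := by decide
  have c4 : ∀ i : Fin 5, i ≠ 4 → i = 0 ∨ i = 1 ∨ i = 2 ∨ i = 3 := by decide
  have d01 : ∀ i : Fin 5, i ∈ ({0, 1} : Finset (Fin 5)) → i = 0 ∨ i = 1 := by decide
  have d012 : ∀ i : Fin 5, i ∈ ({0, 1, 2} : Finset (Fin 5)) → i = 0 ∨ i = 1 ∨ i = 2 := by decide
  -- final position
  have T6 : ∀ k1 k2 k3 k4 k5 k6 : ℕ, 2 * ρ + 4 + 2 * k1 + k2 ≤ k4 →
      2 * ρ + 3 + k2 + 2 * k3 + k4 ≤ k6 →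
      TT S N g Z (wv (-2 * k1 - k2 + k4 + 2 * k5 + k6, k2 + 2 * k3 + k4 - k6)
        (k4 + 2 * k5 + k6, 2 * k3 + k4 - k6) (2 * k5 + k6, -k6)) := by
    intro k1 k2 k3 k4 k5 k6 h4 h6
    refine last_step hS hN (fun n => (hbox n).2.2.1) hg hZ hRY hOY hY _ rfl
      (sepOf _ fun i hi j hj hij => ?_) (fun i hi n q hq => ?_)
    · have ht : (i = 0 ∧ j = 1) ∨ (i = 0 ∧ j = 2) ∨ (i = 0 ∧ j = 3) ∨ (i = 1 ∧ j = 2) ∨
          (i = 1 ∧ j = 3) ∨ (i = 2 ∧ j = 3) := by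
        revert i j; decide
      rcases ht with ⟨rfl, rfl⟩ | ⟨rfl, rfl⟩ | ⟨rfl, rfl⟩ | ⟨rfl, rfl⟩ | ⟨rfl, rfl⟩ | ⟨rfl, rfl⟩
      · exact sp01 (by show (_ : ℤ) ≤ _; push_cast; omega)
      · exact (sp02h (by show (_ : ℤ) ≤ _; push_cast; omega)).symm
      · exact (sp03v (fun n => (hbox n).2.1) (by show (_ : ℤ) ≤ _; push_cast; omega)).symm
      · exact (sp12 (by show (_ : ℤ) ≤ _; push_cast; omega)).symm
      · exact (sp13v (fun n => (hbox n).2.1) (by show (_ : ℤ) ≤ _; push_cast; omega)).symm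
      · exact (sp23 (by show (_ : ℤ) ≤ _; push_cast; omega)).symm
    · have hyb := (abs_le.1 (hbox n).2.2.1).1
      have h6' : (2 * (ρ : ℤ) + 3 + k2 + 2 * k3 + k4) * N n ≤ k6 * N n :=
        mul_le_mul_of_nonneg_right (by exact_mod_cast h6) (hNn n)
      have p2 : (0 : ℤ) ≤ k2 * N n := by positivity
      have p3 : (0 : ℤ) ≤ k3 * N n := by positivity
      have p4 : (0 : ℤ) ≤ k4 * N n := by positivity
      rcases c4 i hi with rfl | rfl | rfl | rfl
      · have h1 := (abs_le.1 (KK0 hq).2.1).2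
        show q.2 + N n * ((k2 : ℤ) + 2 * k3 + k4 - k6) ≤ _
        nlinarith
      · have h1 := (abs_le.1 (KK1 hq).2.1).2
        show q.2 + N n * (2 * (k3 : ℤ) + k4 - k6) ≤ _
        nlinarith
      · have h1 := (abs_le.1 (KK2 hq).2.1).2
        show q.2 + N n * (-(k6 : ℤ)) ≤ _
        nlinarith
      · have h1 := (KK3 hq).2.2.1
        show q.2 + N n * (0 : ℤ) ≤ _
        linarith [hNn n]
  -- leg 6
  have T5 : ∀ k1 k2 k3 k4 k5 : ℕ, 2 * ρ + 4 + 2 * k1 + k2 ≤ k4 → 2 * ρ + 2 + k1 + k2 + k3 ≤ k5 →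
      TT S N g Z (wv (-2 * k1 - k2 + k4 + 2 * k5, k2 + 2 * k3 + k4)
        (k4 + 2 * k5, 2 * k3 + k4) (2 * k5, 0)) := by
    intro k1 k2 k3 k4 k5 h4 h5
    have h5' : ∀ n, (2 * (ρ : ℤ) + 2 + k1 + k2 + k3) * N n ≤ k5 * N n := fun n =>
      mul_le_mul_of_nonneg_right (by exact_mod_cast h5) (hNn n)
    have hp : ∀ (k n : ℕ), (0 : ℤ) ≤ k * N n := fun k n => by positivity
    refine legGen hS hN hg hZ gD_ok hRD hOD {0, 1, 2} _ rfl (fun n => 2 * (ρ * N n))
      ⟨2 * ρ, fun n => ?_⟩ (fun i hi n q hq => ?_) (fun i hi n q hq => ?_)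
      (sepOf _ fun i hi j hj hij => ?_) ?_ ?_
    · rw [abs_of_nonneg (by linarith [hp ρ n])]; push_cast; linarith
    · rcases d012 i hi with rfl | rfl | rfl
      · have h1 := (abs_le.1 (KK0 hq).1).1
        have h2 := (abs_le.1 (KK0 hq).2.1).2
        show _ ≤ (q.1 + (N n • ((-2 * k1 - k2 + k4 + 2 * k5, k2 + 2 * k3 + k4) : ℤ × ℤ)).1) -
          (q.2 + (N n • ((-2 * k1 - k2 + k4 + 2 * k5, k2 + 2 * k3 + k4) : ℤ × ℤ)).2)
        rw [Prod.smul_fst, Prod.smul_snd, nsmul_eq_mul, nsmul_eq_mul]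
        nlinarith [h5' n]
      · have h1 := (abs_le.1 (KK1 hq).1).1
        have h2 := (abs_le.1 (KK1 hq).2.1).2
        show _ ≤ (q.1 + (N n • ((k4 + 2 * k5, 2 * k3 + k4) : ℤ × ℤ)).1) -
          (q.2 + (N n • ((k4 + 2 * k5, 2 * k3 + k4) : ℤ × ℤ)).2)
        rw [Prod.smul_fst, Prod.smul_snd, nsmul_eq_mul, nsmul_eq_mul]
        nlinarith [h5' n, hp k1 n, hp k2 n]
      · have h1 := (abs_le.1 (KK2 hq).1).1
        have h2 := (abs_le.1 (KK2 hq).2.1).2
        show _ ≤ (q.1 + (N n • ((2 * k5, 0) : ℤ × ℤ)).1) - (q.2 + (N n • ((2 * k5, 0) : ℤ × ℤ)).2)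
        rw [Prod.smul_fst, Prod.smul_snd, nsmul_eq_mul, nsmul_eq_mul]
        nlinarith [h5' n, hp k1 n, hp k2 n, hp k3 n]
    · rcases c012 i hi with rfl | rfl
      · have h1 := (abs_le.1 (KK3 hq).1).2
        have h2 := (abs_le.1 (KK3 hq).2.1).1
        show (q.1 + (N n • (0 : ℤ × ℤ)).1) - (q.2 + (N n • (0 : ℤ × ℤ)).2) ≤ _
        rw [smul_zero, Prod.fst_zero, Prod.snd_zero]
        linarith
      · have h1 := (abs_le.1 (KK4 hq).1).2
        have h2 := (abs_le.1 (KK4 hq).2.1).1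
        show (q.1 + (N n • (0 : ℤ × ℤ)).1) - (q.2 + (N n • (0 : ℤ × ℤ)).2) ≤ _
        rw [smul_zero, Prod.fst_zero, Prod.snd_zero]
        linarith
    · have ht : (i = 0 ∧ j = 1) ∨ (i = 0 ∧ j = 2) ∨ (i = 1 ∧ j = 2) := by
        revert i j; decide
      rcases ht with ⟨rfl, rfl⟩ | ⟨rfl, rfl⟩ | ⟨rfl, rfl⟩
      · exact sp01 (by show (_ : ℤ) ≤ _; push_cast; omega)
      · exact (sp02h (by show (_ : ℤ) ≤ _; push_cast; omega)).symm
      · exact (sp12 (by show (_ : ℤ) ≤ _; push_cast; omega)).symm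
    · intro i hi j hj hij
      rcases c012 i hi with rfl | rfl <;> rcases c012 j hj with rfl | rfl
      · exact absurd rfl hij
      · exact sp34
      · exact sp34.symm
      · exact absurd rfl hij
    · refine ⟨2 * ρ + 3 + k2 + 2 * k3 + k4, fun k hk => ?_⟩
      rw [wv_add _ _ _ _ _ (by decide) (by decide), if_pos (by decide), if_pos (by decide),
        if_pos (by decide)]
      have := T6 k1 k2 k3 k4 k5 k h4 hk
      convert this using 2
      · apply Prod.ext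
        · simp [gD]
        · simp [gD]; ring
      · apply Prod.ext
        · simp [gD]
        · simp [gD]; ring
      · apply Prod.ext
        · simp [gD]
        · simp [gD]
  have hp : ∀ (k n : ℕ), (0 : ℤ) ≤ k * N n := fun k n => by positivity
  have e1 : ∀ (q v : ℤ × ℤ) (n : ℕ), (q + N n • v).1 = q.1 + N n * v.1 := fun q v n => by
    rw [Prod.fst_add, Prod.smul_fst, nsmul_eq_mul]
  have e2 : ∀ (q v : ℤ × ℤ) (n : ℕ), (q + N n • v).2 = q.2 + N n * v.2 := fun q v n => by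
    rw [Prod.snd_add, Prod.smul_snd, nsmul_eq_mul]
  -- leg 5
  have T4 : ∀ k1 k2 k3 k4 : ℕ, 2 * ρ + 4 + 2 * k1 + k2 ≤ k4 →
      TT S N g Z (wv (-2 * k1 - k2 + k4, k2 + 2 * k3 + k4) (k4, 2 * k3 + k4) 0) := by
    intro k1 k2 k3 k4 h4
    have h4' : ∀ n, (2 * (ρ : ℤ) + 4 + 2 * k1 + k2) * N n ≤ k4 * N n := fun n =>
      mul_le_mul_of_nonneg_right (by exact_mod_cast h4) (hNn n)
    refine legGen hS hN hg hZ gX_ok hRX hOX {0, 1, 2} _ rfl xr
      ⟨ρ, fun n => (hbox n).2.1⟩ (fun i hi n q hq => ?_) (fun i hi n q hq => ?_)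
      (sepOf _ fun i hi j hj hij => ?_) ?_ ?_
    · have hx := (abs_le.1 (hbox n).2.1).2
      rcases d012 i hi with rfl | rfl | rfl
      · have h1 := (abs_le.1 (KK0 hq).1).1
        show _ ≤ (q + N n • ((-2 * k1 - k2 + k4, k2 + 2 * k3 + k4) : ℤ × ℤ)).1
        rw [e1]
        nlinarith [h4' n]
      · have h1 := (abs_le.1 (KK1 hq).1).1
        show _ ≤ (q + N n • ((k4, 2 * k3 + k4) : ℤ × ℤ)).1
        rw [e1]
        nlinarith [h4' n, hp k1 n, hp k2 n]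
      · have h1 := (KK2 hq).2.2.1
        show _ ≤ (q + N n • (0 : ℤ × ℤ)).1
        rw [e1, Prod.fst_zero]
        linarith
    · rcases c012 i hi with rfl | rfl
      · have h1 := (KK3 hq).2.2.2.2
        show (q + N n • (0 : ℤ × ℤ)).1 ≤ _
        rw [e1, Prod.fst_zero]
        linarith
      · have h1 := (KK4 hq).2.2.2.2.2
        show (q + N n • (0 : ℤ × ℤ)).1 ≤ _
        rw [e1, Prod.fst_zero]
        linarith
    · have ht : (i = 0 ∧ j = 1) ∨ (i = 0 ∧ j = 2) ∨ (i = 1 ∧ j = 2) := by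
        revert i j; decide
      rcases ht with ⟨rfl, rfl⟩ | ⟨rfl, rfl⟩ | ⟨rfl, rfl⟩
      · exact sp01 (by show (_ : ℤ) ≤ _; push_cast; omega)
      · exact (sp02h (by
          show (2 * (ρ : ℤ) + 1 + 0) ≤ (k2 : ℤ) + 2 * k3 + k4
          omega)).symm
      · exact (sp12 (by
          show (0 : ℤ) ≤ 2 * (k3 : ℤ) + k4
          omega)).symm
    · intro i hi j hj hij
      rcases c012 i hi with rfl | rfl <;> rcases c012 j hj with rfl | rfl
      · exact absurd rfl hij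
      · exact sp34
      · exact sp34.symm
      · exact absurd rfl hij
    · refine ⟨2 * ρ + 2 + k1 + k2 + k3, fun k hk => ?_⟩
      rw [wv_add _ _ _ _ _ (by decide) (by decide), if_pos (by decide), if_pos (by decide),
        if_pos (by decide)]
      have := T5 k1 k2 k3 k4 k h4 hk
      convert this using 2
      · apply Prod.ext
        · simp [gX]; ring
        · simp [gX]
      · apply Prod.ext
        · simp [gX]; ring
        · simp [gX]
      · apply Prod.ext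
        · simp [gX]; ring
        · simp [gX]
  -- leg 4
  have T3 : ∀ k1 k2 k3 : ℕ, 2 * ρ + 2 + k1 ≤ k3 →
      TT S N g Z (wv (-2 * k1 - k2, k2 + 2 * k3) (0, 2 * k3) 0) := by
    intro k1 k2 k3 h3
    have h3' : ∀ n, (2 * (ρ : ℤ) + 2 + k1) * N n ≤ k3 * N n := fun n =>
      mul_le_mul_of_nonneg_right (by exact_mod_cast h3) (hNn n)
    refine legGen hS hN hg hZ gA_ok hRA hOA {0, 1} _ rfl (fun n => 2 * (ρ * N n))
      ⟨2 * ρ, fun n => ?_⟩ (fun i hi n q hq => ?_) (fun i hi n q hq => ?_)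
      (sepOf _ fun i hi j hj hij => ?_) ?_ ?_
    · rw [abs_of_nonneg (by linarith [hp ρ n])]; push_cast; linarith
    · rcases d01 i hi with rfl | rfl
      · have h1 := (abs_le.1 (KK0 hq).1).1
        have h2 := (abs_le.1 (KK0 hq).2.1).1
        show _ ≤ (q + N n • ((-2 * k1 - k2, k2 + 2 * k3) : ℤ × ℤ)).1 +
          (q + N n • ((-2 * k1 - k2, k2 + 2 * k3) : ℤ × ℤ)).2
        rw [e1, e2]
        nlinarith [h3' n]
      · have h1 := (abs_le.1 (KK1 hq).1).1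
        have h2 := (abs_le.1 (KK1 hq).2.1).1
        show _ ≤ (q + N n • ((0, 2 * k3) : ℤ × ℤ)).1 + (q + N n • ((0, 2 * k3) : ℤ × ℤ)).2
        rw [e1, e2]
        nlinarith [h3' n, hp k1 n]
    · have h0 : |q.1| ≤ ρ * N n ∧ |q.2| ≤ ρ * N n := by
        rcases c01 i hi with rfl | rfl | rfl
        · exact ⟨(KK2 hq).1, (KK2 hq).2.1⟩
        · exact ⟨(KK3 hq).1, (KK3 hq).2.1⟩
        · exact ⟨(KK4 hq).1, (KK4 hq).2.1⟩
      have hw : wv (-2 * (k1 : ℤ) - k2, (k2 : ℤ) + 2 * k3) (0, 2 * (k3 : ℤ)) 0 i = 0 := by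
        rcases c01 i hi with rfl | rfl | rfl <;> rfl
      rw [hw]
      show (q + N n • (0 : ℤ × ℤ)).1 + (q + N n • (0 : ℤ × ℤ)).2 ≤ _
      rw [e1, e2, Prod.fst_zero, Prod.snd_zero]
      have h1 := (abs_le.1 h0.1).2
      have h2 := (abs_le.1 h0.2).2
      linarith
    · have ht : (i = 0 ∧ j = 1) := by
        revert i j; decide
      rcases ht with ⟨rfl, rfl⟩
      exact sp01 (by
        show -2 * (k1 : ℤ) - k2 ≤ 0
        omega)
    · refine fun i hi j hj hij => sepOf ({0, 1}ᶜ : Finset (Fin 5)) (fun i hi j hj hij => ?_) i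
        (Finset.mem_compl.2 hi) j (Finset.mem_compl.2 hj) hij
      have ht : (i = 2 ∧ j = 3) ∨ (i = 2 ∧ j = 4) ∨ (i = 3 ∧ j = 4) := by
        revert i j; decide
      rcases ht with ⟨rfl, rfl⟩ | ⟨rfl, rfl⟩ | ⟨rfl, rfl⟩
      · exact (sp23 le_rfl).symm
      · exact (sp24 le_rfl).symm
      · exact sp34
    · refine ⟨2 * ρ + 4 + 2 * k1 + k2, fun k hk => ?_⟩
      rw [wv_add _ _ _ _ _ (by decide) (by decide), if_pos (by decide), if_pos (by decide),
        if_neg (by decide)]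
      have := T4 k1 k2 k3 k hk
      convert this using 2
      · apply Prod.ext
        · simp [gA]
        · simp [gA]
      · apply Prod.ext
        · simp [gA]
        · simp [gA]
      · simp
  -- leg 3
  have T2 : ∀ k1 k2 : ℕ, 2 * ρ + 4 ≤ k2 → TT S N g Z (wv (-2 * k1 - k2, k2) 0 0) := by
    intro k1 k2 h2
    have h2' : ∀ n, (2 * (ρ : ℤ) + 4) * N n ≤ k2 * N n := fun n =>
      mul_le_mul_of_nonneg_right (by exact_mod_cast h2) (hNn n)
    refine legGen hS hN hg hZ gY_ok hRY hOY {0, 1} _ rfl yt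
      ⟨ρ, fun n => (hbox n).2.2.2⟩ (fun i hi n q hq => ?_) (fun i hi n q hq => ?_)
      (sepOf _ fun i hi j hj hij => ?_) ?_ ?_
    · have hx := (abs_le.1 (hbox n).2.2.2).2
      rcases d01 i hi with rfl | rfl
      · have h1 := (abs_le.1 (KK0 hq).2.1).1
        show _ ≤ (q + N n • ((-2 * k1 - k2, k2) : ℤ × ℤ)).2
        rw [e2]
        nlinarith [h2' n]
      · have h1 := (KK1 hq).2.2.1
        show _ ≤ (q + N n • (0 : ℤ × ℤ)).2
        rw [e2, Prod.snd_zero]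
        linarith
    · rcases c01 i hi with rfl | rfl | rfl
      · have h1 := (KK2 hq).2.2.2
        show (q + N n • (0 : ℤ × ℤ)).2 ≤ _
        rw [e2, Prod.snd_zero]
        linarith
      · have h1 := (KK3 hq).2.2.1
        show (q + N n • (0 : ℤ × ℤ)).2 ≤ _
        rw [e2, Prod.snd_zero]
        linarith [hbt n, hNn n]
      · have h1 := (KK4 hq).2.2.2.1
        show (q + N n • (0 : ℤ × ℤ)).2 ≤ _
        rw [e2, Prod.snd_zero]
        linarith
    · have ht : (i = 0 ∧ j = 1) := by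
        revert i j; decide
      rcases ht with ⟨rfl, rfl⟩
      exact sp01 (by
        show -2 * (k1 : ℤ) - k2 ≤ 0
        omega)
    · refine fun i hi j hj hij => sepOf ({0, 1}ᶜ : Finset (Fin 5)) (fun i hi j hj hij => ?_) i
        (Finset.mem_compl.2 hi) j (Finset.mem_compl.2 hj) hij
      have ht : (i = 2 ∧ j = 3) ∨ (i = 2 ∧ j = 4) ∨ (i = 3 ∧ j = 4) := by
        revert i j; decide
      rcases ht with ⟨rfl, rfl⟩ | ⟨rfl, rfl⟩ | ⟨rfl, rfl⟩
      · exact (sp23 le_rfl).symm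
      · exact (sp24 le_rfl).symm
      · exact sp34
    · refine ⟨2 * ρ + 2 + k1, fun k hk => ?_⟩
      rw [wv_add _ _ _ _ _ (by decide) (by decide), if_pos (by decide), if_pos (by decide),
        if_neg (by decide)]
      have := T3 k1 k2 k hk
      convert this using 2
      · apply Prod.ext
        · simp [gY]
        · simp [gY]; ring
      · apply Prod.ext
        · simp [gY]
        · simp [gY]; ring
      · simp
  -- separation for legs 1 and 2
  have hsep0 : ∀ a : ℤ × ℤ, ∀ i, i ∉ ({0} : Finset (Fin 5)) → ∀ j, j ∉ ({0} : Finset (Fin 5)) →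
      i ≠ j → ∀ n, Strip (N n) (tK (KK ρ N xl xr yb yt i n) (N n • wv a 0 0 i))
        (tK (KK ρ N xl xr yb yt j n) (N n • wv a 0 0 j)) := by
    intro a
    refine fun i hi j hj hij => sepOf ({0}ᶜ : Finset (Fin 5)) (fun i hi j hj hij => ?_) i
      (Finset.mem_compl.2 hi) j (Finset.mem_compl.2 hj) hij
    have ht : (i = 1 ∧ j = 2) ∨ (i = 1 ∧ j = 3) ∨ (i = 1 ∧ j = 4) ∨ (i = 2 ∧ j = 3) ∨
        (i = 2 ∧ j = 4) ∨ (i = 3 ∧ j = 4) := by
      revert i j; decide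
    rcases ht with ⟨rfl, rfl⟩ | ⟨rfl, rfl⟩ | ⟨rfl, rfl⟩ | ⟨rfl, rfl⟩ | ⟨rfl, rfl⟩ | ⟨rfl, rfl⟩
    · exact (sp12 le_rfl).symm
    · exact (sp13h hbt le_rfl).symm
    · exact (sp14h le_rfl).symm
    · exact (sp23 le_rfl).symm
    · exact (sp24 le_rfl).symm
    · exact sp34
  -- leg 2
  have T1 : ∀ k1 : ℕ, 2 * ρ + 2 ≤ k1 → TT S N g Z (wv (-2 * k1, 0) 0 0) := by
    intro k1 h1
    have h1' : ∀ n, (2 * (ρ : ℤ) + 2) * N n ≤ k1 * N n := fun n =>
      mul_le_mul_of_nonneg_right (by exact_mod_cast h1) (hNn n)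
    refine legGen hS hN hg hZ gD_ok.neg (hRD.neg hS gD_ok) hOD.neg {0} _ rfl
      (fun n => 2 * (ρ * N n)) ⟨2 * ρ, fun n => ?_⟩ (fun i hi n q hq => ?_)
      (fun i hi n q hq => ?_) (sepOf _ fun i hi j hj hij => ?_) (hsep0 _) ?_
    · rw [abs_of_nonneg (by linarith [hp ρ n])]; push_cast; linarith
    · obtain rfl := Finset.mem_singleton.1 hi
      have h3 := (abs_le.1 (KK0 hq).1).2
      have h2 := (abs_le.1 (KK0 hq).2.1).1
      show _ ≤ -((q + N n • ((-2 * k1, 0) : ℤ × ℤ)).1 - (q + N n • ((-2 * k1, 0) : ℤ × ℤ)).2)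
      rw [e1, e2]
      nlinarith [h1' n]
    · have h0 : |q.1| ≤ ρ * N n ∧ |q.2| ≤ ρ * N n := by
        rcases c0 i hi with rfl | rfl | rfl | rfl
        · exact ⟨(KK1 hq).1, (KK1 hq).2.1⟩
        · exact ⟨(KK2 hq).1, (KK2 hq).2.1⟩
        · exact ⟨(KK3 hq).1, (KK3 hq).2.1⟩
        · exact ⟨(KK4 hq).1, (KK4 hq).2.1⟩
      have hw : wv (-2 * (k1 : ℤ), 0) 0 0 i = 0 := by
        rcases c0 i hi with rfl | rfl | rfl | rfl <;> rfl
      rw [hw]
      show -((q + N n • (0 : ℤ × ℤ)).1 - (q + N n • (0 : ℤ × ℤ)).2) ≤ _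
      rw [e1, e2, Prod.fst_zero, Prod.snd_zero]
      have h3 := (abs_le.1 h0.1).1
      have h2 := (abs_le.1 h0.2).2
      linarith
    · exact absurd ((Finset.mem_singleton.1 hi).trans (Finset.mem_singleton.1 hj).symm) hij.ne
    · refine ⟨2 * ρ + 4, fun k hk => ?_⟩
      rw [wv_add _ _ _ _ _ (by decide) (by decide), if_pos (by decide), if_neg (by decide),
        if_neg (by decide)]
      have := T2 k1 k hk
      convert this using 2
      · apply Prod.ext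
        · simp [gD, GDir.neg]; ring
        · simp [gD, GDir.neg]
      · simp
      · simp
  -- leg 1
  have T0 : TT S N g Z (wv 0 0 0) := by
    refine legGen hS hN hg hZ gX_ok.neg (hRX.neg hS gX_ok) hOX.neg {0} _ rfl
      (fun n => - xl n) ⟨ρ, fun n => ?_⟩ (fun i hi n q hq => ?_)
      (fun i hi n q hq => ?_) (sepOf _ fun i hi j hj hij => ?_) (hsep0 _) ?_
    · rw [abs_neg]; exact (hbox n).1
    · obtain rfl := Finset.mem_singleton.1 hi
      have h3 := (KK0 hq).2.2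
      show _ ≤ -(q + N n • (0 : ℤ × ℤ)).1
      rw [e1, Prod.fst_zero]
      linarith
    · have hw : wv 0 0 0 i = 0 := by
        rcases c0 i hi with rfl | rfl | rfl | rfl <;> rfl
      rw [hw]
      show -(q + N n • (0 : ℤ × ℤ)).1 ≤ _
      rw [e1, Prod.fst_zero]
      have h1 : xl n ≤ q.1 := by
        rcases c0 i hi with rfl | rfl | rfl | rfl
        · exact (KK1 hq).2.2.2
        · have := (KK2 hq).2.2.1
          linarith [hlr n, hNn n]
        · exact (KK3 hq).2.2.2.1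
        · exact (KK4 hq).2.2.2.2.1
      linarith
    · exact absurd ((Finset.mem_singleton.1 hi).trans (Finset.mem_singleton.1 hj).symm) hij.ne
    · refine ⟨2 * ρ + 2, fun k hk => ?_⟩
      rw [wv_add _ _ _ _ _ (by decide) (by decide), if_pos (by decide), if_neg (by decide),
        if_neg (by decide)]
      have := T1 k hk
      convert this using 2
      · apply Prod.ext
        · simp [gX, GDir.neg]; ring
        · simp [gX, GDir.neg]
      · simp
      · simp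
  refine T0.congr fun n => ?_
  congr 2
  refine Finset.prod_congr rfl fun i _ => ?_
  have hw : wv 0 0 0 i = 0 := by fin_cases i <;> rfl
  rw [hw, smul_zero, hS.sh_zero]

end pin

end Vale.Agent.P167.H825
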