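import Vale.Agent.P167.H592.Bdd
import Vale.Agent.P167.H825.Six

/-!
# P167, block 2A: linearity of the state in the insertion

`os_lin3`: the reflection norm of `P * Y` with `Y = E₁ - α E₀` is at most
`2 (os (P * E₁) + α² os (P * E₀))`.
-/

namespace Vale.Agent.P167.H825

open Finset Filter Topology
open Vale.Agent.P167.H592

/-- `Y = E₁ - α E₀`, insertions without cut edges. -/
structure Lin3 (α : ℝ) (Y E₁ E₀ : LIns) : Prop where
  s : Y.1.S = ∅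
  s₁ : E₁.1.S = ∅
  s₀ : E₀.1.S = ∅
  f : ∀ ω, Y.1.F ω = E₁.1.F ω - α * E₀.1.F ω

theorem Lin3.sh {α : ℝ} {Y E₁ E₀ : LIns} (h : Lin3 α Y E₁ E₀) (a : ℤ × ℤ) :
    Lin3 α (LIns.sh a Y) (LIns.sh a E₁) (LIns.sh a E₀) where
  s := by show Y.1.S.image _ = ∅; rw [h.s, Finset.image_empty]
  s₁ := by show E₁.1.S.image _ = ∅; rw [h.s₁, Finset.image_empty]
  s₀ := by show E₀.1.S.image _ = ∅; rw [h.s₀, Finset.image_empty]
  f ω := h.f _

theorem Lin3.th {α : ℝ} {Y E₁ E₀ : LIns} (h : Lin3 α Y E₁ E₀) {P : Rf (ℤ × ℤ)}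
    {l : ℤ × ℤ → ℤ × ℤ} (hP : P.Lin l) :
    Lin3 α (LIns.th hP Y) (LIns.th hP E₁) (LIns.th hP E₀) where
  s := by show Y.1.S.image _ = ∅; rw [h.s, Finset.image_empty]
  s₁ := by show E₁.1.S.image _ = ∅; rw [h.s₁, Finset.image_empty]
  s₀ := by show E₀.1.S.image _ = ∅; rw [h.s₀, Finset.image_empty]
  f ω := by
    show (starRingEnd ℂ) (Y.1.F (P.act ω)) = (starRingEnd ℂ) (E₁.1.F (P.act ω)) -
      α * (starRingEnd ℂ) (E₀.1.F (P.act ω))
    rw [h.f, map_sub, map_mul, Complex.conj_ofReal]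

/-- The reflections respect linear combinations. -/
def ThLin (θ : ℤ → LIns → LIns) : Prop :=
  ∀ (m : ℤ) (α : ℝ) (Y E₁ E₀ : LIns), Lin3 α Y E₁ E₀ → Lin3 α (θ m Y) (θ m E₁) (θ m E₀)

theorem thLin_X : ThLin fun m A => LIns.sh (m • gX.s) (LIns.th rX_lin A) :=
  fun _ _ _ _ _ h => (h.th rX_lin).sh _

theorem thLin_D : ThLin fun m A => LIns.sh (m • gD.s) (LIns.th rD_lin A) :=
  fun _ _ _ _ _ h => (h.th rD_lin).sh _

theorem thLin_Y : ThLin fun m A => LIns.sh (m • gY.s) (thY A) :=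
  fun _ _ _ _ _ h => (((h.th rD_lin).th rX_lin).th rD_lin).sh _

theorem thLin_A : ThLin fun m A => LIns.sh (m • gA.s) (thA A) :=
  fun _ _ _ _ _ h => (((h.th rX_lin).th rD_lin).th rX_lin).sh _

theorem ThLin.neg {θ : ℤ → LIns → LIns} (h : ThLin θ) : ThLin fun m => θ (-m) :=
  fun m => h (-m)

variable {c : ℝ} {om : Ins → ℂ} {D : GDir} {θ : ℤ → LIns → LIns}

/-- linearity of the state -/
theorem om_lin3 (h : IsOm c om) {α : ℝ} {Y E₁ E₀ : LIns} (hY : Lin3 α Y E₁ E₀) (P : LIns) :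
    om (P * Y).1 = om (P * E₁).1 - α * om (P * E₀).1 := by
  have e1 : (P * E₁).1.S = P.1.S := by
    show P.1.S ∪ E₁.1.S = _
    rw [hY.s₁, Finset.union_empty]
  have e0 : (P * E₀).1.S = P.1.S := by
    show P.1.S ∪ E₀.1.S = _
    rw [hY.s₀, Finset.union_empty]
  have i1 : LI Set.univ ⟨P.1.S, (P * E₁).1.F⟩ := by
    have := (P * E₁).2
    rwa [show (P * E₁).1 = ⟨P.1.S, (P * E₁).1.F⟩ from Ins.ext e1 rfl] at this
  have i0 : LI Set.univ ⟨P.1.S, (P * E₀).1.F⟩ := by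
    have := (P * E₀).2
    rwa [show (P * E₀).1 = ⟨P.1.S, (P * E₀).1.F⟩ from Ins.ext e0 rfl] at this
  have i0' : LI Set.univ ⟨P.1.S, fun ω => (-α : ℂ) * (P * E₀).1.F ω⟩ := by
    obtain ⟨Λ, h1, h2, h3⟩ := i0
    refine ⟨Λ, h1, h2, fun ω ω' hh => ?_⟩
    show (-α : ℂ) * (P * E₀).1.F ω = (-α : ℂ) * (P * E₀).1.F ω'
    rw [show (P * E₀).1.F ω = (P * E₀).1.F ω' from h3 ω ω' hh]
  have e : (P * Y).1 = ⟨P.1.S, fun ω => (P * E₁).1.F ω + (-α : ℂ) * (P * E₀).1.F ω⟩ := by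
    apply Ins.ext
    · show P.1.S ∪ Y.1.S = _
      rw [hY.s, Finset.union_empty]
    · funext ω
      show P.1.F ω * Y.1.F ω = P.1.F ω * E₁.1.F ω + (-α : ℂ) * (P.1.F ω * E₀.1.F ω)
      rw [hY.f]
      ring
  rw [e, h.add i1 i0', h.smul i0,
    show (P * E₁).1 = ⟨P.1.S, (P * E₁).1.F⟩ from Ins.ext e1 rfl,
    show (P * E₀).1 = ⟨P.1.S, (P * E₀).1.F⟩ from Ins.ext e0 rfl]
  ring

/-- The reflection norm of `P * (E₁ - α E₀)`, above the line. -/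
theorem os_lin3 (h : IsOm c om) (hR : (sysOm om).Refl D θ) (hθ : ThLin θ) {α : ℝ}
    {Y E₁ E₀ P : LIns} (hY : Lin3 α Y E₁ E₀) {m : ℤ}
    (h1 : (sysOm om).In {q | m ≤ D.l q} (P * E₁)) (h0 : (sysOm om).In {q | m ≤ D.l q} (P * E₀)) :
    os (sysOm om) θ m (P * Y) ≤
      2 * os (sysOm om) θ m (P * E₁) + 2 * α ^ 2 * os (sysOm om) θ m (P * E₀) := by
  have hY' := hθ m α Y E₁ E₀ hY
  have key := hR.pos m 2 ![P * E₁, P * E₀] ![1, (α : ℂ)] (by
    intro i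
    fin_cases i
    · exact h1
    · exact h0)
  rw [Fin.sum_univ_two, Fin.sum_univ_two, Fin.sum_univ_two] at key
  simp only [Matrix.cons_val_zero, Matrix.cons_val_one, map_one, one_mul, mul_one,
    Complex.conj_ofReal, hR.mul] at key
  have L1 : ∀ Q : LIns, om (Q * θ m Y).1 = om (Q * θ m E₁).1 - α * om (Q * θ m E₀).1 :=
    fun Q => om_lin3 h hY' Q
  have L0 : ∀ Q : LIns, om (Q * Y).1 = om (Q * E₁).1 - α * om (Q * E₀).1 :=
    fun Q => om_lin3 h hY Q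
  have expand : om (P * Y * (θ m P * θ m Y)).1 =
      om (P * E₁ * (θ m P * θ m E₁)).1 - α * om (P * E₁ * (θ m P * θ m E₀)).1 -
      α * om (P * E₀ * (θ m P * θ m E₁)).1 + α * (α * om (P * E₀ * (θ m P * θ m E₀)).1) := by
    rw [← mul_assoc, L1, show P * Y * θ m P * θ m E₁ = P * θ m P * θ m E₁ * Y by ac_rfl,
      show P * Y * θ m P * θ m E₀ = P * θ m P * θ m E₀ * Y by ac_rfl, L0, L0]
    have r : ∀ A B : LIns, P * θ m P * A * B = P * B * (θ m P * A) := fun A B => by ac_rfl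
    rw [r, r, r, r]
    ring
  show (om (P * Y * θ m (P * Y)).1).re ≤ 2 * (om (P * E₁ * θ m (P * E₁)).1).re +
    2 * α ^ 2 * (om (P * E₀ * θ m (P * E₀)).1).re
  rw [hR.mul, hR.mul, hR.mul, expand]
  have key' : 0 ≤ (om (θ m P * θ m E₁ * (P * E₁)).1 + α * om (θ m P * θ m E₁ * (P * E₀)).1 +
    (α * om (θ m P * θ m E₀ * (P * E₁)).1 + α * α * om (θ m P * θ m E₀ * (P * E₀)).1)).re := key
  rw [mul_comm (θ m P * θ m E₁) (P * E₁), mul_comm (θ m P * θ m E₁) (P * E₀),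
    mul_comm (θ m P * θ m E₀) (P * E₁), mul_comm (θ m P * θ m E₀) (P * E₀)] at key'
  simp only [Complex.add_re, Complex.sub_re, Complex.mul_re, Complex.ofReal_re, Complex.ofReal_im,
    zero_mul, sub_zero, Complex.mul_im, add_zero, mul_zero] at key' ⊢
  nlinarith [key']

end Vale.Agent.P167.H825
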