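import Vale.Agent.P167.H199.OsW
import Vale.Agent.P167.H825.OsLin

/-!
# P167, block 2A: the bound of the reflection norms (`OSb`) for groups of walls, from `HOS`
-/

namespace Vale.Agent.P167.H825

open Finset Filter Topology MeasureTheory
open Vale.Agent.P167.H592
open Vale.Agent.P167.H199 (Fc insW insW_LI sig sig_fc insW_sig_coe tr tr_fc insW_tr pts pts_tr RW
  os_le jumps_sig jumps_tr disj_of_far nm_le nm_fst nm_snd)

theorem nm_of_strip {N : ℤ} {S T : Set (ℤ × ℤ)} (h : Strip N S T) {u v : ℤ × ℤ} (hu : u ∈ S)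
    (hv : v ∈ T) : N ≤ nm (u - v) := by
  have h1 := abs_le.1 (nm_fst (u - v))
  have h2 := abs_le.1 (nm_snd (u - v))
  rw [Prod.fst_sub] at h1
  rw [Prod.snd_sub] at h2
  rcases h with ⟨c, h3, h4⟩ | ⟨c, h3, h4⟩ | ⟨c, h3, h4⟩ | ⟨c, h3, h4⟩
  · have := h3 u hu; have := h4 v hv; omega
  · have := h3 v hv; have := h4 u hu; omega
  · have := h3 u hu; have := h4 v hv; omega
  · have := h3 v hv; have := h4 u hu; omega

theorem nm_smul_le {w : ℤ × ℤ} {κ : ℕ} (h : |w.1| ≤ κ ∧ |w.2| ≤ κ) (N : ℕ) :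
    nm (N • w) ≤ κ * N := by
  have hN : (0 : ℤ) ≤ N := by positivity
  rw [nm_le]
  rw [Prod.smul_fst, Prod.smul_snd, nsmul_eq_mul, nsmul_eq_mul, abs_mul, abs_mul, abs_of_nonneg hN]
  constructor
  · nlinarith [h.1]
  · nlinarith [h.2]

/-- Reflection norm of the product of translated configurations. -/
theorem os_prod {zt zf : ℕ → ℝ} (hH : HOS zt zf) {om : Ins → ℂ} (hom : IsOm (√3) om) {D : GDir}
    {θ : ℤ → LIns → LIns} {rf : ∀ {ι : Type} [Fintype ι], ℤ → WC ι → WC ι} (hD : RW D θ rf)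
    {κ : ℝ} (hκ : 0 < κ) (R B : ℝ) (κ' M : ℕ) : ∃ C : ℝ, 0 < C ∧ ∀ᶠ n : ℕ in atTop,
    ∀ (ι : Fin 5 → Type) [∀ i, Fintype (ι i)] (F : ∀ i, WC (ι i)) (hc : ∀ i, Fc (F i))
      (K : Fin 5 → Set (ℤ × ℤ)) (N : ℕ), ∑ i, Fintype.card (ι i) ≤ M → κ * n ≤ N → (N : ℝ) ≤ n →
      (∀ i, (F i).Adm κ R B n) → (∀ i, ∀ u ∈ pts (F i), u ∈ K i) →
    ∀ (A : Finset (Fin 5)) (w : Fin 5 → ℤ × ℤ), (∀ i, |(w i).1| ≤ κ' ∧ |(w i).2| ≤ κ') →
      (∀ i ∈ A, ∀ j ∈ A, i ≠ j → Strip N (tK (K i) (N • w i)) (tK (K j) (N • w j))) →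
    ∀ m : ℤ, |m| ≤ κ' * N →
      ((∀ i ∈ A, ∀ q ∈ tK (K i) (N • w i), m + N ≤ D.l q) ∨
        (∀ i ∈ A, ∀ q ∈ tK (K i) (N • w i), D.l q ≤ m - N)) →
    os (sysOm om) θ m (∏ i ∈ A, LIns.sh (N • w i) (insW (F i) (hc i))) ≤
      C * ∏ i ∈ A, (zt n ^ Fintype.card (ι i) * zf n ^ (F i).jumps) ^ 2 := by
  obtain ⟨C, hC, hev⟩ := os_le hH hom hD hκ (|R| + κ') (5 * |B|) M
  refine ⟨C, hC, ?_⟩
  filter_upwards [hev, eventually_ge_atTop 1] with n hn hn1
  intro ι _ F hc K N hM hN1 hN2 hA hK A w hw hs m hm hside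
  have hn0 : (0 : ℝ) < n := by exact_mod_cast hn1
  have hpos : 0 < κ * n := by positivity
  -- distances
  have hin : ∀ i, ∀ u ∈ pts (tr (F i) (N • w i)), u ∈ tK (K i) (N • w i) := fun i u hu =>
    hK i _ ((pts_tr (F i) (N • w i)).1 hu)
  have hfar : ∀ i ∈ A, ∀ j ∈ A, i ≠ j → ∀ u ∈ pts (tr (F i) (N • w i)),
      ∀ v ∈ pts (tr (F j) (N • w j)), κ * n ≤ (nm (u - v) : ℝ) := by
    intro i hi j hj hij u hu v hv
    have h1 := nm_of_strip (hs i hi j hj hij) (hin i u hu) (hin j v hv)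
    have h2 : (N : ℝ) ≤ nm (u - v) := by exact_mod_cast h1
    linarith
  have hdisj : ∀ i ∈ A, ∀ j ∈ A, i ≠ j →
      Disjoint (tr (F i) (N • w i)).S (tr (F j) (N • w j)).S := fun i hi j hj hij =>
    disj_of_far hpos (hfar i hi j hj hij)
  have hprod := insW_sig_coe A (fun i => tr (F i) (N • w i)) (fun i => tr_fc (hc i) _) hdisj
  have hprod' : ∏ i ∈ A, LIns.sh (N • w i) (insW (F i) (hc i)) =
      insW (sig fun i : A => tr (F i) (N • w i))
        (sig_fc fun i : A => tr_fc (hc i) (N • w i)) := by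
    rw [hprod]
    exact Finset.prod_congr rfl fun i _ => (insW_tr (F i) (hc i) _).symm
  rw [hprod']
  -- admissibility
  have hadm : (sig fun i : A => tr (F i) (N • w i)).Adm κ (|R| + κ')
      (Fintype.card A * B) n := by
    refine H199.Adm.sig (fun i => H199.Adm.tr (hA i) ?_)
      (fun i j hij => hfar i i.2 j j.2 fun e => hij (Subtype.ext e))
    have h1 : (nm (N • w i) : ℝ) ≤ κ' * N := by exact_mod_cast nm_smul_le (hw i) N
    have h2 : (κ' : ℝ) * N ≤ κ' * n := by gcongr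
    have h3 : R * n ≤ |R| * n := by
      gcongr
      exact le_abs_self R
    linarith
  have hcard5 : Fintype.card A ≤ 5 := by
    rw [Fintype.card_coe]
    exact (Finset.card_le_univ A).trans (le_of_eq (Fintype.card_fin 5))
  have hadm' : (sig fun i : A => tr (F i) (N • w i)).Adm κ (|R| + κ') (5 * |B|) n := by
    refine H199.Adm.mono hadm le_rfl le_rfl ?_
    have h5 : ((Fintype.card A : ℕ) : ℝ) ≤ 5 := by exact_mod_cast hcard5
    calc ((Fintype.card A : ℕ) : ℝ) * B ≤ ((Fintype.card A : ℕ) : ℝ) * |B| := by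
          gcongr
          exact le_abs_self B
      _ ≤ 5 * |B| := by gcongr
  have hcard : Fintype.card (Σ i : A, ι i) = ∑ i ∈ A, Fintype.card (ι i) := by
    rw [Fintype.card_sigma]
    exact Finset.sum_coe_sort A fun i => Fintype.card (ι i)
  have hjump : (sig fun i : A => tr (F i) (N • w i)).jumps = ∑ i ∈ A, (F i).jumps := by
    rw [jumps_sig]
    exact Finset.sum_coe_sort A fun i => (F i).jumps
  have hcM : Fintype.card (Σ i : A, ι i) ≤ M := by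
    rw [hcard]
    exact (Finset.sum_le_sum_of_subset (Finset.subset_univ A)).trans hM
  have hmR : |(m : ℝ)| ≤ (|R| + κ') * n := by
    have h1 : |(m : ℝ)| ≤ κ' * N := by exact_mod_cast hm
    have h2 : (κ' : ℝ) * N ≤ κ' * n := by gcongr
    have h3 : 0 ≤ |R| * (n : ℝ) := by positivity
    linarith
  have hpts : ∀ u ∈ pts (sig fun i : A => tr (F i) (N • w i)),
      ∃ i ∈ A, u ∈ tK (K i) (N • w i) := by
    rintro u (⟨⟨i, j⟩, k, hk, rfl⟩ | ⟨e, he, rfl⟩)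
    · exact ⟨i, i.2, hin i _ (Or.inl ⟨j, k, hk, rfl⟩)⟩
    · have h1 : ∃ i : A, (tr (F i) (N • w i)).c e ≠ 0 := by
        by_contra hcon
        push Not at hcon
        exact he (Finset.sum_eq_zero fun i _ => hcon i)
      obtain ⟨i, hi⟩ := h1
      exact ⟨i, i.2, hin i _ (Or.inr ⟨e, hi, rfl⟩)⟩
  have hside' : (∀ u ∈ pts (sig fun i : A => tr (F i) (N • w i)),
      (m : ℝ) + κ * n ≤ D.l u) ∨ (∀ u ∈ pts (sig fun i : A => tr (F i) (N • w i)),
      (D.l u : ℝ) ≤ m - κ * n) := by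
    rcases hside with h | h
    · left
      intro u hu
      obtain ⟨i, hi, hui⟩ := hpts u hu
      have h1 : ((m : ℝ) + N) ≤ D.l u := by exact_mod_cast h i hi u hui
      linarith
    · right
      intro u hu
      obtain ⟨i, hi, hui⟩ := hpts u hu
      have h1 : (D.l u : ℝ) ≤ m - N := by exact_mod_cast h i hi u hui
      linarith
  have key := hn (Σ i : A, ι i) (sig fun i : A => tr (F i) (N • w i))
    (sig_fc fun i : A => tr_fc (hc i) (N • w i)) hcM hadm' m hmR hside'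
  refine key.trans (le_of_eq ?_)
  rw [hcard, hjump, Finset.prod_pow, Finset.prod_mul_distrib, Finset.prod_pow_eq_pow_sum,
    Finset.prod_pow_eq_pow_sum]

theorem OSb.shift {M : Type} [CommMonoid M] {S : Sys M} {D : GDir} {θ : ℤ → M → M} {N : ℕ → ℕ}
    {K : Fin 5 → ℕ → Set (ℤ × ℤ)} {g : Fin 5 → ℕ → M} {Z : Fin 5 → ℕ → ℝ}
    (h : OSb S D θ N K g Z) (n0 : ℕ) : OSb S D θ (fun n => N (n + n0)) (fun i n => K i (n + n0))
      (fun i n => g i (n + n0)) (fun i n => Z i (n + n0)) := by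
  intro κ
  obtain ⟨C, hC, h1⟩ := h κ
  exact ⟨C, hC, (tendsto_add_atTop_nat n0).eventually h1⟩

/-- `six_legs` with eventual hypotheses. -/
theorem six_legs_ev {M : Type} [CommMonoid M] {S : Sys M} {N : ℕ → ℕ} {g : Fin 5 → ℕ → M}
    {Z : Fin 5 → ℕ → ℝ} {ρ : ℕ} {xl xr yb yt : ℕ → ℤ} {θX θY θD θA : ℤ → M → M}
    (hS : S.Ok) (hN : ∀ᶠ n in atTop, 1 ≤ N n)
    (hbox : ∀ᶠ n in atTop,
      |xl n| ≤ ρ * N n ∧ |xr n| ≤ ρ * N n ∧ |yb n| ≤ ρ * N n ∧ |yt n| ≤ ρ * N n)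
    (hlr : ∀ᶠ n in atTop, xl n ≤ xr n) (hbt : ∀ᶠ n in atTop, yb n ≤ yt n)
    (hg : ∀ᶠ n in atTop, ∀ i, S.In (KK ρ N xl xr yb yt i n) (g i n))
    (hZ : ∀ᶠ n in atTop, ∀ i, 0 < Z i n)
    (hRX : S.Refl gX θX) (hRY : S.Refl gY θY) (hRD : S.Refl gD θD) (hRA : S.Refl gA θA)
    (hOX : OSb S gX θX N (KK ρ N xl xr yb yt) g Z) (hOY : OSb S gY θY N (KK ρ N xl xr yb yt) g Z)
    (hOD : OSb S gD θD N (KK ρ N xl xr yb yt) g Z) (hOA : OSb S gA θA N (KK ρ N xl xr yb yt) g Z)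
    (hY : Tendsto (fun n => os S θY (yb n - 2 * N n) (g 4 n) / Z 4 n ^ 2) atTop (𝓝 0)) :
    Tendsto (fun n => S.w (∏ i, g i n) / ((∏ i, Z i n : ℝ) : ℂ)) atTop (𝓝 0) := by
  obtain ⟨n0, h0⟩ := eventually_atTop.1
    (hN.and (hbox.and (hlr.and (hbt.and (hg.and hZ)))))
  have hge : ∀ n : ℕ, n0 ≤ n + n0 := fun n => Nat.le_add_left _ _
  have key := six_legs (N := fun n => N (n + n0)) (g := fun i n => g i (n + n0))
    (Z := fun i n => Z i (n + n0)) (ρ := ρ) (xl := fun n => xl (n + n0))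
    (xr := fun n => xr (n + n0)) (yb := fun n => yb (n + n0)) (yt := fun n => yt (n + n0))
    hS (fun n => (h0 _ (hge n)).1) (fun n => (h0 _ (hge n)).2.1) (fun n => (h0 _ (hge n)).2.2.1)
    (fun n => (h0 _ (hge n)).2.2.2.1) (fun i n => (h0 _ (hge n)).2.2.2.2.1 i)
    (fun i n => (h0 _ (hge n)).2.2.2.2.2 i) hRX hRY hRD hRA (hOX.shift n0) (hOY.shift n0)
    (hOD.shift n0) (hOA.shift n0) (hY.comp (tendsto_add_atTop_nat n0))
  exact (tendsto_add_atTop_iff_nat n0).1 key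

/-- The groups of walls and the centre. -/
structure Grp (ι : Fin 5 → Type) [∀ i, Fintype (ι i)] where
  G : ∀ i, ℕ → WC (ι i)
  hc : ∀ i n, Fc (G i n)
  G1 : ℕ → WC (ι 4)
  hc1 : ∀ n, Fc (G1 n)
  α : ℝ
  g : Fin 5 → ℕ → LIns
  hg : ∀ i, i ≠ 4 → ∀ n, g i n = insW (G i n) (hc i n)
  hg4 : ∀ n, Lin3 α (g 4 n) (insW (G1 n) (hc1 n)) (insW (G 4 n) (hc 4 n))
  hj : ∀ n, (G1 n).jumps = (G 4 n).jumps

/-- The normalisations. -/
noncomputable def Grp.Z {ι : Fin 5 → Type} [∀ i, Fintype (ι i)] (Γ : Grp ι) (zt zf : ℕ → ℝ)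
    (i : Fin 5) (n : ℕ) : ℝ := zt n ^ Fintype.card (ι i) * zf n ^ (Γ.G i n).jumps

/-- Estimates for the groups. -/
structure Grp.Ok {ι : Fin 5 → Type} [∀ i, Fintype (ι i)] (Γ : Grp ι)
    (K : Fin 5 → ℕ → Set (ℤ × ℤ)) (N : ℕ → ℕ) (κ R B : ℝ) : Prop where
  κ0 : 0 < κ
  N : ∀ᶠ n : ℕ in atTop, κ * n ≤ N n ∧ (N n : ℝ) ≤ n
  adm : ∀ᶠ n : ℕ in atTop, ∀ i, (Γ.G i n).Adm κ R B n
  adm1 : ∀ᶠ n : ℕ in atTop, (Γ.G1 n).Adm κ R B n
  pts : ∀ᶠ n : ℕ in atTop, ∀ i, ∀ u ∈ pts (Γ.G i n), u ∈ K i n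
  pts1 : ∀ᶠ n : ℕ in atTop, ∀ u ∈ H199.pts (Γ.G1 n), u ∈ K 4 n
  li : ∀ᶠ n : ℕ in atTop, ∀ i, LI (K i n) (insW (Γ.G i n) (Γ.hc i n)).1
  li1 : ∀ᶠ n : ℕ in atTop, LI (K 4 n) (insW (Γ.G1 n) (Γ.hc1 n)).1

theorem Grp.osb {ι : Fin 5 → Type} [∀ i, Fintype (ι i)] {Γ : Grp ι}
    {K : Fin 5 → ℕ → Set (ℤ × ℤ)} {N : ℕ → ℕ} {κ R B : ℝ} (hΓ : Γ.Ok K N κ R B)
    {zt zf : ℕ → ℝ} (hH : HOS zt zf) {om : Ins → ℂ} (hom : IsOm (√3) om) {D : GDir}
    {θ : ℤ → LIns → LIns} {rf : ∀ {ι : Type} [Fintype ι], ℤ → WC ι → WC ι} (hD : RW D θ rf)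
    (hS : (sysOm om).Ok) (hR : (sysOm om).Refl D θ) (hGD : D.Ok) (hθ : ThLin θ) :
    OSb (sysOm om) D θ N K Γ.g (Γ.Z zt zf) := by
  classical
  intro κ'
  obtain ⟨C, hC, hev⟩ := os_prod hH hom hD hΓ.κ0 R B κ' (∑ i, Fintype.card (ι i))
  refine ⟨(2 + 2 * Γ.α ^ 2) * C, by positivity, ?_⟩
  filter_upwards [hev, hΓ.N, hΓ.adm, hΓ.adm1, hΓ.pts, hΓ.pts1, hΓ.li, hΓ.li1]
    with n hn hN hA hA1 hp hp1 hl hl1
  intro A w hw4 hw hs m hm hside
  have key := hn ι (fun i => Γ.G i n) (fun i => Γ.hc i n) (fun i => K i n) (N n) le_rfl hN.1 hN.2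
    hA hp A w hw hs m hm hside
  have hZ : ∏ i ∈ A, (zt n ^ Fintype.card (ι i) * zf n ^ (Γ.G i n).jumps) ^ 2 =
      ∏ i ∈ A, Γ.Z zt zf i n ^ 2 := rfl
  have hZ0 : 0 ≤ C * ∏ i ∈ A, Γ.Z zt zf i n ^ 2 :=
    mul_nonneg hC.le (Finset.prod_nonneg fun i _ => sq_nonneg _)
  by_cases h4 : (4 : Fin 5) ∈ A
  · -- the second family
    have key1 := hn ι (Function.update (fun i => Γ.G i n) 4 (Γ.G1 n)) (by
        intro i
        rcases eq_or_ne i 4 with rfl | hi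
        · rw [Function.update_self]; exact Γ.hc1 n
        · rw [Function.update_of_ne hi]; exact Γ.hc i n)
      (fun i => K i n) (N n) le_rfl hN.1 hN.2 (by
        intro i
        rcases eq_or_ne i 4 with rfl | hi
        · rw [Function.update_self]; exact hA1
        · rw [Function.update_of_ne hi]; exact hA i) (by
        intro i
        rcases eq_or_ne i 4 with rfl | hi
        · rw [Function.update_self]; exact hp1
        · rw [Function.update_of_ne hi]; exact hp i) A w hw hs m hm hside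
    set P : LIns := ∏ i ∈ A.erase 4, LIns.sh (N n • w i) (insW (Γ.G i n) (Γ.hc i n)) with hP
    have e0 : ∏ i ∈ A, LIns.sh (N n • w i) (insW (Γ.G i n) (Γ.hc i n)) =
        P * insW (Γ.G 4 n) (Γ.hc 4 n) := by
      rw [← Finset.prod_erase_mul A _ h4, hw4, smul_zero, LIns.sh_zero]
    have e1 : ∏ i ∈ A, LIns.sh (N n • w i)
        (insW (Function.update (fun i => Γ.G i n) 4 (Γ.G1 n) i) (by
        rcases eq_or_ne i 4 with rfl | hi
        · rw [Function.update_self]; exact Γ.hc1 n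
        · rw [Function.update_of_ne hi]; exact Γ.hc i n)) =
        P * insW (Γ.G1 n) (Γ.hc1 n) := by
      rw [← Finset.prod_erase_mul A _ h4, hw4, smul_zero, LIns.sh_zero]
      congr 1
      refine Finset.prod_congr rfl fun i hi => ?_
      congr 1
      exact H199.insW_congr (Function.update_of_ne (Finset.ne_of_mem_erase hi) _ _) _ _
    have eY : ∏ i ∈ A, (sysOm om).sh (N n • w i) (Γ.g i n) = P * Γ.g 4 n := by
      show ∏ i ∈ A, LIns.sh (N n • w i) (Γ.g i n) = _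
      rw [← Finset.prod_erase_mul A _ h4, hw4, smul_zero, LIns.sh_zero]
      congr 1
      refine Finset.prod_congr rfl fun i hi => ?_
      rw [Γ.hg i (Finset.ne_of_mem_erase hi)]
    rw [e0] at key
    have hZ1 : ∏ i ∈ A, (zt n ^ Fintype.card (ι i) *
        zf n ^ (Function.update (fun i => Γ.G i n) 4 (Γ.G1 n) i).jumps) ^ 2 =
        ∏ i ∈ A, Γ.Z zt zf i n ^ 2 := by
      refine Finset.prod_congr rfl fun i _ => ?_
      rcases eq_or_ne i 4 with rfl | hi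
      · rw [Function.update_self, Γ.hj]; rfl
      · rw [Function.update_of_ne hi]; rfl
    have key1' : os (sysOm om) θ m (P * insW (Γ.G1 n) (Γ.hc1 n)) ≤
        C * ∏ i ∈ A, Γ.Z zt zf i n ^ 2 := by
      rw [← hZ1, ← e1]
      exact key1
    have key0' : os (sysOm om) θ m (P * insW (Γ.G 4 n) (Γ.hc 4 n)) ≤
        C * ∏ i ∈ A, Γ.Z zt zf i n ^ 2 := key
    -- supports
    have hin : ∀ (L : Set (ℤ × ℤ)), (∀ i ∈ A, ∀ q ∈ tK (K i n) (N n • w i), q ∈ L) →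
        (sysOm om).In L (P * insW (Γ.G1 n) (Γ.hc1 n)) ∧
        (sysOm om).In L (P * insW (Γ.G 4 n) (Γ.hc 4 n)) := by
      intro L hL
      have hPL : (sysOm om).In L P := prod_in hS _ _ fun i hi =>
        hS.mono (hS.shift (N n • w i) (hl i)) (hL i (Finset.mem_of_mem_erase hi))
      have h4L : ∀ q ∈ K 4 n, q ∈ L := fun q hq => hL 4 h4 q (by
        show q - N n • w 4 ∈ K 4 n
        rw [hw4, smul_zero, sub_zero]
        exact hq)
      exact ⟨hS.mul hPL (hS.mono hl1 h4L), hS.mul hPL (hS.mono (hl 4) h4L)⟩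
    have hfin : os (sysOm om) θ m (P * Γ.g 4 n) ≤
        2 * os (sysOm om) θ m (P * insW (Γ.G1 n) (Γ.hc1 n)) +
        2 * Γ.α ^ 2 * os (sysOm om) θ m (P * insW (Γ.G 4 n) (Γ.hc 4 n)) := by
      have hNn : (0 : ℤ) ≤ N n := by positivity
      rcases hside with h | h
      · obtain ⟨h1, h2⟩ := hin {q | m ≤ D.l q} (fun i hi q hq => by
          have := h i hi q hq
          show m ≤ D.l q
          linarith)
        exact os_lin3 hom hR hθ (Γ.hg4 n) h1 h2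
      · obtain ⟨h1, h2⟩ := hin {q | -m ≤ D.neg.l q} (fun i hi q hq => by
          have := h i hi q hq
          show -m ≤ - D.l q
          linarith)
        have := os_lin3 hom (hR.neg hS hGD) hθ.neg (Γ.hg4 n) h1 h2
        rw [os_neg, os_neg, os_neg, neg_neg] at this
        exact this
    rw [eY]
    refine hfin.trans ?_
    have hα : 0 ≤ 2 * Γ.α ^ 2 := by positivity
    calc _ ≤ 2 * (C * ∏ i ∈ A, Γ.Z zt zf i n ^ 2) +
          2 * Γ.α ^ 2 * (C * ∏ i ∈ A, Γ.Z zt zf i n ^ 2) := by gcongr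
      _ = _ := by ring
  · have e : ∏ i ∈ A, (sysOm om).sh (N n • w i) (Γ.g i n) =
        ∏ i ∈ A, LIns.sh (N n • w i) (insW (Γ.G i n) (Γ.hc i n)) :=
      Finset.prod_congr rfl fun i hi => by
        rw [Γ.hg i (fun h => h4 (h ▸ hi))]
        rfl
    rw [e]
    refine key.trans ?_
    rw [hZ]
    have hα : 0 ≤ 2 * Γ.α ^ 2 := by positivity
    nlinarith

end Vale.Agent.P167.H825
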