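import Vale.Agent.P167.H825.LegF

/-!
# P167, block LEG: legs over an abstract commutative monoid of insertions

`Sys M`: state `w`, support `In`, translations `sh` on a commutative monoid `M` of insertions.
`Sys.Refl S D θ`: reflection `θ m` (complex conjugate of the mirror image) in the line `l = m` of
the direction `D`, with reflection positivity. `legLim`: continuation in the position of a group.
-/

namespace Vale.Agent.P167.H825

open Filter Topology Polynomial

set_option linter.unusedSectionVars false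
set_option linter.unusedVariables false

/-- A direction: linear form, reflections of the faces, step. -/
structure GDir where
  l : ℤ × ℤ → ℤ
  ρ : ℤ → ℤ × ℤ → ℤ × ℤ
  s : ℤ × ℤ

structure GDir.Ok (D : GDir) : Prop where
  l_add : ∀ q r, D.l (q + r) = D.l q + D.l r
  l_s : D.l D.s = 2
  l_ρ : ∀ m q, D.l (D.ρ m q) = 2 * m - D.l q
  ρρ : ∀ m q, D.ρ m (D.ρ m q) = q

/-- Columns. -/
def gX : GDir := ⟨fun q => q.1, fun m q => (2 * m - q.1, q.2), (2, 0)⟩

/-- Rows. -/
def gY : GDir := ⟨fun q => q.2, fun m q => (q.1, 2 * m - q.2), (0, 2)⟩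

/-- Diagonals. -/
def gD : GDir := ⟨fun q => q.1 - q.2, fun m q => (q.2 + m, q.1 - m), (1, -1)⟩

/-- Antidiagonals. -/
def gA : GDir := ⟨fun q => q.1 + q.2, fun m q => (m - q.2, m - q.1), (1, 1)⟩

/-- Opposite direction. -/
def GDir.neg (D : GDir) : GDir := ⟨fun q => - D.l q, fun m q => D.ρ (-m) q, - D.s⟩

theorem gX_ok : gX.Ok where
  l_add q r := rfl
  l_s := rfl
  l_ρ m q := rfl
  ρρ m q := by
    show (2 * m - (2 * m - q.1), q.2) = q
    apply Prod.ext <;> simp

theorem gY_ok : gY.Ok where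
  l_add q r := rfl
  l_s := rfl
  l_ρ m q := rfl
  ρρ m q := by
    show (q.1, 2 * m - (2 * m - q.2)) = q
    apply Prod.ext <;> simp

theorem gD_ok : gD.Ok where
  l_add q r := by show (q + r).1 - (q + r).2 = q.1 - q.2 + (r.1 - r.2); simp; ring
  l_s := rfl
  l_ρ m q := by show q.2 + m - (q.1 - m) = 2 * m - (q.1 - q.2); ring
  ρρ m q := by
    show (q.1 - m + m, q.2 + m - m) = q
    apply Prod.ext <;> simp

theorem gA_ok : gA.Ok where
  l_add q r := by show (q + r).1 + (q + r).2 = q.1 + q.2 + (r.1 + r.2); simp; ring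
  l_s := rfl
  l_ρ m q := by show m - q.2 + (m - q.1) = 2 * m - (q.1 + q.2); ring
  ρρ m q := by
    show (m - (m - q.1), m - (m - q.2)) = q
    apply Prod.ext <;> simp

theorem GDir.Ok.neg {D : GDir} (h : D.Ok) : D.neg.Ok where
  l_add q r := by show - D.l (q + r) = - D.l q + - D.l r; rw [h.l_add]; ring
  l_s := by
    show - D.l (- D.s) = 2
    have h1 := h.l_add D.s (- D.s)
    have h0 := h.l_add 0 0
    rw [add_neg_cancel, h.l_s] at h1
    rw [add_zero] at h0
    linarith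
  l_ρ m q := by show - D.l (D.ρ (-m) q) = 2 * m - - D.l q; rw [h.l_ρ]; ring
  ρρ m q := h.ρρ (-m) q

theorem GDir.Ok.l_zero {D : GDir} (hD : D.Ok) : D.l 0 = 0 := by
  have h0 := hD.l_add 0 0
  rw [add_zero] at h0
  linarith

theorem GDir.Ok.l_zsmul {D : GDir} (hD : D.Ok) (n : ℤ) : D.l (n • D.s) = 2 * n := by
  have h1 : ∀ n : ℕ, D.l ((n : ℤ) • D.s) = 2 * n := by
    intro n
    induction n with
    | zero => simpa using hD.l_zero
    | succ n ih =>
      push_cast
      rw [add_smul, one_smul, hD.l_add, ih, hD.l_s]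
      ring
  rcases le_or_gt 0 n with h | h
  · lift n to ℕ using h
    exact h1 n
  · obtain ⟨k, rfl⟩ : ∃ k : ℕ, n = -(k : ℤ) := ⟨n.natAbs, by omega⟩
    have h2 := hD.l_add (-(k : ℤ) • D.s) ((k : ℤ) • D.s)
    rw [neg_smul, neg_add_cancel, hD.l_zero, ← neg_smul, h1] at h2
    linarith

/-- A system of insertions: state, support (a set of faces), translations. -/
structure Sys (M : Type) where
  w : M → ℂ
  In : Set (ℤ × ℤ) → M → Prop
  sh : ℤ × ℤ → M → M

structure Sys.Ok {M : Type} [CommMonoid M] (S : Sys M) : Prop where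
  mono : ∀ {K K' : Set (ℤ × ℤ)} {A : M}, S.In K A → K ⊆ K' → S.In K' A
  one : ∀ K, S.In K 1
  mul : ∀ {K A B}, S.In K A → S.In K B → S.In K (A * B)
  shift : ∀ {K : Set (ℤ × ℤ)} {A : M} (a : ℤ × ℤ), S.In K A → S.In {q | q - a ∈ K} (S.sh a A)
  sh_mul : ∀ a A B, S.sh a (A * B) = S.sh a A * S.sh a B
  sh_one : ∀ a, S.sh a 1 = 1
  sh_zero : ∀ A, S.sh 0 A = A
  sh_sh : ∀ a b A, S.sh a (S.sh b A) = S.sh (a + b) A
  w_sh : ∀ a A, S.w (S.sh a A) = S.w A
  bdd : ∀ A B, ∃ C : ℝ, ∀ v, ‖S.w (A * S.sh v B)‖ ≤ C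

/-- Reflections in the lines `l = m` of a direction, with reflection positivity. -/
structure Sys.Refl {M : Type} [CommMonoid M] (S : Sys M) (D : GDir) (θ : ℤ → M → M) : Prop where
  mul : ∀ m A B, θ m (A * B) = θ m A * θ m B
  one : ∀ m, θ m 1 = 1
  θθ : ∀ m A, θ m (θ m A) = A
  add : ∀ (m n : ℤ) (A : M), θ (m + n) A = S.sh (n • D.s) (θ m A)
  sh : ∀ (m n : ℤ) (A : M), θ m (S.sh (n • D.s) A) = S.sh (-(n • D.s)) (θ m A)
  loc : ∀ {m : ℤ} {K : Set (ℤ × ℤ)} {A : M}, S.In K A → S.In {q | D.ρ m q ∈ K} (θ m A)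
  conj : ∀ m A, S.w (θ m A) = (starRingEnd ℂ) (S.w A)
  pos : ∀ (m : ℤ) (k : ℕ) (A : Fin k → M) (c : Fin k → ℂ),
    (∀ i, S.In {q | m ≤ D.l q} (A i)) →
    0 ≤ (∑ i, ∑ j, (starRingEnd ℂ) (c i) * c j * S.w (θ m (A i) * A j)).re

variable {M : Type} [CommMonoid M] {S : Sys M} {D : GDir} {θ : ℤ → M → M}

/-- insertions above the line `l = m` -/
abbrev Up (S : Sys M) (D : GDir) (m : ℤ) : Type := {A : M // S.In {q | m ≤ D.l q} A}

/-- the reflection form on formal linear combinations -/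
noncomputable def Bf (S : Sys M) (D : GDir) (θ : ℤ → M → M) (m : ℤ) :
    (Up S D m →₀ ℂ) →ₗ[ℝ] (Up S D m →₀ ℂ) →ₗ[ℝ] ℝ :=
  LinearMap.mk₂ ℝ (fun x y => (x.sum fun A a => y.sum fun B b =>
      (starRingEnd ℂ) a * b * S.w (θ m A.1 * B.1)).re)
    (by
      intro x x' y
      rw [Finsupp.sum_add_index', Complex.add_re]
      · intro A; simp [Finsupp.sum]
      · intro A a b
        rw [← Finsupp.sum_add]
        simp only [map_add, add_mul])
    (by
      intro c x y
      rw [Finsupp.sum_smul_index']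
      · rw [smul_eq_mul, Finsupp.sum, Finsupp.sum, ← Complex.re_ofReal_mul, Finset.mul_sum]
        congr 1
        refine Finset.sum_congr rfl fun A _ => ?_
        rw [Finsupp.sum, Finsupp.sum, Finset.mul_sum]
        refine Finset.sum_congr rfl fun B _ => ?_
        rw [Complex.real_smul, map_mul, Complex.conj_ofReal]
        ring
      · intro A; simp [Finsupp.sum])
    (by
      intro x y y'
      rw [← Complex.add_re, ← Finsupp.sum_add]
      congr 2
      funext A a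
      rw [Finsupp.sum_add_index']
      · intro B; simp
      · intro B b b'; ring)
    (by
      intro c x y
      rw [smul_eq_mul, ← Complex.re_ofReal_mul, Finsupp.mul_sum]
      congr 2
      funext A a
      rw [Finsupp.sum_smul_index', Finsupp.mul_sum]
      · congr 1
        funext B b
        rw [Complex.real_smul]
        ring
      · intro B; simp)

theorem Bf_apply (m : ℤ) (x y : Up S D m →₀ ℂ) :
    Bf S D θ m x y = (x.sum fun A a => y.sum fun B b =>
      (starRingEnd ℂ) a * b * S.w (θ m A.1 * B.1)).re := rfl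

theorem Bf_single (m : ℤ) (A B : Up S D m) (a b : ℂ) :
    Bf S D θ m (Finsupp.single A a) (Finsupp.single B b) =
      ((starRingEnd ℂ) a * b * S.w (θ m A.1 * B.1)).re := by
  rw [Bf_apply, Finsupp.sum_single_index, Finsupp.sum_single_index]
  · simp
  · simp [Finsupp.sum]

theorem up_shift (hS : S.Ok) (hD : D.Ok) {m : ℤ} (n : ℤ) {A : M}
    (h : S.In {q | m ≤ D.l q} A) : S.In {q | m + 2 * n ≤ D.l q} (S.sh (n • D.s) A) := by
  refine hS.mono (hS.shift (n • D.s) h) fun q hq => ?_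
  have h1 : m ≤ D.l (q - n • D.s) := hq
  have h2 := hD.l_add (q - n • D.s) (n • D.s)
  rw [sub_add_cancel, hD.l_zsmul] at h2
  show m + 2 * n ≤ D.l q
  linarith

/-- the shift of an insertion above the line -/
def upS (hS : S.Ok) (hD : D.Ok) (m : ℤ) (A : Up S D m) : Up S D m :=
  ⟨S.sh ((1 : ℤ) • D.s) A.1, hS.mono (up_shift hS hD 1 A.2) fun q hq => by
    have h1 : m + 2 * 1 ≤ D.l q := hq
    show m ≤ D.l q
    linarith⟩

/-- the shift on formal linear combinations -/
noncomputable def Tf (hS : S.Ok) (hD : D.Ok) (m : ℤ) :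
    (Up S D m →₀ ℂ) →ₗ[ℝ] (Up S D m →₀ ℂ) :=
  Finsupp.lmapDomain ℂ ℝ (upS hS hD m)

theorem Tf_single (hS : S.Ok) (hD : D.Ok) (m : ℤ) (A : Up S D m) (a : ℂ) :
    Tf hS hD m (Finsupp.single A a) = Finsupp.single (upS hS hD m A) a := by
  show Finsupp.mapDomain _ _ = _
  rw [Finsupp.mapDomain_single]

theorem Tf_pow_single (hS : S.Ok) (hD : D.Ok) (m : ℤ) (A : Up S D m) (a : ℂ) (n : ℕ) :
    ∃ h : S.In {q | m ≤ D.l q} (S.sh ((n : ℤ) • D.s) A.1),
      (Tf hS hD m ^ n) (Finsupp.single A a) =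
        Finsupp.single (⟨S.sh ((n : ℤ) • D.s) A.1, h⟩ : Up S D m) a := by
  induction n with
  | zero =>
    refine ⟨?_, ?_⟩
    · rw [Nat.cast_zero, zero_smul, hS.sh_zero]; exact A.2
    · rw [pow_zero, Module.End.one_apply]
      congr 1
      apply Subtype.ext
      show A.1 = S.sh (((0 : ℕ) : ℤ) • D.s) A.1
      rw [Nat.cast_zero, zero_smul, hS.sh_zero]
  | succ n ih =>
    obtain ⟨h, e⟩ := ih
    have e2 : S.sh ((1 : ℤ) • D.s) (S.sh ((n : ℤ) • D.s) A.1) =
        S.sh (((n + 1 : ℕ) : ℤ) • D.s) A.1 := by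
      rw [hS.sh_sh, ← add_smul]
      congr 2
      push_cast
      ring
    refine ⟨?_, ?_⟩
    · rw [← e2]
      exact (upS hS hD m ⟨_, h⟩).2
    · rw [pow_succ', Module.End.mul_apply, e, Tf_single]
      congr 1
      exact Subtype.ext e2

theorem refl_swap (hS : S.Ok) (hR : S.Refl D θ) (m : ℤ) (A B : M) :
    S.w (θ m A * B) = (starRingEnd ℂ) (S.w (θ m B * A)) := by
  rw [← hR.conj m, hR.mul, hR.θθ, mul_comm]

/-- induction principle: two real linear maps on `X →₀ ℂ` which agree on single elements -/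
theorem lin_ext {X : Type} {f g : (X →₀ ℂ) →ₗ[ℝ] ℝ}
    (h : ∀ A a, f (Finsupp.single A a) = g (Finsupp.single A a)) : f = g := by
  refine LinearMap.ext fun x => ?_
  induction x using Finsupp.induction_linear with
  | zero => simp
  | add x y hx hy => rw [map_add, map_add, hx, hy]
  | single A a => exact h A a

theorem bilin_ext {X : Type} {f g : (X →₀ ℂ) →ₗ[ℝ] (X →₀ ℂ) →ₗ[ℝ] ℝ}
    (h : ∀ A a B b, f (Finsupp.single A a) (Finsupp.single B b) =
      g (Finsupp.single A a) (Finsupp.single B b)) : f = g := by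
  refine LinearMap.ext fun x => ?_
  induction x using Finsupp.induction_linear with
  | zero => simp
  | add x y hx hy => rw [map_add, map_add, hx, hy]
  | single A a => exact lin_ext fun B b => h A a B b

theorem Bf_symm (hS : S.Ok) (hR : S.Refl D θ) (m : ℤ) (x y : Up S D m →₀ ℂ) :
    Bf S D θ m x y = Bf S D θ m y x := by
  have : Bf S D θ m = (Bf S D θ m).flip := by
    refine bilin_ext fun A a B b => ?_
    rw [LinearMap.flip_apply, Bf_single, Bf_single, refl_swap hS hR m A.1 B.1,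
      ← Complex.conj_re ((starRingEnd ℂ) b * a * _)]
    congr 1
    simp only [map_mul, Complex.conj_conj]
    ring
  rw [this, LinearMap.flip_apply, ← this]

theorem Bf_nonneg (hS : S.Ok) (hR : S.Refl D θ) (m : ℤ) (x : Up S D m →₀ ℂ) :
    0 ≤ Bf S D θ m x x := by
  classical
  rw [Bf_apply]
  have e := x.support.equivFin
  have key := hR.pos m x.support.card (fun i => (e.symm i).1.1) (fun i => x (e.symm i).1)
    (fun i => (e.symm i).1.2)
  have h1 : ∀ f : Up S D m → ℂ, ∑ i : Fin x.support.card, f (e.symm i).1 = ∑ A ∈ x.support, f A := by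
    intro f
    rw [Equiv.sum_comp e.symm (fun A : x.support => f A.1)]
    exact Finset.sum_coe_sort x.support f
  have h2 : ∑ i : Fin x.support.card, ∑ j : Fin x.support.card,
      (starRingEnd ℂ) (x (e.symm i).1) * x (e.symm j).1 *
        S.w (θ m (e.symm i).1.1 * (e.symm j).1.1) =
      x.sum fun A a => x.sum fun B b => (starRingEnd ℂ) a * b * S.w (θ m A.1 * B.1) := by
    rw [Finsupp.sum]
    rw [h1 (fun A => ∑ j : Fin x.support.card, (starRingEnd ℂ) (x A) * x (e.symm j).1 *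
        S.w (θ m A.1 * (e.symm j).1.1))]
    refine Finset.sum_congr rfl fun A _ => ?_
    rw [Finsupp.sum]
    exact h1 (fun B => (starRingEnd ℂ) (x A) * x B * S.w (θ m A.1 * B.1))
  rw [h2] at key
  exact key

theorem Bf_shift (hS : S.Ok) (hD : D.Ok) (hR : S.Refl D θ) (m : ℤ) (x y : Up S D m →₀ ℂ) :
    Bf S D θ m (Tf hS hD m x) y = Bf S D θ m x (Tf hS hD m y) := by
  have : (Bf S D θ m).comp (Tf hS hD m) = ((Bf S D θ m).flip.comp (Tf hS hD m)).flip := by
    refine bilin_ext fun A a B b => ?_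
    rw [LinearMap.comp_apply, LinearMap.flip_apply, LinearMap.comp_apply, LinearMap.flip_apply,
      Tf_single, Tf_single, Bf_single, Bf_single]
    show ((starRingEnd ℂ) a * b * S.w (θ m (S.sh ((1 : ℤ) • D.s) A.1) * B.1)).re =
      ((starRingEnd ℂ) a * b * S.w (θ m A.1 * S.sh ((1 : ℤ) • D.s) B.1)).re
    rw [hR.sh, ← hS.w_sh ((1 : ℤ) • D.s) (S.sh _ _ * _), hS.sh_mul, hS.sh_sh, add_neg_cancel,
      hS.sh_zero]
  have h1 := congrArg (fun f => f x y) this
  simpa using h1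

theorem θ_sub (hS : S.Ok) (hR : S.Refl D θ) (m : ℤ) (A : M) :
    S.sh (-((1 : ℤ) • D.s)) (θ m A) = θ (m - 1) A := by
  have := hR.add m (-1) A
  rw [neg_smul] at this
  rw [sub_eq_add_neg, this]

theorem Bf_shift_nonneg (hS : S.Ok) (hD : D.Ok) (hR : S.Refl D θ) (m : ℤ)
    (x : Up S D m →₀ ℂ) : 0 ≤ Bf S D θ m x (Tf hS hD m x) := by
  -- the form at the line `m - 1`
  let i : Up S D m → Up S D (m - 1) := fun A => ⟨A.1, hS.mono A.2 fun q hq => by
    have : m ≤ D.l q := hq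
    show m - 1 ≤ D.l q
    linarith⟩
  let J : (Up S D m →₀ ℂ) →ₗ[ℝ] (Up S D (m - 1) →₀ ℂ) := Finsupp.lmapDomain ℂ ℝ i
  have hJ : ∀ A a, J (Finsupp.single A a) = Finsupp.single (i A) a := fun A a => by
    show Finsupp.mapDomain _ _ = _
    rw [Finsupp.mapDomain_single]
  have : ((Bf S D θ m).flip.comp (Tf hS hD m)).flip =
      ((((Bf S D θ (m - 1)).comp J).flip).comp J).flip := by
    refine bilin_ext fun A a B b => ?_
    rw [LinearMap.flip_apply, LinearMap.comp_apply, LinearMap.flip_apply, LinearMap.flip_apply,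
      LinearMap.comp_apply, LinearMap.flip_apply, LinearMap.comp_apply, hJ, hJ,
      Tf_single, Bf_single, Bf_single]
    show ((starRingEnd ℂ) a * b * S.w (θ m A.1 * S.sh ((1 : ℤ) • D.s) B.1)).re =
      ((starRingEnd ℂ) a * b * S.w (θ (m - 1) A.1 * B.1)).re
    rw [← θ_sub hS hR, ← hS.w_sh (-((1 : ℤ) • D.s)) (θ m A.1 * _), hS.sh_mul, hS.sh_sh,
      neg_add_cancel, hS.sh_zero]
  have h1 := congrArg (fun f => f x x) this
  have h2 : Bf S D θ m x (Tf hS hD m x) = Bf S D θ (m - 1) (J x) (J x) := by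
    simpa using h1
  rw [h2]
  exact Bf_nonneg hS hR (m - 1) (J x)

theorem Bf_bdd (hS : S.Ok) (hD : D.Ok) (m : ℤ) (x y : Up S D m →₀ ℂ) :
    ∃ C : ℝ, ∀ n : ℕ, |Bf S D θ m x ((Tf hS hD m ^ n) y)| ≤ C := by
  induction x using Finsupp.induction_linear with
  | zero => exact ⟨0, fun n => by simp⟩
  | add x x' hx hx' =>
    obtain ⟨C, hC⟩ := hx
    obtain ⟨C', hC'⟩ := hx'
    refine ⟨C + C', fun n => ?_⟩
    rw [map_add, LinearMap.add_apply]
    exact (abs_add_le _ _).trans (add_le_add (hC n) (hC' n))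
  | single A a =>
    induction y using Finsupp.induction_linear with
    | zero => exact ⟨0, fun n => by simp⟩
    | add y y' hy hy' =>
      obtain ⟨C, hC⟩ := hy
      obtain ⟨C', hC'⟩ := hy'
      refine ⟨C + C', fun n => ?_⟩
      rw [map_add, map_add]
      exact (abs_add_le _ _).trans (add_le_add (hC n) (hC' n))
    | single B b =>
      obtain ⟨C, hC⟩ := hS.bdd (θ m A.1) B.1
      refine ⟨‖(starRingEnd ℂ) a * b‖ * C, fun n => ?_⟩
      obtain ⟨h, e⟩ := Tf_pow_single hS hD m B b n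
      rw [e, Bf_single]
      refine (Complex.abs_re_le_norm _).trans ?_
      rw [norm_mul]
      exact mul_le_mul_of_nonneg_left (hC _) (norm_nonneg _)

theorem legFormS (hS : S.Ok) (hD : D.Ok) (hR : S.Refl D θ) (m : ℤ) :
    LegForm (Bf S D θ m) (Tf hS hD m) where
  symm := Bf_symm hS hR m
  nonneg := Bf_nonneg hS hR m
  shift := Bf_shift hS hD hR m
  shift_nonneg := Bf_shift_nonneg hS hD hR m
  bdd x := by
    obtain ⟨C, hC⟩ := Bf_bdd (θ := θ) hS hD m x x
    exact ⟨C, fun n => (le_abs_self _).trans (hC n)⟩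

/-- square of the reflection norm -/
noncomputable def os (S : Sys M) (θ : ℤ → M → M) (m : ℤ) (F : M) : ℝ := (S.w (F * θ m F)).re

theorem os_nonneg (hS : S.Ok) (hR : S.Refl D θ) {m : ℤ} {F : M}
    (hF : S.In {q | m ≤ D.l q} F) : 0 ≤ os S θ m F := by
  have := Bf_nonneg hS hR m (Finsupp.single ⟨F, hF⟩ 1)
  rw [Bf_single, map_one, one_mul, one_mul, mul_comm] at this
  exact this

theorem loc_up (hS : S.Ok) (hD : D.Ok) (hR : S.Refl D θ) {m : ℤ} {G : M}
    (hG : S.In {q | D.l q ≤ m} G) : S.In {q | m ≤ D.l q} (θ m G) := by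
  refine hS.mono (hR.loc hG) fun q hq => ?_
  have h1 : D.l (D.ρ m q) ≤ m := hq
  rw [hD.l_ρ] at h1
  show m ≤ D.l q
  linarith

theorem loc_down (hS : S.Ok) (hD : D.Ok) (hR : S.Refl D θ) {m : ℤ} {G : M}
    (hG : S.In {q | m ≤ D.l q} G) : S.In {q | D.l q ≤ m} (θ m G) := by
  refine hS.mono (hR.loc hG) fun q hq => ?_
  have h1 : m ≤ D.l (D.ρ m q) := hq
  rw [hD.l_ρ] at h1
  show D.l q ≤ m
  linarith

theorem os_θ (hR : S.Refl D θ) (m : ℤ) (F : M) : os S θ m (θ m F) = os S θ m F := by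
  unfold os
  rw [hR.θθ, mul_comm]

theorem os_nonneg' (hS : S.Ok) (hD : D.Ok) (hR : S.Refl D θ) {m : ℤ} {F : M}
    (hF : S.In {q | D.l q ≤ m} F) : 0 ≤ os S θ m F := by
  rw [← os_θ hR]
  exact os_nonneg hS hR (loc_up hS hD hR hF)

theorem os_sh (hS : S.Ok) (hR : S.Refl D θ) (m n : ℤ) (F : M) :
    os S θ (m + 2 * n) (S.sh (n • D.s) F) = os S θ m F := by
  unfold os
  rw [hR.sh, show m + 2 * n = m + n + n by ring, hR.add (m + n) n, hR.add m n, hS.sh_sh, hS.sh_sh,
    neg_add_cancel, zero_add, ← hS.sh_mul, hS.w_sh]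

/-- correlations of `F` above and `G` below the line: real and imaginary part -/
theorem legSeqS (hS : S.Ok) (hD : D.Ok) (hR : S.Refl D θ) {m : ℤ} {F G : M}
    (hF : S.In {q | m ≤ D.l q} F) (hG : S.In {q | D.l q ≤ m} G) (c : ℂ) (hc : ‖c‖ = 1) :
    PolyBdd (fun i => (c * S.w (G * S.sh ((i : ℤ) • D.s) F)).re)
      (√(os S θ m G) * √(os S θ m F)) := by
  have hG' := loc_up hS hD hR hG
  have hcc : (starRingEnd ℂ) ((starRingEnd ℂ) c) * (starRingEnd ℂ) c = 1 := by
    rw [Complex.conj_conj, Complex.mul_conj, Complex.normSq_eq_norm_sq, hc]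
    norm_num
  let x : Up S D m →₀ ℂ := Finsupp.single ⟨θ m G, hG'⟩ ((starRingEnd ℂ) c)
  let y : Up S D m →₀ ℂ := Finsupp.single ⟨F, hF⟩ 1
  have hL := legFormS hS hD hR m
  have e1 : Bf S D θ m x x = os S θ m G := by
    rw [Bf_single, hcc, one_mul, hR.θθ]
    rfl
  have e2 : Bf S D θ m y y = os S θ m F := by
    rw [Bf_single, map_one, one_mul, one_mul, mul_comm]
    rfl
  have key := hL.polyBdd x y (C := √(os S θ m G) * √(os S θ m F)) (by rw [e1, e2])
  have e : (fun i : ℕ => (c * S.w (G * S.sh ((i : ℤ) • D.s) F)).re) =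
      fun i => Bf S D θ m x ((Tf hS hD m ^ i) y) := by
    funext i
    obtain ⟨h, e⟩ := Tf_pow_single hS hD m ⟨F, hF⟩ 1 i
    rw [show (Tf hS hD m ^ i) y = _ from e, Bf_single, Complex.conj_conj, mul_one, hR.θθ]
  rw [e]
  exact key

/-- Cauchy-Schwarz for the reflection form -/
theorem csS (hS : S.Ok) (hD : D.Ok) (hR : S.Refl D θ) {m : ℤ} {F G : M}
    (hF : S.In {q | m ≤ D.l q} F) (hG : S.In {q | D.l q ≤ m} G) :
    ‖S.w (G * F)‖ ≤ √(os S θ m G) * √(os S θ m F) := by
  have key : ∀ c : ℂ, ‖c‖ = 1 → |(c * S.w (G * F)).re| ≤ √(os S θ m G) * √(os S θ m F) := by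
    intro c hc
    have h := legSeqS hS hD hR hF hG c hc 1 1 (by intro x _; simp)
    have e : Lf (fun i => (c * S.w (G * S.sh ((i : ℤ) • D.s) F)).re) 1 =
        (c * S.w (G * F)).re := by
      have := Lf_X_pow (fun i : ℕ => (c * S.w (G * S.sh ((i : ℤ) • D.s) F)).re) 0
      rw [pow_zero] at this
      rw [this]
      simp only [Nat.cast_zero, zero_smul, hS.sh_zero]
    rw [e, one_mul] at h
    exact h
  by_cases h0 : S.w (G * F) = 0
  · rw [h0, norm_zero]; positivity
  · have hn : ‖S.w (G * F)‖ ≠ 0 := norm_ne_zero_iff.2 h0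
    have := key ((starRingEnd ℂ) (S.w (G * F)) / ‖S.w (G * F)‖) (by
      rw [norm_div, RCLike.norm_conj, Complex.norm_real, Real.norm_eq_abs, abs_of_nonneg
        (norm_nonneg _), div_self hn])
    rw [div_mul_eq_mul_div, mul_comm, Complex.mul_conj, Complex.normSq_eq_norm_sq] at this
    have e : (((‖S.w (G * F)‖ ^ 2 : ℝ) : ℂ) / (‖S.w (G * F)‖ : ℂ)).re = ‖S.w (G * F)‖ := by
      rw [← Complex.ofReal_div, Complex.ofReal_re, sq, mul_div_assoc, div_self hn, mul_one]
    rw [e, abs_of_nonneg (norm_nonneg _)] at this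
    exact this

/-- the same as `legSeqS` with a strip of width `2 N` -/
theorem legSeqS' (hS : S.Ok) (hD : D.Ok) (hR : S.Refl D θ) {m : ℤ} {N : ℕ} {F G : M} {C : ℝ}
    (hF : S.In {q | m + 2 * N ≤ D.l q} F) (hG : S.In {q | D.l q ≤ m} G)
    (h1 : √(os S θ m G) * √(os S θ (m + 2 * N) F) ≤ C) (c : ℂ) (hc : ‖c‖ = 1) :
    ∃ H : ℕ → ℝ, PolyBdd H C ∧
      ∀ i : ℕ, (c * S.w (G * S.sh ((i : ℤ) • D.s) F)).re = H (N + i) := by
  have hF' : S.In {q | m ≤ D.l q} (S.sh ((-(N : ℤ)) • D.s) F) :=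
    hS.mono (up_shift hS hD (-(N : ℤ)) hF) fun q hq => by
      have h3 : m + 2 * N + 2 * (-(N : ℤ)) ≤ D.l q := hq
      show m ≤ D.l q
      linarith
  have e0 : os S θ m (S.sh ((-(N : ℤ)) • D.s) F) = os S θ (m + 2 * N) F := by
    have := os_sh hS hR (m + 2 * N) (-(N : ℤ)) F
    rw [show m + 2 * (N : ℤ) + 2 * (-(N : ℤ)) = m by ring] at this
    exact this
  refine ⟨fun i => (c * S.w (G * S.sh ((i : ℤ) • D.s) (S.sh ((-(N : ℤ)) • D.s) F))).re,
    fun p B hB => ?_, fun i => ?_⟩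
  · have hB0 : 0 ≤ B := (abs_nonneg _).trans (hB 0 (by simp))
    have h2 := legSeqS hS hD hR hF' hG c hc p B hB
    rw [e0] at h2
    exact h2.trans (by gcongr)
  · show _ = (c * S.w (G * S.sh (((N + i : ℕ) : ℤ) • D.s) (S.sh ((-(N : ℤ)) • D.s) F))).re
    rw [hS.sh_sh, ← add_smul]
    congr 5
    push_cast
    ring

theorem PolyBdd.smulS {H : ℕ → ℝ} {C a : ℝ} (h : PolyBdd H C) (ha : 0 ≤ a) :
    PolyBdd (fun i => a * H i) (a * C) := by
  intro p M hM
  have e : Lf (fun i => a * H i) p = a * Lf H p := by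
    simp only [Lf_apply, Polynomial.sum_def, Finset.mul_sum, mul_assoc]
  rw [e, abs_mul, abs_of_nonneg ha]
  calc a * |Lf H p| ≤ a * (M * C) := by gcongr; exact h p M hM
    _ = M * (a * C) := by ring

/-- **legs with reflection norms** -/
theorem legLimS (hS : S.Ok) (hD : D.Ok) (hR : S.Refl D θ) (N : ℕ → ℕ) (m : ℕ → ℤ)
    (F G : ℕ → M) (C : ℕ → ℝ) (hC : ∀ n, 0 < C n)
    (hF : ∀ n, S.In {q | m n + 2 * N n ≤ D.l q} (F n)) (hG : ∀ n, S.In {q | D.l q ≤ m n} (G n))
    (hn : ∀ᶠ n in atTop, √(os S θ (m n) (G n)) * √(os S θ (m n + 2 * N n) (F n)) ≤ C n)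
    (hlim : ∃ k0 : ℕ, ∀ k, k0 ≤ k → Tendsto
      (fun n => S.w (G n * S.sh (((k * N n : ℕ) : ℤ) • D.s) (F n)) / (C n : ℂ)) atTop (𝓝 0)) :
    Tendsto (fun n => S.w (G n * F n) / (C n : ℂ)) atTop (𝓝 0) := by
  classical
  obtain ⟨k0, hk⟩ := hlim
  obtain ⟨n0, hn0⟩ := eventually_atTop.1 hn
  have hC' : ∀ n, 0 ≤ (C n)⁻¹ := fun n => (inv_pos.2 (hC n)).le
  have key : ∀ c : ℂ, ‖c‖ = 1 → Tendsto
      (fun n => (C n)⁻¹ * (c * S.w (G n * F n)).re) atTop (𝓝 0) := by
    intro c hc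
    have key1 := leg_limit_seq (fun n i => if n0 ≤ n then
      (C n)⁻¹ * (c * S.w (G n * S.sh ((i : ℤ) • D.s) (F n))).re else 0) N 1 (fun n => ?_) k0
      (fun k hk0 => ?_)
    · refine key1.congr' ?_
      filter_upwards [eventually_ge_atTop n0] with n h
      rw [if_pos h, Nat.cast_zero, zero_smul, hS.sh_zero]
    · by_cases h : n0 ≤ n
      · simp only [if_pos h]
        obtain ⟨H, hH, e⟩ := legSeqS' hS hD hR (hF n) (hG n) (hn0 n h) c hc
        refine ⟨fun i => (C n)⁻¹ * H i, ?_, fun i => ?_⟩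
        · have := hH.smulS (hC' n)
          rwa [inv_mul_cancel₀ (hC n).ne'] at this
        · rw [e]
      · simp only [if_neg h]
        refine ⟨fun _ => 0, fun p B hB => ?_, fun _ => rfl⟩
        have hB0 : 0 ≤ B := (abs_nonneg _).trans (hB 0 (by simp))
        have : Lf (fun _ => (0 : ℝ)) p = 0 := by
          simp [Lf_apply, Polynomial.sum_def]
        rw [this, abs_zero, mul_one]
        exact hB0
    · have h1 := (hk k hk0).const_mul c
      rw [mul_zero] at h1
      have h2 := (Complex.continuous_re.tendsto _).comp h1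
      simp only [Complex.zero_re, Function.comp_def] at h2
      refine h2.congr' ?_
      filter_upwards [eventually_ge_atTop n0] with n h
      rw [if_pos h, ← mul_div_assoc, Complex.div_ofReal_re, div_eq_inv_mul]
  have key1 := key 1 (by simp)
  have key2 := key (-Complex.I) (by simp)
  have key3 := (Complex.continuous_ofReal.tendsto _).comp key1
  have key4 := (Complex.continuous_ofReal.tendsto _).comp key2
  have := key3.add (key4.mul_const Complex.I)
  simp only [Function.comp_def, Complex.ofReal_zero, zero_mul, add_zero] at this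
  refine this.congr fun n => ?_
  apply Complex.ext
  · simp [div_eq_inv_mul]
  · simp [div_eq_inv_mul]

end Vale.Agent.P167.H825
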