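import Vale.Agent.P167.H825.ALeg

/-!
# P167, block LEG: the eight directions

`RX, RY, RD, RA` are the reflections of the arrows of `Vale.Agent.P145.FA.Defs` (same formulas).
-/

namespace Vale.Agent.P167.H825

open Finset Filter Topology MeasureTheory
open Vale.Agent.P152 (Ori Edge)

set_option linter.unusedSectionVars false
set_option linter.unusedVariables false

/-- Reflection of the arrows in the face column `m`. -/
def RX (m : ℤ) (ω : Om) : Om := fun e =>
  match e with
  | Sum.inl v => ω (Sum.inl (2 * m - v.1, v.2))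
  | Sum.inr v => !(ω (Sum.inr (2 * m - v.1 + 1, v.2)))

/-- Reflection of the arrows in the face row `m`. -/
def RY (m : ℤ) (ω : Om) : Om := fun e =>
  match e with
  | Sum.inl v => !(ω (Sum.inl (v.1, 2 * m - v.2 + 1)))
  | Sum.inr v => ω (Sum.inr (v.1, 2 * m - v.2))

/-- Reflection of the arrows in the diagonal `q.1 - q.2 = m`. -/
def RD (m : ℤ) (ω : Om) : Om := fun e =>
  match e with
  | Sum.inl v => !(ω (Sum.inr (v.2 + m, v.1 - m)))
  | Sum.inr v => !(ω (Sum.inl (v.2 + m, v.1 - m)))

/-- Reflection of the arrows in the antidiagonal `q.1 + q.2 = m`. -/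
def RA (m : ℤ) (ω : Om) : Om := fun e =>
  match e with
  | Sum.inl v => ω (Sum.inr (m - v.2 + 1, m - v.1))
  | Sum.inr v => ω (Sum.inl (m - v.2, m - v.1 + 1))

/-- Columns. -/
def aX : ADir := ⟨fun q => q.1, fun m q => (2 * m - q.1, q.2), RX, (2, 0)⟩

/-- Rows. -/
def aY : ADir := ⟨fun q => q.2, fun m q => (q.1, 2 * m - q.2), RY, (0, 2)⟩

/-- Diagonals. -/
def aD : ADir := ⟨fun q => q.1 - q.2, fun m q => (q.2 + m, q.1 - m), RD, (1, -1)⟩

/-- Antidiagonals. -/
def aA : ADir := ⟨fun q => q.1 + q.2, fun m q => (m - q.2, m - q.1), RA, (1, 1)⟩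

/-- Opposite direction. -/
def ADir.neg (D : ADir) : ADir :=
  ⟨fun q => - D.l q, fun m q => D.θ (-m) q, fun m ω => D.R (-m) ω, - D.s⟩

theorem loc_of {R : Type} (ρ : Edge (ℤ × ℤ) → Edge (ℤ × ℤ)) (σ : Edge (ℤ × ℤ) → Bool)
    (S : Om → Om) (hS : ∀ ω e, S ω e = xor (σ e) (ω (ρ e))) (θ : ℤ × ℤ → ℤ × ℤ)
    (h : ∀ K e, e ∈ EdK K → ρ e ∈ EdK {q | θ q ∈ K}) {K : Set (ℤ × ℤ)} {F : Om → R}
    (hF : LF K F) : LF {q | θ q ∈ K} (fun ω => F (S ω)) := by
  classical
  obtain ⟨Λ, h1, h2⟩ := hF
  refine ⟨Λ.image ρ, fun e he => ?_, fun ω ω' he => h2 _ _ fun e h' => ?_⟩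
  · obtain ⟨e', he', rfl⟩ := Finset.mem_image.1 he
    exact h K e' (h1 e' he')
  · rw [hS, hS, he _ (Finset.mem_image_of_mem _ h')]

theorem meas_of (ρ : Edge (ℤ × ℤ) → Edge (ℤ × ℤ)) (σ : Edge (ℤ × ℤ) → Bool)
    (S : Om → Om) (hS : ∀ ω e, S ω e = xor (σ e) (ω (ρ e))) : Measurable S := by
  refine measurable_pi_lambda _ fun e => ?_
  have : (fun ω : Om => S ω e) = (fun b : Bool => xor (σ e) b) ∘ fun ω : Om => ω (ρ e) := by
    funext ω
    exact hS ω e
  rw [this]
  exact (measurable_of_countable _).comp (measurable_pi_apply _)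

theorem aX_good : aX.Good where
  l_add q r := rfl
  l_s := rfl
  l_θ m q := rfl
  θθ m q := by
    show (2 * m - (2 * m - q.1), q.2) = q
    apply Prod.ext <;> simp
  RR m m' ω := by
    funext e
    rcases e with ⟨x, y⟩ | ⟨x, y⟩
    · show ω (Sum.inl (2 * m' - (2 * m - x), y)) = ω (Sum.inl ((x, y) + (m' - m) • ((2 : ℤ), (0 : ℤ))))
      congr 2
      apply Prod.ext <;> simp <;> ring
    · show (!!ω (Sum.inr (2 * m' - (2 * m - x + 1) + 1, y))) =
        ω (Sum.inr ((x, y) + (m' - m) • ((2 : ℤ), (0 : ℤ))))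
      rw [Bool.not_not]
      congr 2
      apply Prod.ext <;> simp <;> ring
  meas m := meas_of (fun e => Sum.elim (fun v => Sum.inl (2 * m - v.1, v.2))
      (fun v => Sum.inr (2 * m - v.1 + 1, v.2)) e) (fun e => Sum.elim (fun _ => false)
      (fun _ => true) e) _ (by
      intro ω e
      rcases e with ⟨x, y⟩ | ⟨x, y⟩
      · show _ = xor false _
        rw [Bool.false_xor]; rfl
      · show _ = xor true _
        rw [Bool.true_xor]; rfl)
  loc m R K F hF := loc_of (fun e => Sum.elim (fun v => Sum.inl (2 * m - v.1, v.2))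
      (fun v => Sum.inr (2 * m - v.1 + 1, v.2)) e) (fun e => Sum.elim (fun _ => false)
      (fun _ => true) e) _ (by
      intro ω e
      rcases e with ⟨x, y⟩ | ⟨x, y⟩
      · show _ = xor false _
        rw [Bool.false_xor]; rfl
      · show _ = xor true _
        rw [Bool.true_xor]; rfl) _ (by
      intro K e he
      rcases e with ⟨x, y⟩ | ⟨x, y⟩
      · obtain ⟨h1, h2⟩ := he
        refine ⟨?_, ?_⟩
        · show (2 * m - (2 * m - x), y) ∈ K
          rwa [sub_sub_cancel]
        · show (2 * m - (2 * m - x), y - 1) ∈ K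
          rwa [sub_sub_cancel]
      · obtain ⟨h1, h2⟩ := he
        refine ⟨?_, ?_⟩
        · show (2 * m - (2 * m - x + 1), y) ∈ K
          have : 2 * m - (2 * m - x + 1) = x - 1 := by ring
          rwa [this]
        · show (2 * m - (2 * m - x + 1 - 1), y) ∈ K
          have : 2 * m - (2 * m - x + 1 - 1) = x := by ring
          rwa [this]) hF

theorem aY_good : aY.Good where
  l_add q r := rfl
  l_s := rfl
  l_θ m q := rfl
  θθ m q := by
    show (q.1, 2 * m - (2 * m - q.2)) = q
    apply Prod.ext <;> simp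
  RR m m' ω := by
    funext e
    rcases e with ⟨x, y⟩ | ⟨x, y⟩
    · show (!!ω (Sum.inl (x, 2 * m' - (2 * m - y + 1) + 1))) =
        ω (Sum.inl ((x, y) + (m' - m) • ((0 : ℤ), (2 : ℤ))))
      rw [Bool.not_not]
      congr 2
      apply Prod.ext <;> simp <;> ring
    · show ω (Sum.inr (x, 2 * m' - (2 * m - y))) =
        ω (Sum.inr ((x, y) + (m' - m) • ((0 : ℤ), (2 : ℤ))))
      congr 2
      apply Prod.ext <;> simp <;> ring
  meas m := meas_of (fun e => Sum.elim (fun v => Sum.inl (v.1, 2 * m - v.2 + 1))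
      (fun v => Sum.inr (v.1, 2 * m - v.2)) e) (fun e => Sum.elim (fun _ => true)
      (fun _ => false) e) _ (by
      intro ω e
      rcases e with ⟨x, y⟩ | ⟨x, y⟩
      · show _ = xor true _
        rw [Bool.true_xor]; rfl
      · show _ = xor false _
        rw [Bool.false_xor]; rfl)
  loc m R K F hF := loc_of (fun e => Sum.elim (fun v => Sum.inl (v.1, 2 * m - v.2 + 1))
      (fun v => Sum.inr (v.1, 2 * m - v.2)) e) (fun e => Sum.elim (fun _ => true)
      (fun _ => false) e) _ (by
      intro ω e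
      rcases e with ⟨x, y⟩ | ⟨x, y⟩
      · show _ = xor true _
        rw [Bool.true_xor]; rfl
      · show _ = xor false _
        rw [Bool.false_xor]; rfl) _ (by
      intro K e he
      rcases e with ⟨x, y⟩ | ⟨x, y⟩
      · obtain ⟨h1, h2⟩ := he
        refine ⟨?_, ?_⟩
        · show (x, 2 * m - (2 * m - y + 1)) ∈ K
          have : 2 * m - (2 * m - y + 1) = y - 1 := by ring
          rwa [this]
        · show (x, 2 * m - (2 * m - y + 1 - 1)) ∈ K
          have : 2 * m - (2 * m - y + 1 - 1) = y := by ring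
          rwa [this]
      · obtain ⟨h1, h2⟩ := he
        refine ⟨?_, ?_⟩
        · show (x, 2 * m - (2 * m - y)) ∈ K
          rwa [sub_sub_cancel]
        · show (x - 1, 2 * m - (2 * m - y)) ∈ K
          rwa [sub_sub_cancel]) hF

theorem aD_good : aD.Good where
  l_add q r := by
    show q.1 + r.1 - (q.2 + r.2) = (q.1 - q.2) + (r.1 - r.2)
    ring
  l_s := rfl
  l_θ m q := by
    show q.2 + m - (q.1 - m) = 2 * m - (q.1 - q.2)
    ring
  θθ m q := by
    show (q.1 - m + m, q.2 + m - m) = q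
    apply Prod.ext <;> simp
  RR m m' ω := by
    funext e
    rcases e with ⟨x, y⟩ | ⟨x, y⟩
    · show (!!ω (Sum.inl (x - m + m', y + m - m'))) =
        ω (Sum.inl ((x, y) + (m' - m) • ((1 : ℤ), (-1 : ℤ))))
      rw [Bool.not_not]
      congr 2
      apply Prod.ext <;> simp <;> ring
    · show (!!ω (Sum.inr (x - m + m', y + m - m'))) =
        ω (Sum.inr ((x, y) + (m' - m) • ((1 : ℤ), (-1 : ℤ))))
      rw [Bool.not_not]
      congr 2
      apply Prod.ext <;> simp <;> ring
  meas m := meas_of (fun e => Sum.elim (fun v => Sum.inr (v.2 + m, v.1 - m))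
      (fun v => Sum.inl (v.2 + m, v.1 - m)) e) (fun _ => true) _ (by
      intro ω e
      rcases e with ⟨x, y⟩ | ⟨x, y⟩
      · show _ = xor true _
        rw [Bool.true_xor]; rfl
      · show _ = xor true _
        rw [Bool.true_xor]; rfl)
  loc m R K F hF := loc_of (fun e => Sum.elim (fun v => Sum.inr (v.2 + m, v.1 - m))
      (fun v => Sum.inl (v.2 + m, v.1 - m)) e) (fun _ => true) _ (by
      intro ω e
      rcases e with ⟨x, y⟩ | ⟨x, y⟩
      · show _ = xor true _
        rw [Bool.true_xor]; rfl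
      · show _ = xor true _
        rw [Bool.true_xor]; rfl) _ (by
      intro K e he
      rcases e with ⟨x, y⟩ | ⟨x, y⟩
      · obtain ⟨h1, h2⟩ := he
        refine ⟨?_, ?_⟩
        · show (x - m + m, y + m - m) ∈ K
          rwa [sub_add_cancel, add_sub_cancel_right]
        · show (x - m + m, y + m - 1 - m) ∈ K
          have : y + m - 1 - m = y - 1 := by ring
          rwa [sub_add_cancel, this]
      · obtain ⟨h1, h2⟩ := he
        refine ⟨?_, ?_⟩
        · show (x - m + m, y + m - m) ∈ K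
          rwa [sub_add_cancel, add_sub_cancel_right]
        · show (x - m - 1 + m, y + m - m) ∈ K
          have : x - m - 1 + m = x - 1 := by ring
          rwa [add_sub_cancel_right, this]) hF

theorem aA_good : aA.Good where
  l_add q r := by
    show q.1 + r.1 + (q.2 + r.2) = (q.1 + q.2) + (r.1 + r.2)
    ring
  l_s := rfl
  l_θ m q := by
    show m - q.2 + (m - q.1) = 2 * m - (q.1 + q.2)
    ring
  θθ m q := by
    show (m - (m - q.1), m - (m - q.2)) = q
    apply Prod.ext <;> simp
  RR m m' ω := by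
    funext e
    rcases e with ⟨x, y⟩ | ⟨x, y⟩
    · show ω (Sum.inl (m' - (m - x), m' - (m - y + 1) + 1)) =
        ω (Sum.inl ((x, y) + (m' - m) • ((1 : ℤ), (1 : ℤ))))
      congr 2
      apply Prod.ext <;> simp <;> ring
    · show ω (Sum.inr (m' - (m - x + 1) + 1, m' - (m - y))) =
        ω (Sum.inr ((x, y) + (m' - m) • ((1 : ℤ), (1 : ℤ))))
      congr 2
      apply Prod.ext <;> simp <;> ring
  meas m := meas_of (fun e => Sum.elim (fun v => Sum.inr (m - v.2 + 1, m - v.1))
      (fun v => Sum.inl (m - v.2, m - v.1 + 1)) e) (fun _ => false) _ (by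
      intro ω e
      rcases e with ⟨x, y⟩ | ⟨x, y⟩
      · show _ = xor false _
        rw [Bool.false_xor]; rfl
      · show _ = xor false _
        rw [Bool.false_xor]; rfl)
  loc m R K F hF := loc_of (fun e => Sum.elim (fun v => Sum.inr (m - v.2 + 1, m - v.1))
      (fun v => Sum.inl (m - v.2, m - v.1 + 1)) e) (fun _ => false) _ (by
      intro ω e
      rcases e with ⟨x, y⟩ | ⟨x, y⟩
      · show _ = xor false _
        rw [Bool.false_xor]; rfl
      · show _ = xor false _
        rw [Bool.false_xor]; rfl) _ (by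
      intro K e he
      rcases e with ⟨x, y⟩ | ⟨x, y⟩
      · obtain ⟨h1, h2⟩ := he
        refine ⟨?_, ?_⟩
        · show (m - (m - x), m - (m - y + 1)) ∈ K
          have : m - (m - y + 1) = y - 1 := by ring
          rwa [sub_sub_cancel, this]
        · show (m - (m - x), m - (m - y + 1 - 1)) ∈ K
          have : m - (m - y + 1 - 1) = y := by ring
          rwa [sub_sub_cancel, this]
      · obtain ⟨h1, h2⟩ := he
        refine ⟨?_, ?_⟩
        · show (m - (m - x + 1), m - (m - y)) ∈ K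
          have : m - (m - x + 1) = x - 1 := by ring
          rwa [sub_sub_cancel, this]
        · show (m - (m - x + 1 - 1), m - (m - y)) ∈ K
          have : m - (m - x + 1 - 1) = x := by ring
          rwa [sub_sub_cancel, this]) hF

theorem ADir.Good.neg {D : ADir} (h : D.Good) : D.neg.Good where
  l_add q r := by
    show - D.l (q + r) = - D.l q + - D.l r
    rw [h.l_add]; ring
  l_s := by
    show - D.l (- D.s) = 2
    have := h.l_zsmul (-1)
    rw [neg_smul, one_smul] at this
    rw [this]; norm_num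
  l_θ m q := by
    show - D.l (D.θ (-m) q) = 2 * m - (- D.l q)
    rw [h.l_θ]; ring
  θθ m q := h.θθ _ _
  RR m m' ω := by
    show D.R (-m) (D.R (-m') ω) = sh ((m' - m) • (- D.s)) ω
    rw [h.RR, smul_neg, ← neg_smul]
    congr 2
    ring
  meas m := h.meas _
  loc m R K F hF := h.loc (-m) R K F hF

theorem ADir.Inv.neg {P : Measure Om} {D : ADir} (h : D.Inv P) : D.neg.Inv P :=
  ⟨fun m => h.map (-m)⟩

theorem ADir.RP.neg {P : Measure Om} [IsProbabilityMeasure P] {D : ADir} (h : D.RP P)
    (hD : D.Good) (hI : D.Inv P) : D.neg.RP P := by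
  intro m F hF
  refine RP_below hD hI h (m := -m) (hF.mono fun q hq => ?_)
  have h1 : m ≤ - D.l q := hq
  show D.l q ≤ -m
  linarith

/-! ### invariance -/

/-- transposition -/
def tra (ω : Om) : Om := Sum.elim (fun v => ω (Sum.inr v.swap)) (fun v => ω (Sum.inl v.swap))

/-- reversal -/
def rev (ω : Om) : Om := fun e => !(ω e)

/-- reflection of the first coordinate -/
def ref (ω : Om) : Om := Sum.elim (fun v => ω (Sum.inl (-v.1 - 1, v.2)))
  (fun v => !(ω (Sum.inr (-v.1, v.2))))

/-- Symmetries of the plane measure. -/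
structure Sym (P : Measure Om) : Prop where
  shift : ∀ a : ℤ × ℤ, P.map (sh a) = P
  tr : P.map tra = P
  rv : P.map rev = P
  rf : P.map ref = P

theorem meas_tra : Measurable tra := meas_of
  (fun e => Sum.elim (fun v => Sum.inr v.swap) (fun v => Sum.inl v.swap) e) (fun _ => false) _ (by
    intro ω e
    rcases e with v | v
    · show _ = xor false _
      rw [Bool.false_xor]; rfl
    · show _ = xor false _
      rw [Bool.false_xor]; rfl)

theorem meas_rev : Measurable rev := meas_of (fun e => e) (fun _ => true) _ (by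
  intro ω e
  show _ = xor true _
  rw [Bool.true_xor]; rfl)

theorem meas_ref : Measurable ref := meas_of
  (fun e => Sum.elim (fun v => Sum.inl (-v.1 - 1, v.2)) (fun v => Sum.inr (-v.1, v.2)) e)
  (fun e => Sum.elim (fun _ => false) (fun _ => true) e) _ (by
    intro ω e
    rcases e with v | v
    · show _ = xor false _
      rw [Bool.false_xor]; rfl
    · show _ = xor true _
      rw [Bool.true_xor]; rfl)

theorem map_compA {P : Measure Om} {R S : Om → Om} (hR : Measurable R) (hS : Measurable S)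
    (h1 : P.map R = P) (h2 : P.map S = P) : P.map (fun ω => R (S ω)) = P := by
  have : (fun ω => R (S ω)) = R ∘ S := rfl
  rw [this, ← Measure.map_map hR hS, h2, h1]

theorem RX_eq (m : ℤ) (ω : Om) : RX m ω = ref (sh (2 * m + 1, 0) ω) := by
  funext e
  rcases e with ⟨x, y⟩ | ⟨x, y⟩
  · show ω (Sum.inl (2 * m - x, y)) = ω (Sum.inl ((-x - 1, y) + (2 * m + 1, 0)))
    congr 2
    apply Prod.ext <;> simp <;> ring
  · show (!(ω (Sum.inr (2 * m - x + 1, y)))) = !(ω (Sum.inr ((-x, y) + (2 * m + 1, 0))))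
    congr 3
    apply Prod.ext <;> simp <;> ring

theorem RY_eq (m : ℤ) (ω : Om) : RY m ω = tra (RX m (tra ω)) := by
  funext e
  rcases e with ⟨x, y⟩ | ⟨x, y⟩ <;> rfl

theorem RD_eq (m : ℤ) (ω : Om) : RD m ω = rev (tra (sh (m, -m) ω)) := by
  funext e
  rcases e with ⟨x, y⟩ | ⟨x, y⟩
  · show (!(ω (Sum.inr (y + m, x - m)))) = !(ω (Sum.inr ((y, x) + (m, -m))))
    congr 3
  · show (!(ω (Sum.inl (y + m, x - m)))) = !(ω (Sum.inl ((y, x) + (m, -m))))
    congr 3

theorem RA_eq (m : ℤ) (ω : Om) : RA m ω = rev (RX 0 (tra (RX 0 (sh (m, m) ω)))) := by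
  funext e
  rcases e with ⟨x, y⟩ | ⟨x, y⟩
  · show ω (Sum.inr (m - y + 1, m - x)) = !!(ω (Sum.inr ((2 * 0 - y + 1, 2 * 0 - x) + (m, m))))
    rw [Bool.not_not]
    congr 2
    apply Prod.ext <;> simp <;> ring
  · show ω (Sum.inl (m - y, m - x + 1)) = !!(ω (Sum.inl ((2 * 0 - y, 2 * 0 - x + 1) + (m, m))))
    rw [Bool.not_not]
    congr 2
    apply Prod.ext <;> simp <;> ring

theorem Sym.X {P : Measure Om} (h : Sym P) : aX.Inv P := ⟨fun m => by
  show P.map (RX m) = P
  rw [show RX m = fun ω => ref (sh (2 * m + 1, 0) ω) from funext (RX_eq m)]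
  exact map_compA meas_ref (measurable_sh _) h.rf (h.shift _)⟩

theorem Sym.Y {P : Measure Om} (h : Sym P) : aY.Inv P := ⟨fun m => by
  show P.map (RY m) = P
  rw [show RY m = fun ω => tra (RX m (tra ω)) from funext (RY_eq m)]
  exact map_compA meas_tra ((aX_good.meas m).comp meas_tra) h.tr
    (map_compA (aX_good.meas m) meas_tra (h.X.map m) h.tr)⟩

theorem Sym.D {P : Measure Om} (h : Sym P) : aD.Inv P := ⟨fun m => by
  show P.map (RD m) = P
  rw [show RD m = fun ω => rev (tra (sh (m, -m) ω)) from funext (RD_eq m)]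
  exact map_compA meas_rev (meas_tra.comp (measurable_sh _)) h.rv
    (map_compA meas_tra (measurable_sh _) h.tr (h.shift _))⟩

theorem Sym.A {P : Measure Om} (h : Sym P) : aA.Inv P := ⟨fun m => by
  show P.map (RA m) = P
  rw [show RA m = fun ω => rev (RX 0 (tra (RX 0 (sh (m, m) ω)))) from funext (RA_eq m)]
  have hx := aX_good.meas 0
  exact map_compA meas_rev (hx.comp (meas_tra.comp (hx.comp (measurable_sh _)))) h.rv
    (map_compA hx (meas_tra.comp (hx.comp (measurable_sh _))) (h.X.map 0)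
    (map_compA meas_tra (hx.comp (measurable_sh _)) h.tr
    (map_compA hx (measurable_sh _) (h.X.map 0) (h.shift _))))⟩

/-- Reflection positivity in the four directions. -/
structure RPall (P : Measure Om) : Prop where
  X : aX.RP P
  Y : aY.RP P
  D : aD.RP P
  A : aA.RP P

/-- the eight directions -/
def dirs : List ADir := [aX, aY, aD, aA, aX.neg, aY.neg, aD.neg, aA.neg]

theorem dirs_ok {P : Measure Om} [IsProbabilityMeasure P] (h : Sym P) (hR : RPall P) :
    ∀ D ∈ dirs, D.Good ∧ D.Inv P ∧ D.RP P := by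
  intro D hD
  simp only [dirs, List.mem_cons, List.not_mem_nil, or_false] at hD
  rcases hD with rfl | rfl | rfl | rfl | rfl | rfl | rfl | rfl
  · exact ⟨aX_good, h.X, hR.X⟩
  · exact ⟨aY_good, h.Y, hR.Y⟩
  · exact ⟨aD_good, h.D, hR.D⟩
  · exact ⟨aA_good, h.A, hR.A⟩
  · exact ⟨aX_good.neg, h.X.neg, hR.X.neg aX_good h.X⟩
  · exact ⟨aY_good.neg, h.Y.neg, hR.Y.neg aY_good h.Y⟩
  · exact ⟨aD_good.neg, h.D.neg, hR.D.neg aD_good h.D⟩
  · exact ⟨aA_good.neg, h.A.neg, hR.A.neg aA_good h.A⟩

end Vale.Agent.P167.H825
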