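import Vale.Agent.P167.H825.FldG

/-!
# P167, block 2A: `V_n(f + s Δψ) - α V_n(f) → 0` from `HOS`, `START` and the centre
-/

namespace Vale.Agent.P167.H825

open Finset Filter Topology MeasureTheory
open Vale.Agent.P167.H592
open Vale.Agent.P167.H199 (Fc insW insW_LI pts GI grp mks KB bN edT_of_mg isEmpty_GI card_GI
  sig_grp sum_jumps jumps_PW grp_all mks_ok Gen nm_le nm_fst nm_snd insW_empty om_insW)
open Vale.Agent.P167.H680 (prt Mg)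
open Vale.Agent.P167.H327 (fl)
open Vale.Agent.P167.E6 (IsPolygon Encloses)
open Vale.Agent.P167.BR (VD)

/-! ### limits -/

theorem tendsto_floor (y : ℝ) : Tendsto (fun n : ℕ => ((⌊y * n⌋ : ℤ) : ℝ) / n) atTop (𝓝 y) := by
  have h1 : Tendsto (fun n : ℕ => y - 1 / (n : ℝ)) atTop (𝓝 y) := by
    have := (tendsto_const_nhds (x := y)).sub tendsto_one_div_atTop_nhds_zero_nat
    rwa [sub_zero] at this
  refine tendsto_of_tendsto_of_tendsto_of_le_of_le' h1 tendsto_const_nhds ?_ ?_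
  · filter_upwards [eventually_gt_atTop 0] with n hn
    have hn' : (0 : ℝ) < n := by exact_mod_cast hn
    rw [le_div_iff₀ hn', sub_mul, one_div_mul_cancel hn'.ne']
    exact (Int.sub_one_lt_floor (y * n)).le
  · filter_upwards [eventually_gt_atTop 0] with n hn
    have hn' : (0 : ℝ) < n := by exact_mod_cast hn
    rw [div_le_iff₀ hn']
    exact Int.floor_le _

theorem bN_bd {η : ℝ} (hη : 0 < η) (hη1 : η ≤ 1) : ∀ᶠ n : ℕ in atTop,
    η / 2 * n ≤ bN η n ∧ (bN η n : ℝ) ≤ n ∧ (bN η n : ℝ) ≤ η * n ∧ η * n - 1 ≤ bN η n := by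
  filter_upwards [(tendsto_natCast_atTop_atTop (R := ℝ)).eventually_ge_atTop (2 / η),
    eventually_gt_atTop 0] with n hn hn0
  have hn0' : (0 : ℝ) < n := by exact_mod_cast hn0
  rw [div_le_iff₀ hη] at hn
  have f1 := Nat.lt_floor_add_one (η * n)
  have f2 := Nat.floor_le (show 0 ≤ η * n by positivity)
  have N1 : (bN η n : ℝ) ≤ η * n := by
    unfold bN
    push_cast
    exact max_le (by linarith) f2
  have N2 : η * n - 1 ≤ bN η n := by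
    have : (⌊η * n⌋₊ : ℝ) ≤ bN η n := by
      unfold bN
      exact_mod_cast le_max_right _ _
    linarith
  refine ⟨by linarith, N1.trans ?_, N1, N2⟩
  nlinarith

theorem tendsto_bN {η : ℝ} (hη : 0 < η) (hη1 : η ≤ 1) :
    Tendsto (fun n : ℕ => (bN η n : ℝ) / n) atTop (𝓝 η) := by
  have h1 : Tendsto (fun n : ℕ => η - 1 / (n : ℝ)) atTop (𝓝 η) := by
    have := (tendsto_const_nhds (x := η)).sub tendsto_one_div_atTop_nhds_zero_nat
    rwa [sub_zero] at this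
  refine tendsto_of_tendsto_of_tendsto_of_le_of_le' h1 tendsto_const_nhds ?_ ?_
  · filter_upwards [eventually_gt_atTop 0, bN_bd hη hη1] with n hn hb
    have hn' : (0 : ℝ) < n := by exact_mod_cast hn
    rw [le_div_iff₀ hn', sub_mul, one_div_mul_cancel hn'.ne']
    exact hb.2.2.2
  · filter_upwards [eventually_gt_atTop 0, bN_bd hη hη1] with n hn hb
    have hn' : (0 : ℝ) < n := by exact_mod_cast hn
    rw [div_le_iff₀ hn']
    exact hb.2.2.1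

/-- Bound of the lines of the box. -/
theorem box_bd {η : ℝ} (hη : 0 < η) (hη1 : η ≤ 1) (y : ℝ) : ∃ ρ0 : ℕ, ∀ ρ : ℕ, ρ0 ≤ ρ →
    ∀ᶠ n : ℕ in atTop, |⌊y * n⌋| ≤ (ρ : ℤ) * bN η n := by
  obtain ⟨ρ0, hρ0⟩ := exists_nat_ge (2 * (|y| + 1) / η)
  refine ⟨ρ0, fun ρ hρ => ?_⟩
  filter_upwards [eventually_gt_atTop 0, bN_bd hη hη1] with n hn hb
  have hn0' : (0 : ℝ) < n := by exact_mod_cast hn
  have hn1 : (1 : ℝ) ≤ n := by exact_mod_cast hn
  have hρ' : 2 * (|y| + 1) ≤ ρ * η := by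
    rw [div_le_iff₀ hη] at hρ0
    have : (ρ0 : ℝ) ≤ ρ := by exact_mod_cast hρ
    nlinarith
  have h1 : |((⌊y * n⌋ : ℤ) : ℝ)| ≤ (|y| + 1) * n := by
    have a1 := Int.floor_le (y * n)
    have a2 := Int.sub_one_lt_floor (y * n)
    have a3 := neg_abs_le y
    have a4 := le_abs_self y
    rw [abs_le]
    constructor <;> nlinarith
  have h2 : (|y| + 1) * n ≤ (ρ : ℝ) * bN η n := by
    have := mul_le_mul_of_nonneg_left hb.1 (Nat.cast_nonneg (α := ℝ) ρ)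
    nlinarith
  exact_mod_cast h1.trans h2

/-! ### the groups -/

theorem epos_of_EdT {K : Set (ℤ × ℤ)} {e : Ed} (he : e ∈ EdT K) : epos e ∈ K := by
  rcases e with v | v
  · have := he 0 0 (by norm_num) (by norm_num) (by norm_num) (by norm_num)
    show v ∈ K
    simpa using this
  · have := he 0 0 (by norm_num) (by norm_num) (by norm_num) (by norm_num)
    show v ∈ K
    simpa using this

theorem pts_sub_of {ι : Type} [Fintype ι] {W : WC ι} {K : Set (ℤ × ℤ)}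
    (h1 : ∀ e ∈ W.S, e ∈ EdT K) (h2 : ∀ e, W.c e ≠ 0 → e ∈ EdT K) : ∀ u ∈ pts W, u ∈ K := by
  rintro u (⟨i, k, hk, rfl⟩ | ⟨e, he, rfl⟩)
  · have h : (W.w i).e k ∈ W.S := H199.mem_S_iff.2
      ⟨i, Finset.mem_image_of_mem _ (Finset.mem_range.2 hk)⟩
    have := epos_of_EdT (h1 _ h)
    rwa [H199.epos_e] at this
  · exact epos_of_EdT (h2 e he)

theorem one_le_sqrt3' : (1 : ℝ) ≤ √3 := by
  rw [show (1 : ℝ) = √1 by simp]
  exact Real.sqrt_le_sqrt (by norm_num)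

theorem Grp.Ok.osb' {ι : Fin 5 → Type} [∀ i, Fintype (ι i)] {Γ : Grp ι}
    {K : Fin 5 → ℕ → Set (ℤ × ℤ)} {N : ℕ → ℕ} {κ R B : ℝ} (hΓ : Γ.Ok K N κ R B)
    {zt zf : ℕ → ℝ} (hH : HOS zt zf) {om : Ins → ℂ} (hom : IsOm (√3) om) {D : GDir}
    {θ : ℤ → LIns → LIns} {rf : ∀ {ι : Type} [Fintype ι], ℤ → WC ι → WC ι}
    (hD : H199.RW D θ rf) (hS : (sysOm om).Ok) (hR : (sysOm om).Refl D θ) (hGD : D.Ok)
    (hθ : ThLin θ) : OSb (sysOm om) D θ N K Γ.g (Γ.Z zt zf) :=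
  Grp.osb hΓ hH hom hD hS hR hGD hθ

section core

variable {l : ℕ} {p : ZMod l → ℤ × ℤ} {S₀ : Finset (ℤ × ℤ)} {b : Box} {tp δ α : ℝ}
  {φ₁ φ₂ φ₁' φ₂' : ℝ × ℝ → ℝ}

theorem jumps_empty {ι : Type} [Fintype ι] [IsEmpty ι] (W : WC ι) : W.jumps = 0 := by
  classical
  unfold WC.jumps
  rw [Finset.card_eq_zero]
  ext i
  exact isEmptyElim i

theorem li_of_lin3 {K : Set (ℤ × ℤ)} {α : ℝ} {Y E₁ E₀ : LIns} (h : Lin3 α Y E₁ E₀)
    (h1 : LI K E₁.1) (h0 : LI K E₀.1) : LI K Y.1 := by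
  obtain ⟨Λ, a1, a2, a3⟩ := h1
  obtain ⟨Λ', b1, b2, b3⟩ := h0
  classical
  refine ⟨Λ ∪ Λ', ?_, ?_, ?_⟩
  · intro e he
    rcases Finset.mem_union.1 he with he | he
    · exact a1 e he
    · exact b1 e he
  · rw [h.s]
    exact Finset.empty_subset _
  · intro ω ω' hh
    rw [h.f, h.f, a3 ω ω' fun e he => hh e (Finset.mem_union_left _ he),
      b3 ω ω' fun e he => hh e (Finset.mem_union_right _ he)]

/-- The groups of walls of the cut polygon with the flows of the regions, and the centre `Y`. -/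
noncomputable def mkGrp (p : ZMod l → ℤ × ℤ) (tp δ : ℝ) (f : Fld b S₀ φ₁ φ₂)
    (f' : Fld b S₀ φ₁' φ₂') (hE : IsEmpty (GI p b tp 4)) (Y : ℕ → LIns)
    (hY : ∀ n, Lin3 α (Y n) (insW (grp p b tp n ⌊δ * n⌋₊ 4 (flr b φ₁' φ₂' 4 n)) (f'.fin 4 n))
      (insW (grp p b tp n ⌊δ * n⌋₊ 4 (flr b φ₁ φ₂ 4 n)) (f.fin 4 n))) :
    Grp (fun r => GI p b tp r) where
  G r n := grp p b tp n ⌊δ * n⌋₊ r (flr b φ₁ φ₂ r n)
  hc r n := f.fin r n
  G1 n := grp p b tp n ⌊δ * n⌋₊ 4 (flr b φ₁' φ₂' 4 n)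
  hc1 n := f'.fin 4 n
  α := α
  g r n := if r = 4 then Y n else insW (grp p b tp n ⌊δ * n⌋₊ r (flr b φ₁ φ₂ r n)) (f.fin r n)
  hg r hr n := if_neg hr
  hg4 n := by
    rw [if_pos rfl]
    exact hY n
  hj n := by
    rw [jumps_empty, jumps_empty]

theorem mkGrp_g4 {n : ℕ} (f : Fld b S₀ φ₁ φ₂)
    (f' : Fld b S₀ φ₁' φ₂') (hE : IsEmpty (GI p b tp 4)) (Y : ℕ → LIns)
    (hY : ∀ n, Lin3 α (Y n) (insW (grp p b tp n ⌊δ * n⌋₊ 4 (flr b φ₁' φ₂' 4 n)) (f'.fin 4 n))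
      (insW (grp p b tp n ⌊δ * n⌋₊ 4 (flr b φ₁ φ₂ 4 n)) (f.fin 4 n))) :
    (mkGrp p tp δ f f' hE Y hY).g 4 n = Y n := by
  simp [mkGrp]

/-- The last estimate. -/
theorem last_est {E Zp c₀ ε α I1 I0 V1 V0 : ℝ} (hZ : 0 < Zp) (hc : 0 < c₀)
    (hE : c₀ * Zp ≤ E) (h1 : |I1 - E * V1| ≤ ε / (2 * (1 + |α|)) * E)
    (h0 : |I0 - E * V0| ≤ ε / (2 * (1 + |α|)) * E) (h : |(I1 - α * I0) / Zp| < c₀ * ε / 2) :
    |V1 - α * V0| < ε := by
  have hα : 0 ≤ |α| := abs_nonneg α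
  have hEp : 0 < E := lt_of_lt_of_le (by positivity) hE
  rw [abs_div, abs_of_pos hZ, div_lt_iff₀ hZ] at h
  have hε : 0 < ε := by
    have : 0 < c₀ * ε / 2 * Zp := lt_of_le_of_lt (abs_nonneg _) h
    by_contra hn
    push Not at hn
    nlinarith [mul_pos hc hZ]
  have h2 : |E * (V1 - α * V0)| < ε * E := by
    have e : E * (V1 - α * V0) = -(I1 - E * V1) + α * (I0 - E * V0) + (I1 - α * I0) := by ring
    rw [e]
    refine (abs_add_le _ _).trans_lt ?_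
    refine (add_lt_add_of_le_of_lt (abs_add_le _ _) h).trans_le ?_
    rw [abs_neg, abs_mul]
    have h3 : |α| * |I0 - E * V0| ≤ |α| * (ε / (2 * (1 + |α|)) * E) := by gcongr
    have h4 : c₀ * ε / 2 * Zp ≤ ε / 2 * E := by nlinarith
    have h5 : ε / (2 * (1 + |α|)) * E + |α| * (ε / (2 * (1 + |α|)) * E) = ε / 2 * E := by
      field_simp
    linarith
  rw [abs_mul, abs_of_pos hEp, mul_comm ε E] at h2
  exact lt_of_mul_lt_mul_left h2 hEp.le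

/-- **Six legs for the cut polygon.** -/
theorem legs_core [NeZero l] {zt zf : ℕ → ℝ} (hH : HOS zt zf)
    (hzt : ∀ᶠ n in atTop, 0 < zt n) (hzf : ∀ᶠ n in atTop, 0 < zf n)
    {om : Ins → ℂ} (hom : IsOm (√3) om) (hS : (sysOm om).Ok)
    (hp : IsPolygon p) (hSE : Encloses p S₀) (hb : b.Ok S₀) (h0 : 0 < tp) (h1 : tp < 1)
    (ht : ∀ i : ℤ, ∀ y ∈ ({b.xl, b.xr, b.yb, b.yt} : Set ℝ), y ≠ i + tp ∧ y ≠ i - tp)
    (f : Fld b S₀ φ₁ φ₂) (f' : Fld b S₀ φ₁' φ₂')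
    (hpp : ∀ r, r ≠ 4 → ∀ n, flr b φ₁' φ₂' r n = flr b φ₁ φ₂ r n)
    (Y : ℕ → LIns)
    (hY : ∀ n, Lin3 α (Y n)
      (insW (⟨Fin.elim0, flr b φ₁' φ₂' 4 n⟩ : WC (Fin 0)) (f'.fin 4 n))
      (insW (⟨Fin.elim0, flr b φ₁ φ₂ 4 n⟩ : WC (Fin 0)) (f.fin 4 n)))
    (hC : ∀ (m : ℕ → ℤ) (y' : ℝ), y' < b.yb → Tendsto (fun n => (m n : ℝ) / n) atTop (𝓝 y') →
      Tendsto (fun n => os (sysOm om) (fun m A => LIns.sh (m • gY.s) (thY A)) (m n) (Y n))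
        atTop (𝓝 0)) :
    ∃ δ₀ : ℝ, 0 < δ₀ ∧ ∀ δ : ℝ, 0 < δ → δ < δ₀ →
      Tendsto (fun n : ℕ => (∫ ω, (PW p (mks p b tp) n ⌊δ * n⌋₊ (fl φ₁' φ₂' (1 / n))).X ω ∂μ -
        α * ∫ ω, (PW p (mks p b tp) n ⌊δ * n⌋₊ (fl φ₁ φ₂ (1 / n))).X ω ∂μ) /
          (zt n ^ (l * 3) * zf n)) atTop (𝓝 0) := by
  classical
  have hgen : Gen b := ⟨hb.gx, hb.gy⟩
  have hQ : (mks p b tp).Ok := mks_ok p hgen h0 h1 ht
  have hE : IsEmpty (GI p b tp 4) := isEmpty_GI hgen hp hSE hb.sub tp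
  obtain ⟨δ₀, hδ₀, H⟩ := grp_all hp hSE hb h0 h1 ht
  refine ⟨δ₀, hδ₀, fun δ hδ hδ' => ?_⟩
  obtain ⟨κa, hκa, Ba, hBa, Ra, hRa, hf⟩ := f.ev
  obtain ⟨κb, hκb, Bb, hBb, Rb, hRb, hf'⟩ := f'.ev
  obtain ⟨κg, hκg, Rg, Hg⟩ := H δ hδ hδ' (min κa κb) (by positivity)
  have Hg' := Hg (max Ba Bb)
  -- constants
  set κm : ℝ := min κg (min κa κb) with hκm
  have hκm0 : 0 < κm := by positivity
  set η : ℝ := min (κm / 8) 1 with hη
  have hη0 : 0 < η := by positivity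
  have hη1 : η ≤ 1 := min_le_right _ _
  have h8 : 8 * η ≤ κm := by
    have := min_le_left (κm / 8) 1
    linarith
  obtain ⟨ρ0, hρ0⟩ := edT_of_mg b (κ := κm) (η := η) (max Rg (max Ra Rb)) hη0 h8
  obtain ⟨ρ1, hρ1⟩ := box_bd hη0 hη1 b.xl
  obtain ⟨ρ2, hρ2⟩ := box_bd hη0 hη1 b.xr
  obtain ⟨ρ3, hρ3⟩ := box_bd hη0 hη1 b.yb
  obtain ⟨ρ4, hρ4⟩ := box_bd hη0 hη1 b.yt
  set ρ : ℕ := ρ0 + ρ1 + ρ2 + ρ3 + ρ4 with hρ
  have K0 := hρ0 ρ (by omega)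
  have K1 := hρ1 ρ (by omega)
  have K2 := hρ2 ρ (by omega)
  have K3 := hρ3 ρ (by omega)
  have K4 := hρ4 ρ (by omega)
  -- change of the index type of the centre
  have hY' : ∀ n, Lin3 α (Y n)
      (insW (grp p b tp n ⌊δ * n⌋₊ 4 (flr b φ₁' φ₂' 4 n)) (f'.fin 4 n))
      (insW (grp p b tp n ⌊δ * n⌋₊ 4 (flr b φ₁ φ₂ 4 n)) (f.fin 4 n)) := by
    intro n
    have e1 : insW (grp p b tp n ⌊δ * n⌋₊ 4 (flr b φ₁' φ₂' 4 n)) (f'.fin 4 n) =
        insW (⟨Fin.elim0, flr b φ₁' φ₂' 4 n⟩ : WC (Fin 0)) (f'.fin 4 n) := insW_empty _ _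
    have e0 : insW (grp p b tp n ⌊δ * n⌋₊ 4 (flr b φ₁ φ₂ 4 n)) (f.fin 4 n) =
        insW (⟨Fin.elim0, flr b φ₁ φ₂ 4 n⟩ : WC (Fin 0)) (f.fin 4 n) := insW_empty _ _
    rw [e1, e0]
    exact hY n
  set Γ := mkGrp p tp δ f f' hE Y hY' with hΓ
  have hg4 : ∀ n, Γ.g 4 n = Y n := fun n => mkGrp_g4 (n := n) f f' hE Y hY'
  -- supports
  have hsup : ∀ᶠ n : ℕ in atTop,
      (∀ r, ∀ e ∈ (grp p b tp n ⌊δ * n⌋₊ r (flr b φ₁ φ₂ r n)).S, e ∈ EdT (KB b ρ η r n)) ∧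
      (∀ r, ∀ e, flr b φ₁ φ₂ r n e ≠ 0 → e ∈ EdT (KB b ρ η r n)) ∧
      (∀ e ∈ (grp p b tp n ⌊δ * n⌋₊ 4 (flr b φ₁' φ₂' 4 n)).S, e ∈ EdT (KB b ρ η 4 n)) ∧
      (∀ e, flr b φ₁' φ₂' 4 n e ≠ 0 → e ∈ EdT (KB b ρ η 4 n)) := by
    filter_upwards [K0, hf, hf', Hg'] with n k0 g1 g2 g3
    have r1 : Rg * n ≤ max Rg (max Ra Rb) * n := by gcongr; exact le_max_left _ _
    have r2 : Ra * n ≤ max Rg (max Ra Rb) * n := by
      gcongr; exact (le_max_left _ _).trans (le_max_right _ _)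
    have r3 : Rb * n ≤ max Rg (max Ra Rb) * n := by
      gcongr; exact (le_max_right _ _).trans (le_max_right _ _)
    have m1 : κm ≤ κg := min_le_left _ _
    have m2 : κm ≤ κa := (min_le_right _ _).trans (min_le_left _ _)
    have m3 : κm ≤ κb := (min_le_right _ _).trans (min_le_right _ _)
    refine ⟨fun r e he => ?_, fun r e he => ?_, fun e he => ?_, fun e he => ?_⟩
    · obtain ⟨a1, a2⟩ := g3.2.1 r _ e he
      exact k0 r e (mg_mono a1 m1) (a2.trans r1)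
    · obtain ⟨a1, a2⟩ := (g1.2 r).2 e he
      exact k0 r e (mg_mono a1 m2) (a2.trans r2)
    · obtain ⟨a1, a2⟩ := g3.2.1 4 _ e he
      exact k0 4 e (mg_mono a1 m1) (a2.trans r1)
    · obtain ⟨a1, a2⟩ := (g2.2 4).2 e he
      exact k0 4 e (mg_mono a1 m3) (a2.trans r3)
  have hNb := bN_bd hη0 hη1
  set κG : ℝ := min κm (η / 2) with hκG
  have hκG0 : 0 < κG := by positivity
  have hΓok : Γ.Ok (KB b ρ η) (bN η) κG Rg (max Ba Bb) := by
    refine ⟨hκG0, ?_, ?_, ?_, ?_, ?_, ?_, ?_⟩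
    · filter_upwards [hNb] with n hn
      refine ⟨?_, hn.2.1⟩
      have : κG * n ≤ η / 2 * n := by gcongr; exact min_le_right _ _
      linarith [hn.1]
    · filter_upwards [hf, Hg'] with n g1 g3 r
      have a1 := g3.1 r (flr b φ₁ φ₂ r n) (((g1.2 r).1).mono (min_le_left _ _) (le_max_left _ _))
      refine H199.Adm.mono a1 ?_ le_rfl le_rfl
      have : κG ≤ κg := (min_le_left _ _).trans (min_le_left _ _)
      gcongr
    · filter_upwards [hf', Hg'] with n g1 g3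
      have a1 := g3.1 4 (flr b φ₁' φ₂' 4 n) (((g1.2 4).1).mono (min_le_right _ _)
        (le_max_right _ _))
      refine H199.Adm.mono a1 ?_ le_rfl le_rfl
      have : κG ≤ κg := (min_le_left _ _).trans (min_le_left _ _)
      gcongr
    · filter_upwards [hsup] with n hn r
      exact pts_sub_of (hn.1 r) (hn.2.1 r)
    · filter_upwards [hsup] with n hn
      exact pts_sub_of hn.2.2.1 hn.2.2.2
    · filter_upwards [hsup] with n hn r
      exact insW_LI _ (hn.1 r) (hn.2.1 r)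
    · filter_upwards [hsup] with n hn
      exact insW_LI _ hn.2.2.1 hn.2.2.2
  have hs3 : (1 : ℝ) ≤ √3 := one_le_sqrt3'
  have hs0 : (0 : ℝ) ≤ √3 := zero_le_one.trans hs3
  have key := six_legs_ev (S := sysOm om) (N := bN η) (g := Γ.g) (Z := Γ.Z zt zf) (ρ := ρ)
    (xl := fun n => ⌊b.xl * n⌋) (xr := fun n => ⌊b.xr * n⌋) (yb := fun n => ⌊b.yb * n⌋)
    (yt := fun n => ⌊b.yt * n⌋) hS ?_ ?_ ?_ ?_ ?_ ?_
    (IsOm.refl_X hom hs0) (IsOm.refl_Y hom hs0) (IsOm.refl_D hom hs3) (IsOm.refl_A hom hs3)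
    (hΓok.osb' hH hom H199.rwX hS (IsOm.refl_X hom hs0) gX_ok thLin_X)
    (hΓok.osb' hH hom H199.rwY hS (IsOm.refl_Y hom hs0) gY_ok thLin_Y)
    (hΓok.osb' hH hom H199.rwD hS (IsOm.refl_D hom hs3) gD_ok thLin_D)
    (hΓok.osb' hH hom H199.rwA hS (IsOm.refl_A hom hs3) gA_ok thLin_A) ?_
  · -- the product of the insertions
    have hval : ∀ᶠ n : ℕ in atTop, (sysOm om).w (∏ i, Γ.g i n) /
        ((∏ i, Γ.Z zt zf i n : ℝ) : ℂ) =
        ((((∫ ω, (PW p (mks p b tp) n ⌊δ * n⌋₊ (fl φ₁' φ₂' (1 / n))).X ω ∂μ -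
        α * ∫ ω, (PW p (mks p b tp) n ⌊δ * n⌋₊ (fl φ₁ φ₂ (1 / n))).X ω ∂μ) /
          (zt n ^ (l * 3) * zf n) : ℝ)) : ℂ) := by
      filter_upwards [Hg'] with n g3
      have hZ : ∏ i, Γ.Z zt zf i n = zt n ^ (l * 3) * zf n := by
        show ∏ i, zt n ^ Fintype.card (GI p b tp i) *
          zf n ^ (grp p b tp n ⌊δ * n⌋₊ i (flr b φ₁ φ₂ i n)).jumps = _
        rw [Finset.prod_mul_distrib, Finset.prod_pow_eq_pow_sum, Finset.prod_pow_eq_pow_sum,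
          card_GI, sum_jumps p b tp n ⌊δ * n⌋₊ (fun r => flr b φ₁ φ₂ r n) 0, jumps_PW hQ, pow_one]
      set P : LIns := ∏ r ∈ (univ : Finset (Fin 5)).erase 4,
        insW (grp p b tp n ⌊δ * n⌋₊ r (flr b φ₁ φ₂ r n)) (f.fin r n) with hP
      have eY : ∏ i, Γ.g i n = P * Y n := by
        rw [← Finset.prod_erase_mul univ _ (mem_univ (4 : Fin 5)), hg4,
          Finset.prod_congr rfl fun r hr => Γ.hg r (Finset.ne_of_mem_erase hr) n]
        rfl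
      have fc : ∀ {χ₁ χ₂ : ℝ × ℝ → ℝ} (g : Fld b S₀ χ₁ χ₂),
          Fc (PW p (mks p b tp) n ⌊δ * n⌋₊ (fun e => ∑ r, flr b χ₁ χ₂ r n e)) := by
        intro χ₁ χ₂ g
        show (Function.support (fun e => ∑ r, flr b χ₁ χ₂ r n e)).Finite
        rw [g.sum n]
        exact fin_fl g.c1 g.c2 n
      have e0 : P * insW (grp p b tp n ⌊δ * n⌋₊ 4 (flr b φ₁ φ₂ 4 n)) (f.fin 4 n) =
          insW (PW p (mks p b tp) n ⌊δ * n⌋₊ (fun e => ∑ r, flr b φ₁ φ₂ r n e)) (fc f) := by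
        rw [sig_grp p b tp n ⌊δ * n⌋₊ (fun r => flr b φ₁ φ₂ r n) (fun r => f.fin r n)
          (fun r r' hr => g3.2.2 r r' _ _ hr) (fc f)]
        exact Finset.prod_erase_mul univ _ (mem_univ (4 : Fin 5))
      have e1 : P * insW (grp p b tp n ⌊δ * n⌋₊ 4 (flr b φ₁' φ₂' 4 n)) (f'.fin 4 n) =
          insW (PW p (mks p b tp) n ⌊δ * n⌋₊ (fun e => ∑ r, flr b φ₁' φ₂' r n e)) (fc f') := by
        rw [sig_grp p b tp n ⌊δ * n⌋₊ (fun r => flr b φ₁' φ₂' r n) (fun r => f'.fin r n)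
          (fun r r' hr => g3.2.2 r r' _ _ hr) (fc f')]
        rw [← Finset.prod_erase_mul univ _ (mem_univ (4 : Fin 5))]
        congr 1
        refine Finset.prod_congr rfl fun r hr => ?_
        have : flr b φ₁' φ₂' r n = flr b φ₁ φ₂ r n := hpp r (Finset.ne_of_mem_erase hr) n
        exact H199.insW_congr (by rw [this]) _ _
      have e2 : (sysOm om).w (∏ i, Γ.g i n) =
          ((∫ ω, (PW p (mks p b tp) n ⌊δ * n⌋₊ (fl φ₁' φ₂' (1 / n))).X ω ∂μ -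
        α * ∫ ω, (PW p (mks p b tp) n ⌊δ * n⌋₊ (fl φ₁ φ₂ (1 / n))).X ω ∂μ : ℝ) : ℂ) := by
        rw [eY]
        show om (P * Y n).1 = _
        rw [om_lin3 hom (hY' n) P, e0, e1, om_insW hom, om_insW hom, f.sum n, f'.sum n]
        push_cast
        ring
      rw [e2, hZ, ← Complex.ofReal_div]
    have k2 := (Complex.continuous_re.tendsto _).comp (key.congr' hval)
    rw [Complex.zero_re] at k2
    exact k2
  · exact Eventually.of_forall fun n => le_max_left _ _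
  · filter_upwards [K1, K2, K3, K4] with n k1 k2 k3 k4
    exact ⟨k1, k2, k3, k4⟩
  · exact Eventually.of_forall fun n => Int.floor_le_floor
      (mul_le_mul_of_nonneg_right hb.lr.le (Nat.cast_nonneg n))
  · exact Eventually.of_forall fun n => Int.floor_le_floor
      (mul_le_mul_of_nonneg_right hb.bt.le (Nat.cast_nonneg n))
  · filter_upwards [hsup] with n hn i
    rcases eq_or_ne i 4 with rfl | hi
    · rw [hg4]
      exact li_of_lin3 (hY' n) (insW_LI _ hn.2.2.1 hn.2.2.2) (insW_LI _ (hn.1 4) (hn.2.1 4))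
    · rw [Γ.hg i hi n]
      exact insW_LI _ (hn.1 i) (hn.2.1 i)
  · filter_upwards [hzt, hzf] with n a1 a2 i
    exact mul_pos (pow_pos a1 _) (pow_pos a2 _)
  · have hm : Tendsto (fun n : ℕ => ((⌊b.yb * n⌋ - 2 * bN η n : ℤ) : ℝ) / n) atTop
        (𝓝 (b.yb - 2 * η)) := by
      refine ((tendsto_floor b.yb).sub ((tendsto_bN hη0 hη1).const_mul 2)).congr fun n => ?_
      push_cast
      ring
    refine (hC _ (b.yb - 2 * η) (by linarith) hm).congr fun n => ?_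
    have e2 : Γ.Z zt zf 4 n = 1 := by
      show zt n ^ Fintype.card (GI p b tp 4) *
          zf n ^ (grp p b tp n ⌊δ * n⌋₊ 4 (flr b φ₁ φ₂ 4 n)).jumps = 1
      rw [jumps_empty, Fintype.card_eq_zero, pow_zero, pow_zero, one_mul]
    rw [hg4, e2, one_pow, div_one]

end core

end Vale.Agent.P167.H825
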