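import Vale.Agent.P167.H825.Defs2A

/-!
# P167, block START: the statement, with real `δ`

In `H825.START` (Defs2A) the elaborator gives the holes parameter `δ` the type `ℕ`; the statement to
be proved and used is `STARTR`.
-/

namespace Vale.Agent.P167.H825

open Finset Filter Topology MeasureTheory
open Vale.Agent.P167.BR (VD)
open Vale.Agent.P167.E6 (IsPolygon Encloses)

/-- **Block START** (NO5): the polygon with small holes. -/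
def STARTR (zt zf : ℕ → ℝ) : Prop :=
  ∀ (l : ℕ) [NeZero l] (p : ZMod l → ℤ × ℤ) (S₀ : Finset (ℤ × ℤ)), IsPolygon p → Encloses p S₀ →
  ∀ Q : Marks, Q.Ok → ∀ (κ B : ℝ), 0 < κ → ∀ ε : ℝ, 0 < ε → ∃ δ₀ : ℝ, 0 < δ₀ ∧
  ∀ δ : ℝ, 0 < δ → δ < δ₀ → ∃ c₀ : ℝ, 0 < c₀ ∧
  ∀ᶠ n : ℕ in atTop,
    c₀ * (zt n ^ (l * (Q.m + 1)) * zf n) ≤ ∫ ω, (PW p Q n ⌊δ * (n : ℝ)⌋₊ 0).X ω ∂μ ∧
    ∀ c : Ed → ℝ, FlowIn (enl S₀ n) κ B n c →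
      |∫ ω, (PW p Q n ⌊δ * (n : ℝ)⌋₊ c).X ω ∂μ -
        (∫ ω, (PW p Q n ⌊δ * (n : ℝ)⌋₊ 0).X ω ∂μ) * VD (enl S₀ n) (bsite p Q n) (dv c)| ≤
        ε * ∫ ω, (PW p Q n ⌊δ * (n : ℝ)⌋₊ 0).X ω ∂μ

end Vale.Agent.P167.H825
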