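import Vale.Agent.P167.H825.Fin1
import Vale.Agent.P167.H592.K1
import Vale.Agent.P167.H825.StartR

/-!
# P167, block 2A: the output `S2aQ` from `HOS`, `STARTR` and the centre
-/

namespace Vale.Agent.P167.H825

open Finset Filter Topology MeasureTheory
open Vale.Agent.P167.H592
open Vale.Agent.P167.H199 (Fc insW insW_LI pts GI grp mks KB bN edT_of_mg isEmpty_GI card_GI
  sig_grp sum_jumps jumps_PW grp_all mks_ok Gen nm_le nm_fst nm_snd insW_empty om_insW)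
open Vale.Agent.P167.H680 (prt Mg Rg)
open Vale.Agent.P167.H327 (fl)
open Vale.Agent.P167.E6 (IsPolygon Encloses dir)
open Vale.Agent.P167.BR (VD)

variable {b : Box} {S₀ : Finset (ℤ × ℤ)} {φ₁ φ₂ ψ : ℝ × ℝ → ℝ} {s : ℝ}

/-- `φ + s ∂ψ`. -/
noncomputable def ad (φ ψ : ℝ × ℝ → ℝ) (s : ℝ) (v : ℝ × ℝ) (x : ℝ × ℝ) : ℝ :=
  φ x + s * fderiv ℝ ψ x v

theorem fderiv_zero_of {x : ℝ × ℝ} (h : x ∉ tsupport ψ) (v : ℝ × ℝ) : fderiv ℝ ψ x v = 0 := by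
  have e1 : fderiv ℝ ψ x = 0 :=
    image_eq_zero_of_notMem_tsupport fun h' => h (tsupport_fderiv_subset ℝ h')
  rw [e1]
  rfl

theorem tsupport_ad {φ : ℝ × ℝ → ℝ} (v : ℝ × ℝ) :
    tsupport (ad φ ψ s v) ⊆ tsupport φ ∪ tsupport ψ := by
  refine closure_minimal (fun x hx => ?_) ((isClosed_tsupport _).union (isClosed_tsupport _))
  by_contra hc
  rw [Set.mem_union, not_or] at hc
  apply hx
  show φ x + s * fderiv ℝ ψ x v = 0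
  rw [fderiv_zero_of hc.2, image_eq_zero_of_notMem_tsupport hc.1, mul_zero, add_zero]

theorem smooth_fd (hψ : ContDiff ℝ ((⊤ : ℕ∞) : WithTop ℕ∞) ψ) (v : ℝ × ℝ) :
    ContDiff ℝ ((⊤ : ℕ∞) : WithTop ℕ∞) fun x => fderiv ℝ ψ x v :=
  (hψ.fderiv_right (m := ((⊤ : ℕ∞) : WithTop ℕ∞)) (by simp)).clm_apply contDiff_const

theorem smooth_ad {φ : ℝ × ℝ → ℝ} (hφ : ContDiff ℝ ((⊤ : ℕ∞) : WithTop ℕ∞) φ)
    (hψ : ContDiff ℝ ((⊤ : ℕ∞) : WithTop ℕ∞) ψ) (v : ℝ × ℝ) :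
    ContDiff ℝ ((⊤ : ℕ∞) : WithTop ℕ∞) (ad φ ψ s v) :=
  hφ.add (contDiff_const.mul (smooth_fd hψ v))

theorem fld_ad (f : Fld b S₀ φ₁ φ₂) (hψ : ContDiff ℝ ((⊤ : ℕ∞) : WithTop ℕ∞) ψ)
    (cψ : HasCompactSupport ψ)
    (hsub : tsupport ψ ⊆ {x | b.xl < x.1 ∧ x.1 < b.xr ∧ b.yb < x.2 ∧ x.2 < b.yt})
    (hb : b.Ok S₀) : Fld b S₀ (ad φ₁ ψ s (1, 0)) (ad φ₂ ψ s (0, 1)) := by
  have hdom : tsupport ψ ⊆ domP S₀ := fun x hx => by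
    obtain ⟨h1, h2, h3, h4⟩ := hsub hx
    exact hb.sub x h1.le h2.le h3.le h4.le
  have hlin : Disjoint (tsupport ψ) b.lines := by
    rw [Set.disjoint_left]
    intro x hx hl
    exact H680.Rg_lines hb.lr hb.bt (i := 4) (hsub hx) hl
  have hcs : ∀ (φ : ℝ × ℝ → ℝ) (v : ℝ × ℝ), HasCompactSupport φ →
      HasCompactSupport (ad φ ψ s v) := fun φ v hφ =>
    (hφ.isCompact.union cψ.isCompact).of_isClosed_subset (isClosed_tsupport _) (tsupport_ad v)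
  exact
    { lr := f.lr
      bt := f.bt
      h1 := smooth_ad f.h1 hψ _
      h2 := smooth_ad f.h2 hψ _
      c1 := hcs _ _ f.c1
      c2 := hcs _ _ f.c2
      t1 := (tsupport_ad _).trans (Set.union_subset f.t1 hdom)
      t2 := (tsupport_ad _).trans (Set.union_subset f.t2 hdom)
      d1 := Set.disjoint_of_subset_left (tsupport_ad _) (Set.disjoint_union_left.2 ⟨f.d1, hlin⟩)
      d2 := Set.disjoint_of_subset_left (tsupport_ad _) (Set.disjoint_union_left.2 ⟨f.d2, hlin⟩) }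

theorem prt_ad_ne (hlr : b.xl < b.xr) (hbt : b.yb < b.yt)
    (hsub : tsupport ψ ⊆ {x | b.xl < x.1 ∧ x.1 < b.xr ∧ b.yb < x.2 ∧ x.2 < b.yt})
    {r : Fin 5} (hr : r ≠ 4) (φ : ℝ × ℝ → ℝ) (v : ℝ × ℝ) :
    prt b r (ad φ ψ s v) = prt b r φ := by
  funext x
  by_cases hx : x ∈ Rg b r
  · rw [H680.prt_of_mem hx, H680.prt_of_mem hx]
    have h1 : x ∉ tsupport ψ := fun h => H680.Rg_disj hlr hbt hr hx (hsub h)
    show φ x + s * fderiv ℝ ψ x v = φ x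
    rw [fderiv_zero_of h1, mul_zero, add_zero]
  · rw [H680.prt_of_notMem hx, H680.prt_of_notMem hx]

theorem prt_ad_4
    (hsub : tsupport ψ ⊆ {x | b.xl < x.1 ∧ x.1 < b.xr ∧ b.yb < x.2 ∧ x.2 < b.yt})
    (φ : ℝ × ℝ → ℝ) (v : ℝ × ℝ) :
    prt b 4 (ad φ ψ s v) = fun x => prt b 4 φ x + s * fderiv ℝ ψ x v := by
  funext x
  by_cases hx : x ∈ Rg b 4
  · rw [H680.prt_of_mem hx, H680.prt_of_mem hx]
    rfl
  · rw [H680.prt_of_notMem hx, H680.prt_of_notMem hx]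
    have h1 : x ∉ tsupport ψ := fun h => hx (hsub h)
    rw [fderiv_zero_of h1, mul_zero, add_zero]

/-- The flow of `s Δψ`. -/
noncomputable def fps (ψ : ℝ × ℝ → ℝ) (s : ℝ) (n : ℕ) : Ed → ℝ := fun e =>
  s * fl (fun x => fderiv ℝ ψ x (1, 0)) (fun x => fderiv ℝ ψ x (0, 1)) (1 / n) e

theorem flr_ad_4 (f : Fld b S₀ φ₁ φ₂) (hψ : ContDiff ℝ ((⊤ : ℕ∞) : WithTop ℕ∞) ψ)
    (hsub : tsupport ψ ⊆ {x | b.xl < x.1 ∧ x.1 < b.xr ∧ b.yb < x.2 ∧ x.2 < b.yt}) (n : ℕ) :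
    flr b (ad φ₁ ψ s (1, 0)) (ad φ₂ ψ s (0, 1)) 4 n =
      fun e => flr b φ₁ φ₂ 4 n e + fps ψ s n e := by
  funext e
  unfold flr fps
  rw [prt_ad_4 hsub, prt_ad_4 hsub,
    H327.fl_add (φ₁' := fun x => s * fderiv ℝ ψ x (1, 0)) (φ₂' := fun x => s * fderiv ℝ ψ x (0, 1))
      (f.prt_fld 4).h1.continuous (f.prt_fld 4).h2.continuous
      (continuous_const.mul (smooth_fd hψ _).continuous)
      (continuous_const.mul (smooth_fd hψ _).continuous),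
    H327.fl_smul (φ₁ := fun x => fderiv ℝ ψ x (1, 0)) (φ₂ := fun x => fderiv ℝ ψ x (0, 1))]

theorem fin_fps (cψ : HasCompactSupport ψ) (s : ℝ) (n : ℕ) :
    (Function.support (fps ψ s n)).Finite := by
  refine (fin_fl (cψ.fderiv_apply ℝ (1, 0)) (cψ.fderiv_apply ℝ (0, 1)) n).subset fun e he => ?_
  intro h0
  apply he
  show s * fl (fun x => fderiv ℝ ψ x (1, 0)) (fun x => fderiv ℝ ψ x (0, 1)) (1 / n) e = 0
  rw [h0, mul_zero]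

theorem dvg_ad (f : Fld b S₀ φ₁ φ₂) (hψ : ContDiff ℝ ((⊤ : ℕ∞) : WithTop ℕ∞) ψ) :
    dvg (ad φ₁ ψ s (1, 0)) (ad φ₂ ψ s (0, 1)) = fun x => dvg φ₁ φ₂ x + s * lapl ψ x := by
  funext x
  have key : ∀ (φ : ℝ × ℝ → ℝ) (v : ℝ × ℝ), ContDiff ℝ ((⊤ : ℕ∞) : WithTop ℕ∞) φ →
      fderiv ℝ (ad φ ψ s v) x = fderiv ℝ φ x + s • fderiv ℝ (fun x => fderiv ℝ ψ x v) x := by
    intro φ v hφ
    have h1 : DifferentiableAt ℝ φ x := hφ.differentiable (by simp) x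
    have h2 : DifferentiableAt ℝ (fun x => fderiv ℝ ψ x v) x :=
      (smooth_fd hψ v).differentiable (by simp) x
    have h3 : fderiv ℝ (fun x => φ x + s * fderiv ℝ ψ x v) x =
        fderiv ℝ φ x + fderiv ℝ (fun x => s * fderiv ℝ ψ x v) x :=
      fderiv_fun_add h1 (h2.const_mul s)
    have h4 : fderiv ℝ (fun x => s * fderiv ℝ ψ x v) x =
        s • fderiv ℝ (fun x => fderiv ℝ ψ x v) x := fderiv_const_mul h2 s
    rw [h4] at h3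
    exact h3
  unfold lapl dvg
  rw [key φ₁ _ f.h1, key φ₂ _ f.h2]
  simp only [_root_.add_apply, _root_.smul_apply, smul_eq_mul]
  ring

/-- **The centre**: the insertion `exp (i c) (exp (i s ∇ψ) - α)` in the box has a reflection norm
which tends to zero, for the rows below the box. -/
def CentreQ (om : Ins → ℂ) : Prop :=
  ∀ (b : Box) (S₀ : Finset (ℤ × ℤ)) (φ₁ φ₂ ψ : ℝ × ℝ → ℝ) (f : Fld b S₀ φ₁ φ₂)
    (_ : ContDiff ℝ ((⊤ : ℕ∞) : WithTop ℕ∞) ψ) (cψ : HasCompactSupport ψ)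
    (_ : tsupport ψ ⊆ {x | b.xl < x.1 ∧ x.1 < b.xr ∧ b.yb < x.2 ∧ x.2 < b.yt}) (s : ℝ),
  ∃ Y : ℕ → LIns, (∀ n, Lin3 (alp (dvg φ₁ φ₂) ψ s) (Y n)
      (insW (⟨Fin.elim0, fun e => flr b φ₁ φ₂ 4 n e + fps ψ s n e⟩ : WC (Fin 0))
        (((f.fin 4 n).union (fin_fps cψ s n)).subset
          (Function.support_add (flr b φ₁ φ₂ 4 n) (fps ψ s n))))
      (insW (⟨Fin.elim0, flr b φ₁ φ₂ 4 n⟩ : WC (Fin 0)) (f.fin 4 n))) ∧
    ∀ (m : ℕ → ℤ) (y' : ℝ), y' < b.yb → Tendsto (fun n => (m n : ℝ) / n) atTop (𝓝 y') →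
      Tendsto (fun n => os (sysOm om) (fun m A => LIns.sh (m • gY.s) (thY A)) (m n) (Y n))
        atTop (𝓝 0)

/-- **The output of block 2A.** -/
theorem s2aQ_of {zt zf : ℕ → ℝ} (hH : HOS zt zf) (hSt : STARTR zt zf)
    (hzt : ∀ᶠ n in atTop, 0 < zt n) (hzf : ∀ᶠ n in atTop, 0 < zf n)
    {om : Ins → ℂ} (hom : IsOm (√3) om) (hC : CentreQ om) : S2aQ := by
  intro l _ p S₀ hp hSE tp h0 h1 b hb ht φ₁ φ₂ ψ s1 s2 sψ c1 c2 cψ t1 t2 hsub d1 d2 s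
  have f : Fld b S₀ φ₁ φ₂ := ⟨hb.lr, hb.bt, s1, s2, c1, c2, t1, t2, d1, d2⟩
  have f' : Fld b S₀ (ad φ₁ ψ s (1, 0)) (ad φ₂ ψ s (0, 1)) := fld_ad f sψ cψ hsub hb
  obtain ⟨Y, hY, hYl⟩ := hC b S₀ φ₁ φ₂ ψ f sψ cψ hsub s
  set α : ℝ := alp (dvg φ₁ φ₂) ψ s with hα
  have hQ : (mks p b tp).Ok := mks_ok p ⟨hb.gx, hb.gy⟩ h0 h1 ht
  have hY' : ∀ n, Lin3 α (Y n)
      (insW (⟨Fin.elim0, flr b (ad φ₁ ψ s (1, 0)) (ad φ₂ ψ s (0, 1)) 4 n⟩ : WC (Fin 0))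
        (f'.fin 4 n))
      (insW (⟨Fin.elim0, flr b φ₁ φ₂ 4 n⟩ : WC (Fin 0)) (f.fin 4 n)) := by
    intro n
    have e : insW (⟨Fin.elim0, flr b (ad φ₁ ψ s (1, 0)) (ad φ₂ ψ s (0, 1)) 4 n⟩ : WC (Fin 0))
        (f'.fin 4 n) =
      insW (⟨Fin.elim0, fun e => flr b φ₁ φ₂ 4 n e + fps ψ s n e⟩ : WC (Fin 0))
        (((f.fin 4 n).union (fin_fps cψ s n)).subset
          (Function.support_add (flr b φ₁ φ₂ 4 n) (fps ψ s n))) :=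
      H199.insW_congr (by rw [flr_ad_4 f sψ hsub]) _ _
    rw [e]
    exact hY n
  obtain ⟨δ₀, hδ₀, hleg⟩ := legs_core hH hzt hzf hom hom.ok hp hSE hb h0 h1 ht f f'
    (fun r hr n => by
      unfold flr
      rw [prt_ad_ne hb.lr hb.bt hsub hr, prt_ad_ne hb.lr hb.bt hsub hr]) Y hY' hYl
  obtain ⟨κa, hκa, Ba, hBa, Ra, hRa, hf⟩ := f.ev
  obtain ⟨κb, hκb, Bb, hBb, Rb, hRb, hf'⟩ := f'.ev
  rw [Metric.tendsto_nhds]
  intro ε hε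
  have hα0 : 0 ≤ |α| := abs_nonneg α
  obtain ⟨δ₁, hδ₁, hS1⟩ := hSt l p S₀ hp hSE (mks p b tp) hQ (min κa κb) (max Ba Bb)
    (by positivity) (ε / (2 * (1 + |α|))) (by positivity)
  have hδ : 0 < min δ₀ δ₁ / 2 := by positivity
  have hδa : min δ₀ δ₁ / 2 < δ₀ := by
    have := min_le_left δ₀ δ₁
    linarith
  have hδb : min δ₀ δ₁ / 2 < δ₁ := by
    have := min_le_right δ₀ δ₁
    linarith
  obtain ⟨c₀, hc₀, hS2⟩ := hS1 (min δ₀ δ₁ / 2) hδ hδb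
  have hl := hleg (min δ₀ δ₁ / 2) hδ hδa
  rw [Metric.tendsto_nhds] at hl
  filter_upwards [hl (c₀ * ε / 2) (by positivity), hS2, hf, hf', hzt, hzf,
    eventually_gt_atTop 0] with n k1 k2 k3 k4 k5 k6 k7
  rw [Real.dist_eq, sub_zero] at k1 ⊢
  have g1 := k2.2 (fl (ad φ₁ ψ s (1, 0)) (ad φ₂ ψ s (0, 1)) (1 / n))
    (k4.1.mono (min_le_right _ _) (le_max_right _ _))
  have g0 := k2.2 (fl φ₁ φ₂ (1 / n)) (k3.1.mono (min_le_left _ _) (le_max_left _ _))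
  rw [f'.dv_eq k7, dvg_ad f sψ] at g1
  rw [f.dv_eq k7] at g0
  have hZ : 0 < zt n ^ (l * 3) * zf n := by positivity
  exact last_est hZ hc₀ k2.1 g1 g0 k1

end Vale.Agent.P167.H825
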