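import Vale.Agent.P167.H199.PwReg
import Vale.Agent.P167.H680.Split
import Vale.Agent.P167.H825.Osb

/-!
# P167, block 2A: the flows of the five regions and the groups of walls
-/

namespace Vale.Agent.P167.H825

open Finset Filter Topology MeasureTheory
open Vale.Agent.P167.H592
open Vale.Agent.P167.H199 (Fc insW insW_LI pts GI grp mks KB bN edT_of_mg isEmpty_GI card_GI
  sig_grp sum_jumps jumps_PW grp_all mks_ok Gen nm_le nm_fst nm_snd)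
open Vale.Agent.P167.H680 (prt Mg)
open Vale.Agent.P167.H327 (fl)
open Vale.Agent.P167.E6 (IsPolygon Encloses)

/-! ### finite families of constants -/

theorem exists_min5 (f : Fin 5 → ℝ) (h : ∀ r, 0 < f r) : ∃ a > 0, ∀ r, a ≤ f r :=
  ⟨Finset.univ.inf' ⟨0, mem_univ _⟩ f, (Finset.lt_inf'_iff _).2 fun r _ => h r,
    fun r => Finset.inf'_le _ (mem_univ r)⟩

theorem exists_max5 (f : Fin 5 → ℝ) : ∃ a > 0, ∀ r, f r ≤ a := by
  refine ⟨∑ r, |f r| + 1, by positivity, fun r => ?_⟩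
  have h1 : |f r| ≤ ∑ r, |f r| :=
    Finset.single_le_sum (f := fun r => |f r|) (fun _ _ => abs_nonneg _) (mem_univ r)
  linarith [le_abs_self (f r)]

theorem FlowIn.mono {D : Finset (ℤ × ℤ)} {κ κ' B B' : ℝ} {n : ℕ} {c : Ed → ℝ}
    (h : FlowIn D κ B n c) (hκ : κ' ≤ κ) (hB : B ≤ B') : FlowIn D κ' B' n c where
  sup e he v hv := h.sup e he v (hv.trans (by gcongr))
  cle e := (h.cle e).trans (by gcongr)
  dle z := (h.dle z).trans (by gcongr)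

theorem mg_mono {b : Box} {κ κ' : ℝ} {n : ℕ} {i : Fin 5} {v : ℤ × ℤ} (h : Mg b κ n i v)
    (hκ : κ' ≤ κ) : Mg b κ' n i v := by
  have hle : κ' * n ≤ κ * n := by gcongr
  fin_cases i
  · have h1 : (v.1 : ℝ) + κ * n ≤ b.xl * n := h
    show (v.1 : ℝ) + κ' * n ≤ b.xl * n
    linarith
  · have h1 : b.xl * n + κ * n ≤ v.1 ∧ b.yt * n + κ * n ≤ v.2 := h
    show b.xl * n + κ' * n ≤ v.1 ∧ b.yt * n + κ' * n ≤ v.2
    exact ⟨by linarith [h1.1], by linarith [h1.2]⟩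
  · have h1 : b.xr * n + κ * n ≤ v.1 ∧ (v.2 : ℝ) + κ * n ≤ b.yt * n := h
    show b.xr * n + κ' * n ≤ v.1 ∧ (v.2 : ℝ) + κ' * n ≤ b.yt * n
    exact ⟨by linarith [h1.1], by linarith [h1.2]⟩
  · have h1 : b.xl * n + κ * n ≤ v.1 ∧ (v.1 : ℝ) + κ * n ≤ b.xr * n ∧
      (v.2 : ℝ) + κ * n ≤ b.yb * n := h
    show b.xl * n + κ' * n ≤ v.1 ∧ (v.1 : ℝ) + κ' * n ≤ b.xr * n ∧ (v.2 : ℝ) + κ' * n ≤ b.yb * n
    exact ⟨by linarith [h1.1], by linarith [h1.2.1], by linarith [h1.2.2]⟩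
  · have h1 : b.xl * n + κ * n ≤ v.1 ∧ (v.1 : ℝ) + κ * n ≤ b.xr * n ∧
      b.yb * n + κ * n ≤ v.2 ∧ (v.2 : ℝ) + κ * n ≤ b.yt * n := h
    show b.xl * n + κ' * n ≤ v.1 ∧ (v.1 : ℝ) + κ' * n ≤ b.xr * n ∧
      b.yb * n + κ' * n ≤ v.2 ∧ (v.2 : ℝ) + κ' * n ≤ b.yt * n
    exact ⟨by linarith [h1.1], by linarith [h1.2.1], by linarith [h1.2.2.1],
      by linarith [h1.2.2.2]⟩

/-! ### fields -/

/-- A smooth flow with compact support in the domain, zero near the lines of the pinwheel. -/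
structure Fld (b : Box) (S₀ : Finset (ℤ × ℤ)) (φ₁ φ₂ : ℝ × ℝ → ℝ) : Prop where
  lr : b.xl < b.xr
  bt : b.yb < b.yt
  h1 : ContDiff ℝ ((⊤ : ℕ∞) : WithTop ℕ∞) φ₁
  h2 : ContDiff ℝ ((⊤ : ℕ∞) : WithTop ℕ∞) φ₂
  c1 : HasCompactSupport φ₁
  c2 : HasCompactSupport φ₂
  t1 : tsupport φ₁ ⊆ domP S₀
  t2 : tsupport φ₂ ⊆ domP S₀
  d1 : Disjoint (tsupport φ₁) b.lines
  d2 : Disjoint (tsupport φ₂) b.lines

/-- The lattice flow of the part in the region `r`. -/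
noncomputable def flr (b : Box) (φ₁ φ₂ : ℝ × ℝ → ℝ) (r : Fin 5) (n : ℕ) : Ed → ℝ :=
  fl (prt b r φ₁) (prt b r φ₂) (1 / n)

theorem fin_fl {φ₁ φ₂ : ℝ × ℝ → ℝ} (c1 : HasCompactSupport φ₁) (c2 : HasCompactSupport φ₂)
    (n : ℕ) : (Function.support (fl φ₁ φ₂ (1 / n))).Finite := by
  classical
  rcases Nat.eq_zero_or_pos n with rfl | hn
  · have : Function.support (fl φ₁ φ₂ (1 / (0 : ℕ))) = ∅ := by
      rw [Function.support_eq_empty_iff]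
      funext e
      rcases e with v | v <;> simp [fl]
    rw [this]
    exact Set.finite_empty
  · obtain ⟨R, hR, h⟩ := H327.exists_R c1 c2
    set M : ℤ := ⌈R * n⌉ with hM
    have hfin : (((Finset.Icc (-M) M ×ˢ Finset.Icc (-M) M).image Sum.inl ∪
      (Finset.Icc (-M) M ×ˢ Finset.Icc (-M) M).image Sum.inr : Finset Ed) : Set Ed).Finite :=
      Finset.finite_toSet _
    refine hfin.subset fun e he => ?_
    have h1 := h n hn e he
    have h2 : nm (epos e) ≤ M := by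
      have : (nm (epos e) : ℝ) ≤ M := h1.trans (Int.le_ceil _)
      exact_mod_cast this
    unfold nm at h2
    rw [max_le_iff, abs_le, abs_le] at h2
    rw [Finset.mem_coe, mem_union, mem_image, mem_image]
    rcases e with v | v
    · left
      refine ⟨v, ?_, rfl⟩
      rw [mem_product, Finset.mem_Icc, Finset.mem_Icc]
      exact h2
    · right
      refine ⟨v, ?_, rfl⟩
      rw [mem_product, Finset.mem_Icc, Finset.mem_Icc]
      exact h2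

namespace Fld

variable {b : Box} {S₀ : Finset (ℤ × ℤ)} {φ₁ φ₂ : ℝ × ℝ → ℝ}

theorem prt_fld (f : Fld b S₀ φ₁ φ₂) (r : Fin 5) : Fld b S₀ (prt b r φ₁) (prt b r φ₂) where
  lr := f.lr
  bt := f.bt
  h1 := H680.contDiff_prt f.lr f.bt f.d1 f.h1 r
  h2 := H680.contDiff_prt f.lr f.bt f.d2 f.h2 r
  c1 := H680.compact_prt f.lr f.bt f.d1 f.c1 r
  c2 := H680.compact_prt f.lr f.bt f.d2 f.c2 r
  t1 := ((H680.tsupport_prt f.lr f.bt f.d1 r).trans Set.inter_subset_left).trans f.t1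
  t2 := ((H680.tsupport_prt f.lr f.bt f.d2 r).trans Set.inter_subset_left).trans f.t2
  d1 := Set.disjoint_of_subset_left
    ((H680.tsupport_prt f.lr f.bt f.d1 r).trans Set.inter_subset_left) f.d1
  d2 := Set.disjoint_of_subset_left
    ((H680.tsupport_prt f.lr f.bt f.d2 r).trans Set.inter_subset_left) f.d2

theorem fin (f : Fld b S₀ φ₁ φ₂) (r : Fin 5) (n : ℕ) :
    (Function.support (flr b φ₁ φ₂ r n)).Finite := fin_fl (f.prt_fld r).c1 (f.prt_fld r).c2 n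

theorem sum (f : Fld b S₀ φ₁ φ₂) (n : ℕ) :
    (fun e => ∑ r, flr b φ₁ φ₂ r n e) = fl φ₁ φ₂ (1 / n) := by
  funext e
  exact (H680.sum_fl f.lr f.bt f.h1 f.h2 f.d1 f.d2 (1 / n) e).symm

theorem dv_eq (f : Fld b S₀ φ₁ φ₂) {n : ℕ} (hn : 0 < n) :
    dv (fl φ₁ φ₂ (1 / n)) = H638.cm (dvg φ₁ φ₂) (1 / n) := by
  funext z
  exact H327.dv_fl f.h1 f.h2 (by positivity) z

/-- All the estimates of the flows of the regions. -/
theorem ev (f : Fld b S₀ φ₁ φ₂) : ∃ κ > 0, ∃ B > 0, ∃ R > 0, ∀ᶠ n : ℕ in atTop,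
    FlowIn (enl S₀ n) κ B n (fl φ₁ φ₂ (1 / n)) ∧
    ∀ r, FlowIn (enl S₀ n) κ B n (flr b φ₁ φ₂ r n) ∧
      ∀ e, flr b φ₁ φ₂ r n e ≠ 0 → Mg b κ n r (epos e) ∧ (nm (epos e) : ℝ) ≤ R * n := by
  obtain ⟨κt, hκt, Bt, hBt, ht⟩ := H327.exists_flowIn f.h1 f.h2 f.c1 f.c2 f.t1 f.t2
  have hr : ∀ r, ∃ κ > 0, ∃ B > 0, ∀ᶠ n : ℕ in atTop,
      FlowIn (enl S₀ n) κ B n (flr b φ₁ φ₂ r n) := fun r =>
    H327.exists_flowIn (f.prt_fld r).h1 (f.prt_fld r).h2 (f.prt_fld r).c1 (f.prt_fld r).c2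
      (f.prt_fld r).t1 (f.prt_fld r).t2
  choose κr hκr Br hBr hr using hr
  have hm : ∀ r, ∃ κ > 0, ∀ᶠ n : ℕ in atTop, ∀ e, flr b φ₁ φ₂ r n e ≠ 0 →
      Mg b κ n r (epos e) := fun r => H680.fl_prt_mg f.lr f.bt f.c1 f.c2 f.d1 f.d2 r
  choose κm hκm hm using hm
  have hR : ∀ r, ∃ R > 0, ∀ n : ℕ, 0 < n → ∀ e, flr b φ₁ φ₂ r n e ≠ 0 →
      (nm (epos e) : ℝ) ≤ R * n := fun r => H327.exists_R (f.prt_fld r).c1 (f.prt_fld r).c2
  choose Rr hRr hR using hR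
  obtain ⟨κ1, hκ1, h1⟩ := exists_min5 κr hκr
  obtain ⟨κ2, hκ2, h2⟩ := exists_min5 κm hκm
  obtain ⟨B1, hB1, h3⟩ := exists_max5 Br
  obtain ⟨R1, hR1, h4⟩ := exists_max5 Rr
  refine ⟨min κt (min κ1 κ2), by positivity, max Bt B1, by positivity, R1, hR1, ?_⟩
  filter_upwards [ht, eventually_all.2 hr, eventually_all.2 hm, eventually_gt_atTop 0]
    with n g1 g2 g3 hn0
  refine ⟨g1.mono (min_le_left _ _) (le_max_left _ _), fun r => ⟨(g2 r).mono ?_ ?_, ?_⟩⟩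
  · exact (min_le_right _ _).trans ((min_le_left _ _).trans (h1 r))
  · exact (h3 r).trans (le_max_right _ _)
  · intro e he
    refine ⟨mg_mono (g3 r e he) ((min_le_right _ _).trans ((min_le_right _ _).trans (h2 r))), ?_⟩
    refine (hR r n hn0 e he).trans ?_
    have := h4 r
    gcongr

end Fld

end Vale.Agent.P167.H825
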