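import Vale.Agent.P167.H825.Haus

/-!
# Legs: continuation in the position of a group of observables, from reflection positivity

`leg_ineq`: for a positive semidefinite form with a symmetric positive bounded shift `T`,
`|⟨x, p(T) y⟩| ≤ sup_{[0,1]} |p| ‖x‖ ‖y‖` for all real polynomials `p`.

`extrap`: a sequence `H` with this property is small at `m ≥ b / r` if it is small at the finitely
many positions `m + (j + k) b`, uniformly in `b`.

`leg_limit`: the form used for families of observables at scale `N`.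
-/

open MeasureTheory Polynomial Filter Topology
open scoped NNReal unitInterval

namespace Vale.Agent.P167.H825

/-- polynomial bound for a sequence: `|L_H p| ≤ sup_{[0,1]} |p| · C` -/
def PolyBdd (H : ℕ → ℝ) (C : ℝ) : Prop :=
  ∀ (p : ℝ[X]) (M : ℝ), (∀ x ∈ Set.Icc (0 : ℝ) 1, |p.eval x| ≤ M) → |Lf H p| ≤ M * C

section form

variable {V : Type*} [AddCommGroup V] [Module ℝ V]

/-- data for a leg: a symmetric positive semidefinite form and a positive symmetric shift with
bounded diagonal correlations -/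
structure LegForm (B : V →ₗ[ℝ] V →ₗ[ℝ] ℝ) (T : V →ₗ[ℝ] V) : Prop where
  symm : ∀ x y, B x y = B y x
  nonneg : ∀ x, 0 ≤ B x x
  shift : ∀ x y, B (T x) y = B x (T y)
  shift_nonneg : ∀ x, 0 ≤ B x (T x)
  bdd : ∀ x, ∃ C : ℝ, ∀ n : ℕ, B x ((T ^ n) x) ≤ C

variable {B : V →ₗ[ℝ] V →ₗ[ℝ] ℝ} {T : V →ₗ[ℝ] V}

theorem LegForm.shift_pow (h : LegForm B T) (i : ℕ) (x y : V) :
    B ((T ^ i) x) y = B x ((T ^ i) y) := by
  induction i generalizing x y with
  | zero => simp
  | succ i ih =>
    rw [pow_succ, Module.End.mul_apply, ih, h.shift, ← Module.End.mul_apply, ← pow_succ',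
      ← pow_succ]

theorem LegForm.cs (h : LegForm B T) (x y : V) : B x y ^ 2 ≤ B x x * B y y := by
  have key : ∀ t : ℝ, 0 ≤ B y y * t ^ 2 + 2 * B x y * t + B x x := by
    intro t
    have := h.nonneg (x + t • y)
    simp only [map_add, map_smul, LinearMap.add_apply, LinearMap.smul_apply, smul_eq_mul,
      h.symm y x] at this
    nlinarith
  have := discrim_le_zero (a := B y y) (b := 2 * B x y) (c := B x x) (fun t => by
    have := key t
    nlinarith)
  unfold discrim at this
  nlinarith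

theorem LegForm.abs_le (h : LegForm B T) (x y : V) :
    |B x y| ≤ √(B x x) * √(B y y) := by
  rw [← Real.sqrt_mul (h.nonneg x)]
  exact Real.abs_le_sqrt (h.cs x y)

theorem LegForm.exists_measure (h : LegForm B T) (x : V) :
    ∃ μ : FiniteMeasure I, ∀ i : ℕ,
      ∫ t : I, (t : ℝ) ^ i ∂(μ : Measure I) = B x ((T ^ i) x) := by
  obtain ⟨C, hC⟩ := h.bdd x
  have hsum : ∀ (s : Finset ℕ) (a : ℕ → ℝ) (k : ℕ),
      ∑ i ∈ s, ∑ j ∈ s, a i * a j * B x ((T ^ (i + j + k)) x) =
      B (∑ i ∈ s, a i • (T ^ i) x) ((T ^ k) (∑ i ∈ s, a i • (T ^ i) x)) := by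
    intro s a k
    simp only [map_sum, map_smul, LinearMap.sum_apply, LinearMap.smul_apply, smul_eq_mul,
      Finset.mul_sum]
    rw [Finset.sum_comm]
    refine Finset.sum_congr rfl fun i _ => Finset.sum_congr rfl fun j _ => ?_
    rw [h.shift_pow, ← Module.End.mul_apply, ← Module.End.mul_apply, ← pow_add, ← pow_add]
    rw [show j + i + k = j + (k + i) by ring]
    ring_nf
  apply hausdorff _ C
  · intro n
    have h0 : 0 ≤ B x ((T ^ n) x) := by
      obtain ⟨m, hm⟩ := Nat.even_or_odd' n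
      rcases hm with rfl | rfl
      · rw [two_mul, pow_add, Module.End.mul_apply, ← h.shift_pow]
        exact h.nonneg _
      · rw [show 2 * m + 1 = m + (1 + m) by ring, pow_add, Module.End.mul_apply, ← h.shift_pow,
          pow_add, pow_one, Module.End.mul_apply]
        exact h.shift_nonneg _
    rw [abs_of_nonneg h0]
    exact hC n
  · intro s a
    have := hsum s a 0
    simp only [add_zero, pow_zero] at this
    rw [this]
    exact h.nonneg _
  · intro s a
    have := hsum s a 1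
    simp only [pow_one] at this
    rw [this]
    exact h.shift_nonneg _

theorem LegForm.aeval_eq_Lf (x y : V) (p : ℝ[X]) :
    B x (aeval T p y) = Lf (fun i => B x ((T ^ i) y)) p := by
  rw [Lf_apply, aeval_eq_sum_range, Polynomial.sum_over_range]
  · simp [mul_comm]
  · simp

theorem LegForm.int_eq (x : V) (μ : FiniteMeasure I)
    (hμ : ∀ i : ℕ, ∫ t : I, (t : ℝ) ^ i ∂(μ : Measure I) = B x ((T ^ i) x)) (p : ℝ[X]) :
    B x (aeval T p x) = ∫ t : I, p.eval (t : ℝ) ∂(μ : Measure I) := by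
  rw [aeval_eq_sum_range]
  simp only [LinearMap.sum_apply, map_sum, LinearMap.smul_apply, map_smul, smul_eq_mul]
  simp_rw [eval_eq_sum_range]
  rw [integral_finsetSum]
  · refine Finset.sum_congr rfl fun i _ => ?_
    rw [← hμ i, integral_const_mul]
  · intro i _
    apply Integrable.const_mul
    apply Continuous.integrable_of_hasCompactSupport
    · fun_prop
    · exact HasCompactSupport.of_compactSpace _

/-- **leg inequality** -/
theorem LegForm.leg_ineq (h : LegForm B T) (x y : V) (p : ℝ[X]) (M : ℝ)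
    (hM : ∀ t ∈ Set.Icc (0 : ℝ) 1, |p.eval t| ≤ M) :
    |B x (aeval T p y)| ≤ M * (√(B x x) * √(B y y)) := by
  have hM0 : 0 ≤ M := (abs_nonneg _).trans (hM 0 (by simp))
  obtain ⟨μ, hμ⟩ := h.exists_measure y
  have h1 : B (aeval T p y) (aeval T p y) ≤ M ^ 2 * B y y := by
    have e1 : B (aeval T p y) (aeval T p y) = B y (aeval T (p * p) y) := by
      rw [map_mul, Module.End.mul_apply]
      have : ∀ (q : ℝ[X]) (u v : V), B (aeval T q u) v = B u (aeval T q v) := by
        intro q u v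
        rw [aeval_eq_sum_range]
        simp [LinearMap.sum_apply, h.shift_pow]
      rw [this]
    rw [e1, LegForm.int_eq y μ hμ]
    have e2 : B y y = ∫ t : I, (1 : ℝ) ∂(μ : Measure I) := by
      have := hμ 0
      simpa using this.symm
    rw [e2, ← integral_const_mul]
    apply integral_mono
    · apply Continuous.integrable_of_hasCompactSupport
      · fun_prop
      · exact HasCompactSupport.of_compactSpace _
    · exact integrable_const _
    · intro t
      simp only [eval_mul, mul_one]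
      have := hM t t.2
      nlinarith [abs_nonneg (p.eval (t : ℝ)), sq_abs (p.eval (t : ℝ))]
  calc |B x (aeval T p y)| ≤ √(B x x) * √(B (aeval T p y) (aeval T p y)) := h.abs_le _ _
    _ ≤ √(B x x) * √(M ^ 2 * B y y) := by gcongr
    _ = M * (√(B x x) * √(B y y)) := by
      rw [Real.sqrt_mul (sq_nonneg M), Real.sqrt_sq hM0]; ring

/-- the off-diagonal correlations of a leg are `PolyBdd` -/
theorem LegForm.polyBdd (h : LegForm B T) (x y : V) {C : ℝ} (hC : √(B x x) * √(B y y) ≤ C) :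
    PolyBdd (fun i => B x ((T ^ i) y)) C := by
  intro p M hM
  have hM0 : 0 ≤ M := (abs_nonneg _).trans (hM 0 (by simp))
  rw [← LegForm.aeval_eq_Lf]
  exact (h.leg_ineq x y p M hM).trans (by gcongr)

end form

/-! ### extrapolation -/

theorem one_sub_pow_le {x : ℝ} (hx1 : x ≤ 1) (j : ℕ) :
    1 - (1 - x) ^ j ≤ j * x := by
  have := one_add_mul_le_pow (a := -x) (by linarith) j
  have e : (1 + -x) ^ j = (1 - x) ^ j := by ring
  rw [e] at this
  nlinarith

/-- choice of the exponent -/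
theorem exists_exp (η : ℝ) (hη : 0 < η) (r : ℕ) :
    ∃ n : ℕ, ∀ u ∈ Set.Icc (0 : ℝ) 1, u * (1 - u ^ r) ^ n ≤ η := by
  rcases le_or_gt 1 η with h1 | h1
  · refine ⟨0, fun u hu => ?_⟩
    simpa using hu.2.trans h1
  obtain ⟨n, hn⟩ := exists_pow_lt_of_lt_one hη (show 1 - η ^ r < 1 by
    have := pow_pos hη r; linarith)
  refine ⟨n, fun u hu => ?_⟩
  have hur : u ^ r ≤ 1 := pow_le_one₀ hu.1 hu.2
  have hur0 : 0 ≤ u ^ r := pow_nonneg hu.1 r
  rcases le_or_gt u η with h2 | h2
  · calc u * (1 - u ^ r) ^ n ≤ u * 1 := by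
          gcongr
          · exact hu.1
          · exact pow_le_one₀ (by linarith) (by linarith)
      _ ≤ η := by linarith
  · calc u * (1 - u ^ r) ^ n ≤ 1 * (1 - η ^ r) ^ n := by
          have : η ^ r ≤ u ^ r := by gcongr
          apply mul_le_mul hu.2 _ (pow_nonneg (by linarith) n) zero_le_one
          gcongr
      _ ≤ η := by linarith

/-- **extrapolation**: uniform in the sequence `H`, in the unit `b` and in the position `m` -/
theorem extrap (r j : ℕ) (η : ℝ) (hη : 0 < η) :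
    ∃ (D : ℕ) (K : ℝ), 0 ≤ K ∧ ∀ (H : ℕ → ℝ) (C ε : ℝ), 0 ≤ ε → PolyBdd H C →
      ∀ b m : ℕ, b ≤ r * m → (∀ k ≤ D, |H (m + (j + k) * b)| ≤ ε) →
        |H m| ≤ η * C + K * ε := by
  classical
  obtain ⟨n, hn⟩ := exists_exp (η / (j + 1)) (by positivity) r
  -- `1 - (1 - Y)^n = Y * g`
  obtain ⟨g, hg⟩ : ∃ g : ℝ[X], 1 - (1 - X) ^ n = X * g := by
    have : (1 : ℝ[X]) - (1 - X) ∣ 1 ^ n - (1 - X) ^ n := sub_dvd_pow_sub_pow _ _ _
    rw [one_pow, sub_sub_cancel] at this
    exact this
  set q : ℝ[X] := g ^ j with hq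
  refine ⟨q.natDegree, ∑ k ∈ Finset.range (q.natDegree + 1), |q.coeff k|,
    Finset.sum_nonneg fun _ _ => abs_nonneg _, ?_⟩
  intro H C ε hε hH b m hbm hsmall
  set p : ℝ[X] := X ^ m - X ^ m * X ^ (j * b) * expand ℝ b q with hp
  have hC : 0 ≤ C := by
    have := hH 1 1 (by intro x _; simp)
    have h2 := abs_nonneg (Lf H 1)
    linarith
  have hbd : ∀ x ∈ Set.Icc (0 : ℝ) 1, |p.eval x| ≤ η := by
    intro x hx
    set y : ℝ := x ^ b with hy
    have hy0 : 0 ≤ y := pow_nonneg hx.1 b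
    have hy1 : y ≤ 1 := pow_le_one₀ hx.1 hx.2
    set u : ℝ := x ^ m with hu
    have hu0 : 0 ≤ u := pow_nonneg hx.1 m
    have hu1 : u ≤ 1 := pow_le_one₀ hx.1 hx.2
    have hge : y * g.eval y = 1 - (1 - y) ^ n := by
      have := congrArg (eval y) hg
      simpa using this.symm
    have hpe : p.eval x = u * (1 - (1 - (1 - y) ^ n) ^ j) := by
      have hyj : x ^ (j * b) = y ^ j := by rw [hy, ← pow_mul, mul_comm]
      simp only [hp, eval_sub, eval_mul, eval_pow, eval_X, expand_eval, hq, hyj]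
      rw [← hge, mul_pow]
      ring
    have hz0 : 0 ≤ (1 - y) ^ n := pow_nonneg (by linarith) n
    have hz1 : (1 - y) ^ n ≤ 1 := pow_le_one₀ (by linarith) (by linarith)
    have h1 : (1 - (1 - y) ^ n) ^ j ≤ 1 := pow_le_one₀ (by linarith) (by linarith)
    have h2 : 1 - (1 - (1 - y) ^ n) ^ j ≤ j * (1 - y) ^ n := one_sub_pow_le hz1 j
    rw [hpe, abs_of_nonneg (mul_nonneg hu0 (by linarith))]
    have h3 : u ^ r ≤ y := by
      rw [hu, hy, ← pow_mul, mul_comm m r]
      exact pow_le_pow_of_le_one hx.1 hx.2 hbm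
    have h4 : (1 - y) ^ n ≤ (1 - u ^ r) ^ n := by
      gcongr
    calc u * (1 - (1 - (1 - y) ^ n) ^ j) ≤ u * (j * (1 - u ^ r) ^ n) := by
          apply mul_le_mul_of_nonneg_left _ hu0
          exact h2.trans (mul_le_mul_of_nonneg_left h4 (by positivity))
      _ = j * (u * (1 - u ^ r) ^ n) := by ring
      _ ≤ j * (η / (j + 1)) := by
          gcongr
          exact hn u ⟨hu0, hu1⟩
      _ ≤ η := by
          rw [mul_div_assoc', div_le_iff₀ (by positivity)]
          nlinarith
  have hL : Lf H p = H m - ∑ k ∈ Finset.range (q.natDegree + 1),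
      q.coeff k * H (m + (j + k) * b) := by
    rw [hp, map_sub, Lf_X_pow]
    congr 1
    have e : expand ℝ b q = ∑ k ∈ Finset.range (q.natDegree + 1),
        q.coeff k • (X : ℝ[X]) ^ (b * k) := by
      conv_lhs => rw [q.as_sum_range_C_mul_X_pow]
      simp only [map_sum, map_mul, expand_C, map_pow, expand_X]
      refine Finset.sum_congr rfl fun k _ => ?_
      rw [← pow_mul, smul_eq_C_mul]
    rw [e, Finset.mul_sum, map_sum]
    refine Finset.sum_congr rfl fun k _ => ?_
    rw [mul_smul_comm, map_smul, ← pow_add, ← pow_add, Lf_X_pow, smul_eq_mul]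
    congr 2
    ring
  have h1 := hH p η hbd
  rw [hL] at h1
  have h2 : |∑ k ∈ Finset.range (q.natDegree + 1), q.coeff k * H (m + (j + k) * b)| ≤
      (∑ k ∈ Finset.range (q.natDegree + 1), |q.coeff k|) * ε := by
    rw [Finset.sum_mul]
    refine (Finset.abs_sum_le_sum_abs _ _).trans (Finset.sum_le_sum fun k hk => ?_)
    rw [abs_mul]
    apply mul_le_mul_of_nonneg_left _ (abs_nonneg _)
    exact hsmall k (Nat.lt_succ_iff.mp (Finset.mem_range.mp hk))
  have h3 := abs_sub_abs_le_abs_sub (H m)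
    (∑ k ∈ Finset.range (q.natDegree + 1), q.coeff k * H (m + (j + k) * b))
  linarith

/-- **leg in the limit** `N → ∞`. `F N g n` is the value for the observables `g` (admissible at
scale `N`) when one group has been moved by `n` lattice steps; the two groups are separated by
`s N g ≥ N / r` lattice steps. If the values at every large integer macroscopic distance `k`
(that is `n = k N`) tend to zero uniformly in `g`, then so do the values at `n = 0`. -/
theorem leg_limit {ι : ℕ → Type*} (F : ∀ N : ℕ, ι N → ℕ → ℝ) (C : ℝ) (r : ℕ)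
    (hF : ∀ᶠ N : ℕ in atTop, ∀ g : ι N, ∃ (H : ℕ → ℝ) (m : ℕ), PolyBdd H C ∧ N ≤ r * m ∧
      ∀ n, F N g n = H (m + n))
    (j : ℕ) (hlarge : ∀ k, j ≤ k → ∀ ε > 0, ∀ᶠ N : ℕ in atTop, ∀ g : ι N, |F N g (k * N)| ≤ ε) :
    ∀ ε > 0, ∀ᶠ N : ℕ in atTop, ∀ g : ι N, |F N g 0| ≤ ε := by
  intro ε hε
  obtain ⟨D, K, hK, hD⟩ := extrap r j (ε / (2 * (|C| + 1))) (by positivity)
  have h1 : ∀ k : ℕ, ∀ᶠ N : ℕ in atTop, ∀ g : ι N,
      |F N g ((j + k) * N)| ≤ ε / (2 * (K + 1)) := fun k =>
    hlarge (j + k) (Nat.le_add_right _ _) _ (by positivity)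
  have h2 : ∀ᶠ N : ℕ in atTop, ∀ k ∈ Finset.range (D + 1), ∀ g : ι N,
      |F N g ((j + k) * N)| ≤ ε / (2 * (K + 1)) := by
    rw [Filter.eventually_all_finset]
    exact fun k _ => h1 k
  filter_upwards [hF, h2] with N hN h2N g
  obtain ⟨H, m, hH, hm, hFH⟩ := hN g
  have h3 := hD H C (ε / (2 * (K + 1))) (by positivity) hH N m hm (fun k hk => by
    rw [← hFH]
    exact h2N k (Finset.mem_range.mpr (Nat.lt_succ_of_le hk)) g)
  rw [hFH 0, add_zero]
  refine h3.trans ?_
  have h4 : ε / (2 * (|C| + 1)) * C ≤ ε / 2 := by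
    rw [div_mul_eq_mul_div, div_le_div_iff₀ (by positivity) (by positivity)]
    have := le_abs_self C
    nlinarith
  have h5 : K * (ε / (2 * (K + 1))) ≤ ε / 2 := by
    rw [mul_div_assoc', div_le_div_iff₀ (by positivity) (by positivity)]
    nlinarith
  linarith

theorem leg_limit_seq (F : ℕ → ℕ → ℝ) (N : ℕ → ℕ) (C : ℝ)
    (hF : ∀ n, ∃ H : ℕ → ℝ, PolyBdd H C ∧ ∀ i, F n i = H (N n + i))
    (k0 : ℕ) (hlarge : ∀ k, k0 ≤ k → Tendsto (fun n => F n (k * N n)) atTop (𝓝 0)) :
    Tendsto (fun n => F n 0) atTop (𝓝 0) := by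
  rw [Metric.tendsto_atTop]
  intro ε hε
  obtain ⟨D, K, hK, hD⟩ := extrap 1 k0 (ε / (4 * (|C| + 1))) (by positivity)
  have h1 : ∀ k : ℕ, ∀ᶠ n : ℕ in atTop, |F n ((k0 + k) * N n)| ≤ ε / (4 * (K + 1)) := by
    intro k
    have := hlarge (k0 + k) (Nat.le_add_right _ _)
    rw [Metric.tendsto_atTop] at this
    obtain ⟨M, hM⟩ := this (ε / (4 * (K + 1))) (by positivity)
    filter_upwards [eventually_ge_atTop M] with n hn
    have := hM n hn
    rw [Real.dist_eq, sub_zero] at this
    exact this.le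
  have h2 : ∀ᶠ n : ℕ in atTop, ∀ k ∈ Finset.range (D + 1),
      |F n ((k0 + k) * N n)| ≤ ε / (4 * (K + 1)) := by
    rw [Filter.eventually_all_finset]
    exact fun k _ => h1 k
  obtain ⟨M, hM⟩ := eventually_atTop.mp h2
  refine ⟨M, fun n hn => ?_⟩
  obtain ⟨H, hH, hFH⟩ := hF n
  have h3 := hD H C (ε / (4 * (K + 1))) (by positivity) hH (N n) (N n) (by omega) (fun k hk => by
    rw [← hFH]
    exact hM n hn k (Finset.mem_range.mpr (Nat.lt_succ_of_le hk)))
  rw [Real.dist_eq, sub_zero, hFH 0, add_zero]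
  refine lt_of_le_of_lt h3 ?_
  have h4 : ε / (4 * (|C| + 1)) * C ≤ ε / 4 := by
    rw [div_mul_eq_mul_div, div_le_div_iff₀ (by positivity) (by positivity)]
    have := le_abs_self C
    nlinarith
  have h5 : K * (ε / (4 * (K + 1))) ≤ ε / 4 := by
    rw [mul_div_assoc', div_le_div_iff₀ (by positivity) (by positivity)]
    nlinarith
  linarith

theorem Lf_add (H H' : ℕ → ℝ) (p : ℝ[X]) :
    Lf (fun i => H i + H' i) p = Lf H p + Lf H' p := by
  simp only [Lf_apply, Polynomial.sum_def, add_mul, Finset.sum_add_distrib]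

theorem Lf_sub (H H' : ℕ → ℝ) (p : ℝ[X]) :
    Lf (fun i => H i - H' i) p = Lf H p - Lf H' p := by
  simp only [Lf_apply, Polynomial.sum_def, sub_mul, Finset.sum_sub_distrib]

theorem PolyBdd.add {H H' : ℕ → ℝ} {C C' : ℝ} (h : PolyBdd H C) (h' : PolyBdd H' C') :
    PolyBdd (fun i => H i + H' i) (C + C') := by
  intro p M hM
  rw [Lf_add, mul_add]
  exact (abs_add_le _ _).trans (add_le_add (h p M hM) (h' p M hM))

theorem PolyBdd.sub {H H' : ℕ → ℝ} {C C' : ℝ} (h : PolyBdd H C) (h' : PolyBdd H' C') :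
    PolyBdd (fun i => H i - H' i) (C + C') := by
  intro p M hM
  rw [Lf_sub, mul_add]
  exact (abs_sub _ _).trans (add_le_add (h p M hM) (h' p M hM))


end Vale.Agent.P167.H825
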